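import Vale.Agent.P092.H145.G10
import Vale.Agent.P092.CL.Lt

/-!
P092 (helper145), team P, row [P2-WL]: the word lemma for the concrete letters `CL.lt`.
-/

set_option linter.all false

open scoped InnerProductSpace ENNReal Matrix
open Filter Topology ContinuousLinearMap MeasureTheory TopologicalSpace Matrix Module Set

namespace Vale.Agent.P092.H145.G11

open Vale.Agent.P092.RC (Cm TRN)
open Vale.Agent.P092.CL (Lt Geo PB UFam ORB ta nmM NW1 AttS scal V2 ep em p0 m0 b1 b2 u1 u2 lt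
  hf_ep hf_span ep_li)
open Vale.Agent.P092.H145.G10 (LtOk)
open Vale.Agent.P092.H303 (FormGroup Idx hyp torF torF_mem root2 root2_mem hypAt_l hypAt_r dgF)
open Vale.Agent.P092.H714.Cl
open Vale.Agent.P092.H370.Po (SGr Inc Col Sing smul_S smul_eq_of_fix mem_act)

/-- the coordinates can be numbered -/
theorem exists_e (n : Type) [Fintype n] [Nonempty n] : ∃ N : ℕ, Nonempty (n ≃ Fin (N + 1)) :=
  ⟨Fintype.card n - 1, ⟨Fintype.equivFinOfCardEq (by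
    have := Fintype.card_pos (α := n)
    omega)⟩⟩

section fix

variable {k : Type} [NontriviallyNormedField k] {ι : Type} [Fintype ι] [DecidableEq ι]
  {s : ℕ} {σ : k →+* k} {ε : k} {J₀ : Matrix ι ι k}

theorem span_supp {I : Set (Fin (s + 2))} {x : Idx (s + 2) ι → k}
    (hx : x ∈ Submodule.span k (ep k ι '' I)) (i : Fin (s + 2)) : x (Sum.inl (Sum.inr i)) = 0 := by
  induction hx using Submodule.span_induction with
  | mem x hx =>
    obtain ⟨j, -, rfl⟩ := hx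
    exact Pi.single_eq_of_ne (by simp) _
  | zero => rfl
  | add a b _ _ ha hb => rw [Pi.add_apply, ha, hb, add_zero]
  | smul c a _ ha => rw [Pi.smul_apply, ha, smul_zero]

theorem vm_tr {n : Type} [Fintype n] [DecidableEq n] {x : n → k} {a : n} (b : n) (h : x a = 0)
    (t : k) : x ᵥ* transvection a b t = x := by
  unfold transvection
  rw [vecMul_add, vecMul_one]
  have e : x ᵥ* Matrix.single a b t = 0 := by
    funext j
    change ∑ i, x i * Matrix.single a b t i j = 0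
    refine Finset.sum_eq_zero fun i _ => ?_
    by_cases hi : a = i
    · rw [← hi, h, zero_mul]
    · rw [Matrix.single_apply, if_neg fun hh => hi hh.1, mul_zero]
  rw [e, add_zero]

/-- `u1` fixes every point of `m0` -/
theorem u1_fix (hF : Frm σ ε (hyp (s + 2) ε J₀)) (t : k)
    (X : SGr σ (hyp (s + 2) ε J₀) 1) (hX : Inc X (m0 (σ := σ) (ε := ε) (J₀ := J₀))) :
    u1 hF t • X = X := by
  refine smul_eq_of_fix fun x hx => ?_
  have hx' : x ∈ Submodule.span k (ep k ι '' univ) := hX hx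
  have h0 := span_supp hx' 0
  have h1 := span_supp hx' 1
  change x ᵥ* (transvection (Sum.inl (Sum.inr 0)) (Sum.inl (Sum.inl 1)) t *
    transvection (Sum.inl (Sum.inr 1)) (Sum.inl (Sum.inl 0)) (-(ε * σ t))) = x
  rw [← vecMul_vecMul, vm_tr _ h0, vm_tr _ h1]

/-- the point `⟨e_1⟩` -/
noncomputable def p1 : SGr σ (hyp (s + 2) ε J₀) 1 :=
  SGr.mk' (Submodule.span k (ep k ι '' {1}))
    (fun x hx y hy => hf_span hx hy) (by
      rw [image_singleton]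
      exact finrank_span_singleton (ep_li.ne_zero 1))

theorem p1_inc : Inc (p1 : SGr σ (hyp (s + 2) ε J₀) 1) m0 :=
  Submodule.span_mono (image_mono (subset_univ _))

theorem ep_mem_p1 : ep k ι 1 ∈ (p1 : SGr σ (hyp (s + 2) ε J₀) 1).S :=
  Submodule.subset_span ⟨1, rfl, rfl⟩

theorem b2_p1 {w : k} (hw : w ≠ 0) (hσ : σ w = w) :
    (b2 hw hσ : FormGroup σ (hyp (s + 2) ε J₀)) • (p1 : SGr σ (hyp (s + 2) ε J₀) 1) = p1 := by
  have h1 : (b2 hw hσ : FormGroup σ (hyp (s + 2) ε J₀))⁻¹ • (p1 : SGr σ (hyp (s + 2) ε J₀) 1) =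
      p1 := by
    refine SGr.eq_of_le ?_
    rw [smul_S]
    intro y hy
    obtain ⟨x, hx, rfl⟩ := mem_act.1 hy
    have e : ((b2 hw hσ : FormGroup σ (hyp (s + 2) ε J₀))⁻¹.1)⁻¹ =
        (b2 hw hσ : FormGroup σ (hyp (s + 2) ε J₀)).1 := inv_inv _
    rw [e]
    have hx' : x ∈ Submodule.span k (ep k ι '' {(1 : Fin (s + 2))}) := hx
    rw [image_singleton, Submodule.mem_span_singleton] at hx'
    obtain ⟨c, rfl⟩ := hx'
    have e2 : (c • ep k ι (1 : Fin (s + 2))) ᵥ*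
        (b2 hw hσ : FormGroup σ (hyp (s + 2) ε J₀)).1.1 = (c * w) • ep k ι (1 : Fin (s + 2)) := by
      change (c • ep k ι (1 : Fin (s + 2))) ᵥ* diagonal (dgF (s + 2) ι w fun _ => 1) = _
      funext i
      rw [vecMul_diagonal]
      change c * (Pi.single (Sum.inl (Sum.inl 1)) (1 : k) : Idx (s + 2) ι → k) i *
        dgF (s + 2) ι w (fun _ => 1) i = (c * w) *
        (Pi.single (Sum.inl (Sum.inl 1)) (1 : k) : Idx (s + 2) ι → k) i
      by_cases hi : i = Sum.inl (Sum.inl 1)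
      · subst hi
        rw [Pi.single_eq_same]
        change c * 1 * w ^ (1 : ℤ) = _
        rw [zpow_one]
        ring
      · rw [Pi.single_eq_of_ne hi]
        ring
    rw [e2]
    exact Submodule.smul_mem _ _ ep_mem_p1
  conv_lhs => rw [← h1]
  rw [smul_inv_smul]

/-- `u2` fixes every maximal subspace through `⟨e_1⟩` -/
theorem u2_fix (hF : Frm σ ε (hyp (s + 2) ε J₀)) (c : V2 σ ε) {j : ℕ}
    (X : SGr σ (hyp (s + 2) ε J₀) j) (hX : Inc (p1 (σ := σ) (ε := ε) (J₀ := J₀)) X) :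
    u2 hF c • X = X := by
  refine smul_eq_of_fix fun x hx => ?_
  have h1 : hf σ (hyp (s + 2) ε J₀) x (ep k ι 1) = 0 := X.sing x hx _ (hX ep_mem_p1)
  change x ᵥ* (tv σ (hyp (s + 2) ε J₀) (ep k ι 1) c.1).1 = x
  rw [vecMul_tv (hf_ep 1 1), h1, mul_zero, zero_smul, add_zero]

theorem v2_proper [ProperSpace k] (hσc : Continuous σ) : ProperSpace (V2 σ ε) := by
  have hc : IsClosed (V2 σ ε : Set k) :=
    isClosed_eq (continuous_id.add (continuous_const.mul hσc)) continuous_const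
  exact ⟨fun x r => hc.isClosedEmbedding_subtypeVal.isCompact_preimage
    (isCompact_closedBall (x : k) r)⟩

end fix

section main

variable {k : Type} [NontriviallyNormedField k] [IsUltrametricDist k] [ProperSpace k]
  [MeasurableSpace k] {κ : Type} [Fintype κ] [DecidableEq κ]
  {s : ℕ} {σ : k →+* k} {ε : k} {J₀ : Matrix κ κ k} [Fact (Continuous σ)]
  {hF : Frm σ ε (hyp (s + 2) ε J₀)} {w : k} {hw : w ≠ 0} {hσw : σ w = w}
  {μ₁ : Measure k} {μ₂ : Measure (V2 σ ε)}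
  {E Γ K : Type} [Group E] [TopologicalSpace E] [Group Γ] [NormedAddCommGroup K]
  [InnerProductSpace ℂ K] [CompleteSpace K]
  {𝒰 : Ultrafilter ℕ} {ι : FormGroup σ (hyp (s + 2) ε J₀) →* E} {π : E →* (K →L[ℂ] K)}
  {lam : Γ →* (K →L[ℂ] K)} {W : Set (K →L[ℂ] K)} {Ω : K} {m : Set Γ → (K →L[ℂ] K)}
  {q : Γ → FormGroup σ (hyp (s + 2) ε J₀)}

theorem ltOk : LtOk (lt hF hw hσw μ₁ μ₂) where
  nm g := rfl
  nw R T B g hg := hg.1
  att R T B g hg := hg.2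

/-- **(w0s) for the concrete letters.** -/
theorem w0s_lt [BorelSpace k] [IsFiniteMeasureOnCompacts μ₁] [μ₁.IsOpenPosMeasure]
    (hσ : ∀ x, ‖σ x‖ = ‖x‖) (hG : Geo (lt hF hw hσw μ₁ μ₂))
    (hB : PB (lt hF hw hσw μ₁ μ₂) 𝒰 ι π lam W Ω m q)
    {U11 : SGr σ (hyp (s + 2) ε J₀) 1 →
      (C(SGr σ (hyp (s + 2) ε J₀) 1, ℂ) →ₗ[ℂ] (K →L[ℂ] K))}
    (hU : UFam 𝒰 (lt hF hw hσw μ₁ μ₂).b1 (lt hF hw hσw μ₁ μ₂).p0 ι π lam W m q
      ((lt hF hw hσw μ₁ μ₂).na1 q) U11 1) (X : SGr σ (hyp (s + 2) ε J₀) (s + 2))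
    {T : K →L[ℂ] K} (hT : T ∈ Submonoid.closure {T | ∃ x f, Inc x X ∧ T = U11 x f})
    {x x' : SGr σ (hyp (s + 2) ε J₀) 1} (hx : Inc x X) (hx' : Inc x' X)
    (u h : C(SGr σ (hyp (s + 2) ε J₀) 1, ℂ))
    (hO : ∀ a ∈ tsupport u, ∀ c ∈ tsupport h, ¬ Col a c) : U11 x u * T * U11 x' h = 0 := by
  haveI : Nonempty (Idx (s + 2) κ) := ⟨Sum.inl (Sum.inl 0)⟩
  obtain ⟨N, ⟨e⟩⟩ := exists_e (Idx (s + 2) κ)
  haveI : IsFiniteMeasureOnCompacts (lt hF hw hσw μ₁ μ₂).μ₁ :=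
    inferInstanceAs (IsFiniteMeasureOnCompacts μ₁)
  haveI : (lt hF hw hσw μ₁ μ₂).μ₁.IsOpenPosMeasure := inferInstanceAs μ₁.IsOpenPosMeasure
  exact G10.w0s (L := lt hF hw hσw μ₁ μ₂) hF hσ e ltOk hG (fun t x hx => u1_fix hF t x hx) hB hU
    X hT hx hx' u h hO

/-- **(w0f) for the concrete letters.** -/
theorem w0f_lt [BorelSpace k] [IsFiniteMeasureOnCompacts μ₂] [μ₂.IsOpenPosMeasure]
    (hσ : ∀ x, ‖σ x‖ = ‖x‖) (hG : Geo (lt hF hw hσw μ₁ μ₂))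
    (hB : PB (lt hF hw hσw μ₁ μ₂) 𝒰 ι π lam W Ω m q)
    {U21 : SGr σ (hyp (s + 2) ε J₀) (s + 2) →
      (C(SGr σ (hyp (s + 2) ε J₀) 1, ℂ) →ₗ[ℂ] (K →L[ℂ] K))}
    (hU : UFam 𝒰 (lt hF hw hσw μ₁ μ₂).b2 (lt hF hw hσw μ₁ μ₂).m0 ι π lam W m q
      ((lt hF hw hσw μ₁ μ₂).na1 q) U21 1) (c : SGr σ (hyp (s + 2) ε J₀) 1)
    {T : K →L[ℂ] K} (hT : T ∈ Submonoid.closure {T | ∃ w f, Inc c w ∧ T = U21 w f})
    {y y' : SGr σ (hyp (s + 2) ε J₀) (s + 2)} (hy : Inc c y) (hy' : Inc c y')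
    (u h : C(SGr σ (hyp (s + 2) ε J₀) 1, ℂ))
    (hO : ∀ a ∈ tsupport u, ∀ c ∈ tsupport h, ¬ Col a c) : U21 y u * T * U21 y' h = 0 := by
  haveI : Nonempty (Idx (s + 2) κ) := ⟨Sum.inl (Sum.inl 0)⟩
  obtain ⟨N, ⟨e⟩⟩ := exists_e (Idx (s + 2) κ)
  haveI : ProperSpace (V2 σ ε) := v2_proper Fact.out
  haveI : IsFiniteMeasureOnCompacts (lt hF hw hσw μ₁ μ₂).μ₂ :=
    inferInstanceAs (IsFiniteMeasureOnCompacts μ₂)
  haveI : (lt hF hw hσw μ₁ μ₂).μ₂.IsOpenPosMeasure := inferInstanceAs μ₂.IsOpenPosMeasure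
  exact G10.w0f (L := lt hF hw hσw μ₁ μ₂) hF hσ e ltOk hG (p1 := p1) p1_inc (b2_p1 hw hσw)
    (fun s w hw => u2_fix hF s w hw) hB hU c hT hy hy' u h hO

end main

end Vale.Agent.P092.H145.G11
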