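import Vale.Agent.P092.H145.GP
import Vale.Agent.P092.H145.G11
import Vale.Agent.P092.CL.LtO

/-!
P092 (helper145), team P, row [P2-WL]: the word lemma for the orthogonal letters `CL.ltO`.
-/

set_option linter.all false

open scoped InnerProductSpace ENNReal Matrix
open Filter Topology ContinuousLinearMap MeasureTheory TopologicalSpace Matrix Module Set

namespace Vale.Agent.P092.H145.GPO

open Vale.Agent.P092.RC (Cm TRN)
open Vale.Agent.P092.CL (Lt Geo PB UFam ORB ta nmM NW1 AttS scal ep em p0 m0 b1 b2 b1O b2O u1O u2O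
  e0 OF EUF ltO hf_ep hf_span ep_li)
open Vale.Agent.P092.H145.GP (FrH LtOk)
open Vale.Agent.P092.H145.G11 (p1 p1_inc ep_mem_p1 b2_p1 exists_e)
open Vale.Agent.P092.H303 (FormGroup Idx hyp)
open Vale.Agent.P092.H714.Cl
open Vale.Agent.P092.H370.Po (SGr Inc Col Sing smul_S smul_eq_of_fix mem_act)
open Vale.Agent.P092.H370.Fo (vecMul_ei)

section fix

variable {k : Type} [NontriviallyNormedField k] {ι : Type} [Fintype ι] [DecidableEq ι]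
  {J₀ : Matrix ι ι k}

theorem frH (h : OF J₀) (s : ℕ) : FrH (RingHom.id k) 1 (hyp (s + 2) 1 J₀) :=
  ⟨(h.fm s).inv, (h.fm s).eps, (h.fm s).herm, (h.fm s).nondeg⟩

/-- `u1O` fixes every point of `m0` -/
theorem u1O_fix (h : OF J₀) (s : ℕ) (t : k) (X : SGr (RingHom.id k) (hyp (s + 2) 1 J₀) 1)
    (hX : Inc X (m0 (σ := RingHom.id k) (ε := 1) (J₀ := J₀))) : u1O h s t • X = X := by
  refine smul_eq_of_fix (g := (u1O h s t).1) fun x hx => ?_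
  have hx' : x ∈ Submodule.span k (ep k ι '' univ) := hX hx
  have e : ∀ i : Fin (s + 2), hf (RingHom.id k) (hyp (s + 2) 1 J₀) x (ep k ι i) = 0 := fun i =>
    hf_span hx' (Submodule.subset_span ⟨i, trivial, rfl⟩)
  refine (vecMul_ei (h.fm s) (h.ep1 s t) x).trans ?_
  rw [hf_smul_right, e, e]
  simp

/-- `u2O` preserves every singular subspace through `⟨e_1⟩` -/
theorem u2O_fix (h : OF J₀) (s : ℕ) (v : ι → k) {j : ℕ}
    (X : SGr (RingHom.id k) (hyp (s + 2) 1 J₀) j)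
    (hX : Inc (p1 (σ := RingHom.id k) (ε := 1) (J₀ := J₀)) X) : u2O h s v • X = X := by
  have h1 : (u2O h s v)⁻¹ • X = X := by
    refine SGr.eq_of_le ?_
    change H370.Po.act ((u2O h s v).1⁻¹).1⁻¹ X.S ≤ X.S
    intro y hy
    obtain ⟨x, hx, rfl⟩ := mem_act.1 hy
    have e : ((u2O h s v).1⁻¹).1⁻¹ = (u2O h s v).1.1 := inv_inv _
    rw [e]
    have h2 : hf (RingHom.id k) (hyp (s + 2) 1 J₀) x (ep k ι 1) = 0 :=
      X.sing x hx _ (hX ep_mem_p1)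
    have h3 : x ᵥ* (u2O h s v).1.1.1 =
        x - (1 * hf (RingHom.id k) (hyp (s + 2) 1 J₀) x (e0 s v)) • ep k ι 1 := by
      refine (vecMul_ei (h.fm s) (h.ep2 s v) x).trans ?_
      rw [h2, zero_smul, mul_zero, zero_smul, add_zero, add_zero]
    rw [h3]
    exact X.S.sub_mem hx (X.S.smul_mem _ (hX ep_mem_p1))
  conv_lhs => rw [← h1]
  rw [smul_inv_smul]

theorem b2O_p1 (h : OF J₀) (s : ℕ) {a : k} (ha : a ≠ 0) :
    b2O h s ha • (p1 : SGr (RingHom.id k) (hyp (s + 2) 1 J₀) 1) = p1 :=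
  b2_p1 (pow_ne_zero 2 ha) rfl

end fix

section main

variable {k : Type} [NontriviallyNormedField k] [IsUltrametricDist k] [ProperSpace k]
  [MeasurableSpace k] {κ : Type} [Fintype κ] [DecidableEq κ]
  {s : ℕ} {J₀ : Matrix κ κ k} [Fact (Continuous (RingHom.id k))]
  {h : OF J₀} {a : k} {ha : a ≠ 0} {μ₁ : Measure k} {μ₂ : Measure (κ → k)}
  {E Γ K : Type} [Group E] [TopologicalSpace E] [Group Γ] [NormedAddCommGroup K]
  [InnerProductSpace ℂ K] [CompleteSpace K]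
  {𝒰 : Ultrafilter ℕ} {ι : EUF (RingHom.id k) 1 (hyp (s + 2) 1 J₀) →* E}
  {π : E →* (K →L[ℂ] K)}
  {lam : Γ →* (K →L[ℂ] K)} {W : Set (K →L[ℂ] K)} {Ω : K} {m : Set Γ → (K →L[ℂ] K)}
  {q : Γ → EUF (RingHom.id k) 1 (hyp (s + 2) 1 J₀)}

theorem ltOkO : LtOk (EUF (RingHom.id k) 1 (hyp (s + 2) 1 J₀)).subtype
    (ltO h s ha μ₁ μ₂) where
  act g x := rfl
  nm g := rfl
  nw R T B g hg := hg.1
  att R T B g hg := hg.2

/-- **(w0s) for the orthogonal letters.** -/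
theorem w0s_ltO [BorelSpace k] [IsFiniteMeasureOnCompacts μ₁] [μ₁.IsOpenPosMeasure]
    (hG : Geo (ltO h s ha μ₁ μ₂))
    (hB : PB (ltO h s ha μ₁ μ₂) 𝒰 ι π lam W Ω m q)
    {U11 : SGr (RingHom.id k) (hyp (s + 2) 1 J₀) 1 →
      (C(SGr (RingHom.id k) (hyp (s + 2) 1 J₀) 1, ℂ) →ₗ[ℂ] (K →L[ℂ] K))}
    (hU : UFam 𝒰 (ltO h s ha μ₁ μ₂).b1 (ltO h s ha μ₁ μ₂).p0 ι π lam W m q
      ((ltO h s ha μ₁ μ₂).na1 q) U11 1) (X : SGr (RingHom.id k) (hyp (s + 2) 1 J₀) (s + 2))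
    {T : K →L[ℂ] K} (hT : T ∈ Submonoid.closure {T | ∃ x f, Inc x X ∧ T = U11 x f})
    {x x' : SGr (RingHom.id k) (hyp (s + 2) 1 J₀) 1} (hx : Inc x X) (hx' : Inc x' X)
    (u f : C(SGr (RingHom.id k) (hyp (s + 2) 1 J₀) 1, ℂ))
    (hO : ∀ a ∈ tsupport u, ∀ c ∈ tsupport f, ¬ Col a c) : U11 x u * T * U11 x' f = 0 := by
  haveI : Nonempty (Idx (s + 2) κ) := ⟨Sum.inl (Sum.inl 0)⟩
  obtain ⟨N, ⟨e⟩⟩ := exists_e (Idx (s + 2) κ)
  haveI : IsFiniteMeasureOnCompacts (ltO h s ha μ₁ μ₂).μ₁ :=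
    inferInstanceAs (IsFiniteMeasureOnCompacts μ₁)
  haveI : (ltO h s ha μ₁ μ₂).μ₁.IsOpenPosMeasure := inferInstanceAs μ₁.IsOpenPosMeasure
  exact GP.w0s (L := ltO h s ha μ₁ μ₂) (frH h s) (fun _ => rfl) e ltOkO hG
    (fun t x hx => u1O_fix h s t x hx) hB hU X hT hx hx' u f hO

/-- **(w0f) for the orthogonal letters.** -/
theorem w0f_ltO [BorelSpace k] [IsFiniteMeasureOnCompacts μ₂] [μ₂.IsOpenPosMeasure]
    (hG : Geo (ltO h s ha μ₁ μ₂))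
    (hB : PB (ltO h s ha μ₁ μ₂) 𝒰 ι π lam W Ω m q)
    {U21 : SGr (RingHom.id k) (hyp (s + 2) 1 J₀) (s + 2) →
      (C(SGr (RingHom.id k) (hyp (s + 2) 1 J₀) 1, ℂ) →ₗ[ℂ] (K →L[ℂ] K))}
    (hU : UFam 𝒰 (ltO h s ha μ₁ μ₂).b2 (ltO h s ha μ₁ μ₂).m0 ι π lam W m q
      ((ltO h s ha μ₁ μ₂).na1 q) U21 1) (c : SGr (RingHom.id k) (hyp (s + 2) 1 J₀) 1)
    {T : K →L[ℂ] K} (hT : T ∈ Submonoid.closure {T | ∃ w f, Inc c w ∧ T = U21 w f})
    {y y' : SGr (RingHom.id k) (hyp (s + 2) 1 J₀) (s + 2)} (hy : Inc c y) (hy' : Inc c y')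
    (u f : C(SGr (RingHom.id k) (hyp (s + 2) 1 J₀) 1, ℂ))
    (hO : ∀ a ∈ tsupport u, ∀ c ∈ tsupport f, ¬ Col a c) : U21 y u * T * U21 y' f = 0 := by
  haveI : Nonempty (Idx (s + 2) κ) := ⟨Sum.inl (Sum.inl 0)⟩
  obtain ⟨N, ⟨e⟩⟩ := exists_e (Idx (s + 2) κ)
  haveI : IsFiniteMeasureOnCompacts (ltO h s ha μ₁ μ₂).μ₂ :=
    inferInstanceAs (IsFiniteMeasureOnCompacts μ₂)
  haveI : (ltO h s ha μ₁ μ₂).μ₂.IsOpenPosMeasure := inferInstanceAs μ₂.IsOpenPosMeasure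
  exact GP.w0f (L := ltO h s ha μ₁ μ₂) (frH h s) (fun _ => rfl) e ltOkO hG (p1 := p1) p1_inc
    (b2O_p1 h s ha) (fun s w hw => u2O_fix h _ s w hw) hB hU c hT hy hy' u f hO

end main

end Vale.Agent.P092.H145.GPO
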