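import Vale.Agent.P092.H145.G9

/-!
P092 (helper145), team P, row [P2-WL]: **THE WORD LEMMA IN THE LETTERS OF `CL/Defs`**, every form
`Frm σ ε J`, every ultrametric local field. `S = FormGroup σ J`, `P = SGr σ J 1`.
-/

set_option linter.all false

open scoped InnerProductSpace ENNReal LinearAlgebra.Projectivization Matrix
open Filter Topology ContinuousLinearMap MeasureTheory TopologicalSpace Matrix

namespace Vale.Agent.P092.H145.G10

open Vale.Agent.P092.SD (Ms UC)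
open Vale.Agent.P092.RC (Cm TRN)
open Vale.Agent.P092.H790.CT (PicL)
open Vale.Agent.P092.H790.CTA (ORBG SIZEG)
open Vale.Agent.P092.H145.WL (Bes)
open Vale.Agent.P092.H145.WL2 (hh pi_inv_mul pi_mul_inv)
open Vale.Agent.P092.H145.WL3 (norm_eq_of_close mulVec_le)
open Vale.Agent.P092.H145.WL5 (nv norm_nv nv_ne mk_nv nv_smul pv pv_ne)
open Vale.Agent.P092.H145.WL8 (nmm)
open Vale.Agent.P092.H145.G3 (Fr NWD om_smul_left om_smul_right)
open Vale.Agent.P092.H145.G6 (wl)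
open Vale.Agent.P092.H145.G8 Vale.Agent.P092.H145.G9
open Vale.Agent.P092.SP (UL)
open Vale.Agent.P092.CL (Lt Geo PB UFam ORB)
open Vale.Agent.P092.H303 (FormGroup)
open Vale.Agent.P092.H714.Cl (hf Frm)
open Vale.Agent.P092.H370.Po (SGr Inc Col)
open Vale.Agent.P092.H416.CL (cor cor_ne roc rho Je hf_cor cor_roc pt pt_eq pt_smul pt_cont pt_inj
  col_pt)
open Matrix (SpecialLinearGroup)

section

variable {k : Type} [NontriviallyNormedField k] [IsUltrametricDist k] [ProperSpace k]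
  {n : Type} [Fintype n] [DecidableEq n] {σ : k →+* k} {ε : k} {J : Matrix n n k}
  [Fact (Continuous σ)] {N : ℕ}
  {M V₁ V₂ : Type} [MeasurableSpace V₁] [MeasurableSpace V₂]
  [MulAction (FormGroup σ J) M] [TopologicalSpace M] [CompactSpace M]
  [ContinuousConstSMul (FormGroup σ J) M] [NormedAddCommGroup V₁] [NormedAddCommGroup V₂]
  {L : Lt (FormGroup σ J) (SGr σ J 1) M V₁ V₂}
  {E Γ K : Type} [Group E] [TopologicalSpace E] [Group Γ] [NormedAddCommGroup K]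
  [InnerProductSpace ℂ K] [CompleteSpace K]
  {𝒰 : Ultrafilter ℕ} {ι : FormGroup σ J →* E} {π : E →* (K →L[ℂ] K)} {lam : Γ →* (K →L[ℂ] K)}
  {W : Set (K →L[ℂ] K)} {Ω : K} {m : Set Γ → (K →L[ℂ] K)} {q : Γ → FormGroup σ J}

/-- the conditions on the letters `nm`, `NA1` of the record -/
structure LtOk (L : Lt (FormGroup σ J) (SGr σ J 1) M V₁ V₂) : Prop where
  nm : ∀ g, L.nm g = ‖(fun i j => (g.1⁻¹).1ᵀ i j : n → n → k)‖
  nw : ∀ R T B g, g ∈ L.NA1 R T B → ∀ i i' j j',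
    ‖(g.1⁻¹).1ᵀ i j * (g.1⁻¹).1ᵀ i' j' - (g.1⁻¹).1ᵀ i' j * (g.1⁻¹).1ᵀ i j'‖ ≤
      R * ‖(fun i j => (g.1⁻¹).1ᵀ i j : n → n → k)‖
  att : ∀ R T B g, g ∈ L.NA1 R T B → ∃ X ∈ B, ∃ D : Matrix n n k, (∀ v, D *ᵥ v ∈ X.S) ∧ ∀ i i',
    ‖(g.1⁻¹).1ᵀ i i' - D i i'‖ ≤ ‖(fun i j => (g.1⁻¹).1ᵀ i j : n → n → k)‖ / T

/-- the action of `q γ` on the points -/
noncomputable def Tq (q : Γ → FormGroup σ J) (γ : Γ) : C(SGr σ J 1, SGr σ J 1) :=
  ⟨fun y => q γ • y, continuous_const_smul (q γ)⟩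

theorem hh_iota (ι : FormGroup σ J →* E) (g b : FormGroup σ J) (t : ℕ) :
    hh (ι g) (ι b) t = ι (g * b ^ t * g⁻¹)⁻¹ := by
  unfold hh
  rw [map_inv, map_mul, map_mul, map_pow, map_inv]

variable {X V : Type} [MulAction (FormGroup σ J) X] [NormedAddCommGroup V] [MeasurableSpace V]
  {μ : Measure V} {b : FormGroup σ J} {v0 : X} {nn : V → FormGroup σ J}
  {U : X → (C(SGr σ J 1, ℂ) →ₗ[ℂ] (K →L[ℂ] K))} {Q : X → Prop}

theorem exists_wg (hF : Frm σ ε J) (hσ : ∀ x, ‖σ x‖ = ‖x‖) (e : n ≃ Fin (N + 1))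
    [Nonempty (SGr σ J 1)]
    (hL : LtOk L) (hG : Geo L) (hB : PB L 𝒰 ι π lam W Ω m q)
    (hU : UFam 𝒰 b v0 ι π lam W m q (L.na1 q) U 1) (horb : ORB μ ι π lam W Ω b nn)
    (hsize : SIZEG (ι b) π Ω m fun γ => L.nm (q γ)) (hnc : Continuous nn) (hn0 : nn 0 = 1)
    (hQ : ∀ x, Q x → ∃ g : FormGroup σ J, g • v0 = x ∧
      (∀ (t : ℕ) y, Q y → Q ((g * b ^ t * g⁻¹)⁻¹ • y)) ∧
      ∀ s y, Q y → (g * nn s * g⁻¹) • y = y) :
    ∃ (J' : Matrix (Fin (N + 1)) (Fin (N + 1)) k) (bt : ℝ) (g : {x // Q x} → E)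
      (tr : {x // Q x} → ℕ → {x // Q x} → {x // Q x}),
      WG μ (ι b) (fun s => ι (nn s)) π lam W Ω m (fun γ => rho e σ J (q γ)) (Tq q) (pt e)
        (L.na1 q) σ (Je e J) J' bt (fun x : {x // Q x} => U x.1) g tr := by
  classical
  obtain ⟨J', bt, hJ⟩ := fr_cl hF hσ e
  choose g hg1 hg2 hg3 using hQ
  have hnm : ∀ g, nmm (rho e σ J g) = L.nm g := fun g => by rw [nmm_rho, hL.nm]
  haveI : IsTopologicalGroup E := hB.adm.tg
  refine ⟨J', bt, fun x => ι (g x.1 x.2),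
    fun i t j => ⟨((g i.1 i.2) * b ^ t * (g i.1 i.2)⁻¹)⁻¹ • j.1, hg2 _ i.2 t _ j.2⟩, ?_⟩
  have hpcov : ∀ (x : FormGroup σ J) v f, π (ι x) * U v f = U (x • v) f * π (ι x) := by
    intro x v f
    rw [← hU.pcov x v f, mul_assoc, pi_inv_mul, mul_one]
  constructor
  case frm => exact hJ
  case ind =>
    exact ((pt_cont e).isClosedEmbedding (pt_inj e)).isInducing
  case iso0 =>
    intro y
    have h1 : Col y y := y.sing
    rw [col_pt e] at h1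
    change hf σ (Je e J) (nv (pt e y)) (nv (pt e y)) = 0
    unfold nv
    rw [H714.Cl.hf_smul_left, H714.Cl.hf_smul_right, h1, mul_zero, mul_zero]
  case hT => exact fun γ y => pt_smul e (q γ) y
  case pic =>
    exact ⟨hB.pic.adjP, hB.pic.adjL, hB.pic.comm, hB.pic.Wadj, hB.pic.WP, hB.pic.WL,
      hB.pic.tr_adj⟩
  case ms => exact hB.ms
  case uc => exact hB.uc
  case orb => exact horb
  case nc =>
    have h1 : Continuous fun s => ι (nn s) := hB.adm.cι.comp hnc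
    have h2 := h1.tendsto 0
    rwa [hn0, map_one] at h2
  case sub =>
    intro γ
    obtain ⟨C, hC, hmul⟩ := hG.nm_mul
    refine ⟨max 1 (C * L.nm (q γ)), le_max_left _ _, fun y => ?_⟩
    rw [hnm, hnm]
    obtain ⟨z, hz, e1⟩ := hB.ph γ y
    rw [e1, hG.z_nm z hz]
    calc L.nm (q γ * q y) ≤ C * (L.nm (q γ) * L.nm (q y)) := hmul _ _
      _ = (C * L.nm (q γ)) * L.nm (q y) := by ring
      _ ≤ _ := mul_le_mul_of_nonneg_right (le_max_right _ _) (hG.nm_pos _).le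
  case nw =>
    intro R
    obtain ⟨R', hR', h1⟩ := nw_cl hF hσ e hJ R
    refine ⟨R', hR', fun η hη => ?_⟩
    obtain ⟨t, ht, h2⟩ := h1 η hη
    exact ⟨t, ht, fun A γ hγ => h2 A (q γ) (hL.nw _ _ _ _ hγ) (hL.att _ _ _ _ hγ)⟩
  case ud =>
    intro C
    obtain ⟨Mc, hMc⟩ := hB.ud (max C 0)
    refine ⟨Mc, fun S hS => hMc S fun γ hγ γ' hγ' => ?_⟩
    rw [← hnm]
    have e2 : rho e σ J (q γ' * (q γ)⁻¹) = rho e σ J (q γ') * (rho e σ J (q γ))⁻¹ := by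
      rw [map_mul, map_inv]
    rw [e2]
    unfold nmm
    refine (pi_norm_le_iff_of_nonneg (le_max_right _ _)).2 fun i => ?_
    refine (pi_norm_le_iff_of_nonneg (le_max_right _ _)).2 fun j => ?_
    have h1 := hS γ hγ γ' hγ' (((rho e σ J (q γ))⁻¹).1 *ᵥ Pi.single j 1)
    have e1 : (rho e σ J (q γ)).1 * ((rho e σ J (q γ))⁻¹).1 = 1 :=
      congrArg Subtype.val (mul_inv_cancel (rho e σ J (q γ)))
    rw [Matrix.mulVec_mulVec, Matrix.mulVec_mulVec, e1, Matrix.one_mulVec] at h1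
    have h2 : ‖(Pi.single j (1 : k) : Fin (N + 1) → k)‖ ≤ 1 := G3.norm_single_le j
    have h3 : ((rho e σ J (q γ')).1 * ((rho e σ J (q γ))⁻¹).1) *ᵥ Pi.single j 1 =
        fun i => ((rho e σ J (q γ')).1 * ((rho e σ J (q γ))⁻¹).1) i j := by
      rw [Matrix.mulVec_single_one]
      rfl
    rw [h3] at h1
    have h4 : ‖(rho e σ J (q γ') * (rho e σ J (q γ))⁻¹).1 i j‖ ≤
        C * ‖(Pi.single j (1 : k) : Fin (N + 1) → k)‖ :=
      (norm_le_pi_norm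
        (fun i => ((rho e σ J (q γ')).1 * ((rho e σ J (q γ))⁻¹).1) i j) i).trans h1
    refine h4.trans ?_
    calc C * ‖(Pi.single j (1 : k) : Fin (N + 1) → k)‖
        ≤ max C 0 * ‖(Pi.single j (1 : k) : Fin (N + 1) → k)‖ :=
          mul_le_mul_of_nonneg_right (le_max_left _ _) (norm_nonneg _)
      _ ≤ max C 0 * 1 := mul_le_mul_of_nonneg_left h2 (le_max_right _ _)
      _ = max C 0 := mul_one _
  case size =>
    simp only [hnm]
    exact hsize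
  case cm => exact fun j f => hU.cm j.1 f
  case str => exact fun j f => ((hU.ul j.1).star f).symm
  case cov =>
    intro γ j f
    have h1 := hU.cov γ j.1 (f.comp (Tq q γ))
    have e1 : CL.act (q γ) (f.comp (Tq q γ)) = f := by
      refine ContinuousMap.ext fun y => ?_
      change f (q γ • (q γ)⁻¹ • y) = f y
      rw [smul_inv_smul]
    rw [e1] at h1
    have e2 : lam γ⁻¹ * lam γ = 1 := by rw [← map_mul, inv_mul_cancel, map_one]
    change U j.1 f * lam γ = lam γ * U j.1 (f.comp (Tq q γ))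
    rw [← h1, mul_assoc, e2, mul_one]
  case bes => exact fun j => bes_of_ul (hU.ul j.1) le_rfl
  case mov =>
    intro i t j f
    rw [hh_iota, ← map_inv ι]
    have h1 := hU.pcov (g i.1 i.2 * b ^ t * (g i.1 i.2)⁻¹)⁻¹ j.1 f
    rw [← map_inv ι] at h1
    exact h1
  case fix =>
    intro i j f s
    have e1 : ι (g i.1 i.2) * ι (nn s) * (ι (g i.1 i.2))⁻¹ =
        ι (g i.1 i.2 * nn s * (g i.1 i.2)⁻¹) := by
      rw [map_mul, map_mul, map_inv]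
    rw [e1]
    have h1 := hpcov (g i.1 i.2 * nn s * (g i.1 i.2)⁻¹) j.1 f
    rw [hg3 i.1 i.2 s j.1 j.2] at h1
    exact h1.symm
  case dom =>
    intro i u A hA hu ζ δ hδ
    obtain ⟨R, hR⟩ := hU.dom (g i.1 i.2) u A hA hu ζ δ hδ
    refine ⟨R, fun t ht => ?_⟩
    have h1 := (hR t ht).frequently.filter_mono hB.h𝒰
    refine h1.mono fun N hN => ?_
    rw [hg1 i.1 i.2] at hN
    rw [hh_iota, map_inv]
    exact hN

/-- **The word lemma in the letters of `CL/Defs`.** -/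
theorem word_cl [ProperSpace V] [BorelSpace V] [IsFiniteMeasureOnCompacts μ] [μ.IsOpenPosMeasure]
    (hF : Frm σ ε J) (hσ : ∀ x, ‖σ x‖ = ‖x‖) (e : n ≃ Fin (N + 1))
    (hL : LtOk L) (hG : Geo L) (hB : PB L 𝒰 ι π lam W Ω m q)
    (hU : UFam 𝒰 b v0 ι π lam W m q (L.na1 q) U 1) (horb : ORB μ ι π lam W Ω b nn)
    (hsize : SIZEG (ι b) π Ω m fun γ => L.nm (q γ)) (hnc : Continuous nn) (hn0 : nn 0 = 1)
    (hQ : ∀ x, Q x → ∃ g : FormGroup σ J, g • v0 = x ∧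
      (∀ (t : ℕ) y, Q y → Q ((g * b ^ t * g⁻¹)⁻¹ • y)) ∧
      ∀ s y, Q y → (g * nn s * g⁻¹) • y = y)
    {T : K →L[ℂ] K} (hT : T ∈ Submonoid.closure {T | ∃ x f, Q x ∧ T = U x f}) {x x' : X}
    (hx : Q x) (hx' : Q x') (u h : C(SGr σ J 1, ℂ))
    (hO : ∀ a ∈ tsupport u, ∀ c ∈ tsupport h, ¬ Col a c) : U x u * T * U x' h = 0 := by
  haveI : Nonempty (SGr σ J 1) := ⟨L.p0⟩
  obtain ⟨J', bt, g, tr, hWG⟩ := exists_wg hF hσ e hL hG hB hU horb hsize hnc hn0 hQ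
  haveI : IsTopologicalGroup E := hB.adm.tg
  have hT' : T ∈ Submonoid.closure {T | ∃ (j : {x // Q x}) (f : C(SGr σ J 1, ℂ)),
      T = (fun x : {x // Q x} => U x.1) j f} := by
    refine Submonoid.closure_mono ?_ hT
    rintro _ ⟨x, f, hx, rfl⟩
    exact ⟨⟨x, hx⟩, f, rfl⟩
  refine hWG.w0 (μ := μ) hT' ⟨x, hx⟩ ⟨x', hx'⟩ u h fun a ha c hc => ?_
  have h1 := hO a ha c hc
  rw [col_pt e] at h1
  change hf σ (Je e J) (nv (pt e a)) (nv (pt e c)) ≠ 0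
  unfold nv
  rw [H714.Cl.hf_smul_left, H714.Cl.hf_smul_right]
  refine mul_ne_zero (inv_ne_zero (pv_ne _)) (mul_ne_zero ?_ h1)
  rw [ne_eq, map_eq_zero]
  exact inv_ne_zero (pv_ne _)

/-! ### The two instances -/

/-- **(w0s)**: the letters `U11 x`, `x` a point of the maximal subspace `X`; wall `b1`, root group
`u1` (it fixes every point of `m0`). -/
theorem w0s [ProperSpace V₁] [BorelSpace V₁] [IsFiniteMeasureOnCompacts L.μ₁]
    [L.μ₁.IsOpenPosMeasure] (hF : Frm σ ε J) (hσ : ∀ x, ‖σ x‖ = ‖x‖) (e : n ≃ Fin (N + 1))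
    (hL : LtOk L) (hG : Geo L) (hu1 : ∀ s x, L.In x L.m0 → L.u1 s • x = x)
    (hB : PB L 𝒰 ι π lam W Ω m q) {U11 : SGr σ J 1 → (C(SGr σ J 1, ℂ) →ₗ[ℂ] (K →L[ℂ] K))}
    (hU : UFam 𝒰 L.b1 L.p0 ι π lam W m q (L.na1 q) U11 1) (X : M)
    {T : K →L[ℂ] K} (hT : T ∈ Submonoid.closure {T | ∃ x f, L.In x X ∧ T = U11 x f})
    {x x' : SGr σ J 1} (hx : L.In x X) (hx' : L.In x' X) (u h : C(SGr σ J 1, ℂ))
    (hO : ∀ a ∈ tsupport u, ∀ c ∈ tsupport h, ¬ Col a c) : U11 x u * T * U11 x' h = 0 := by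
  refine word_cl (Q := fun x => L.In x X) hF hσ e hL hG hB hU hB.orb1 hB.size1 hG.u1c hG.u10
    (fun x hx => ?_) hT hx hx' u h hO
  obtain ⟨g, hg1, hg2⟩ := hG.flag x X hx
  have hb : ∀ t : ℕ, (g * L.b1 ^ t * g⁻¹)⁻¹ • X = X := by
    intro t
    have h1 : L.b1 ^ t • L.m0 = L.m0 := by
      induction t with
      | zero => rw [pow_zero, one_smul]
      | succ t ih => rw [pow_succ, mul_smul, hG.b1m, ih]
    rw [inv_smul_eq_iff, ← hg2, mul_smul, inv_smul_smul, mul_smul, h1]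
  refine ⟨g, hg1, fun t y hy => ?_, fun s y hy => ?_⟩
  · rw [← hb t]
    exact (hG.in_smul _ _ _).2 hy
  · have h1 : L.In (g⁻¹ • y) L.m0 := by
      have h2 : L.In (g⁻¹ • y) (g⁻¹ • X) := (hG.in_smul _ _ _).2 hy
      rwa [← hg2, inv_smul_smul] at h2
    rw [mul_smul, mul_smul, hu1 s _ h1, smul_inv_smul]

/-- **(w0f)**: the letters `U21 w`, `w` a maximal subspace through the point `c`, values = points;
wall `b2`, root group `u2` (it fixes every maximal subspace through the point `p1` of `m0`). -/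
theorem w0f [ProperSpace V₂] [BorelSpace V₂] [IsFiniteMeasureOnCompacts L.μ₂]
    [L.μ₂.IsOpenPosMeasure] (hF : Frm σ ε J) (hσ : ∀ x, ‖σ x‖ = ‖x‖) (e : n ≃ Fin (N + 1))
    (hL : LtOk L) (hG : Geo L) {p1 : SGr σ J 1} (hp1 : L.In p1 L.m0) (hb2 : L.b2 • p1 = p1)
    (hu2 : ∀ s w, L.In p1 w → L.u2 s • w = w)
    (hB : PB L 𝒰 ι π lam W Ω m q) {U21 : M → (C(SGr σ J 1, ℂ) →ₗ[ℂ] (K →L[ℂ] K))}
    (hU : UFam 𝒰 L.b2 L.m0 ι π lam W m q (L.na1 q) U21 1) (c : SGr σ J 1)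
    {T : K →L[ℂ] K} (hT : T ∈ Submonoid.closure {T | ∃ w f, L.In c w ∧ T = U21 w f})
    {w w' : M} (hw : L.In c w) (hw' : L.In c w') (u h : C(SGr σ J 1, ℂ))
    (hO : ∀ a ∈ tsupport u, ∀ c ∈ tsupport h, ¬ Col a c) : U21 w u * T * U21 w' h = 0 := by
  refine word_cl (Q := fun w => L.In c w) hF hσ e hL hG hB hU hB.orb2 hB.size2 hG.u2c hG.u20
    (fun w hw => ?_) hT hw hw' u h hO
  obtain ⟨g₀, hg1, hg2⟩ := hG.flag c w hw
  obtain ⟨g₁, hg3, hg4⟩ := hG.flag p1 L.m0 hp1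
  obtain ⟨g, hg⟩ : ∃ g, g = g₀ * g₁⁻¹ := ⟨_, rfl⟩
  have e1 : g • p1 = c := by
    rw [hg, mul_smul, inv_smul_eq_iff.2 hg3.symm, hg1]
  have e2 : g • L.m0 = w := by
    rw [hg, mul_smul, inv_smul_eq_iff.2 hg4.symm, hg2]
  have hb : ∀ t : ℕ, (g * L.b2 ^ t * g⁻¹)⁻¹ • c = c := by
    intro t
    have h1 : L.b2 ^ t • p1 = p1 := by
      induction t with
      | zero => rw [pow_zero, one_smul]
      | succ t ih => rw [pow_succ, mul_smul, hb2, ih]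
    rw [inv_smul_eq_iff, ← e1, mul_smul, inv_smul_smul, mul_smul, h1]
  refine ⟨g, e2, fun t y hy => ?_, fun s y hy => ?_⟩
  · have h1 := (hG.in_smul (g * L.b2 ^ t * g⁻¹)⁻¹ c y).2 hy
    rwa [hb t] at h1
  · have h1 : L.In p1 (g⁻¹ • y) := by
      have h2 : L.In (g⁻¹ • c) (g⁻¹ • y) := (hG.in_smul _ _ _).2 hy
      rwa [← e1, inv_smul_smul] at h2
    rw [mul_smul, mul_smul, hu2 s _ h1, smul_inv_smul]

end

end Vale.Agent.P092.H145.G10
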