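import Vale.Agent.P092.H145.WL3

/-!
P092 (helper145), team P, row [P2-WL]: linear algebra of an isometry of a sesquilinear form over an
ultrametric field, near the first wall. Every constant is absorbed in one constant `R`.
-/

set_option linter.all false

open scoped Matrix

namespace Vale.Agent.P092.H145.G3

open Vale.Agent.P092.H145.WL3 (add_le sub_le norm_eq_of_close dot_le mulVec_le exists_pivot wg wg_le
  wg_self wg_sub_left wg_smul_left wg_smul_right wg_comm exists_comp wg_le_sub smul_le quot_le)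

variable {k : Type*} [NontriviallyNormedField k] [IsUltrametricDist k] {D : Type*} [Fintype D]
  [DecidableEq D]

/-- the form -/
def om (σ : k →+* k) (J : Matrix D D k) (x y : D → k) : k := x ⬝ᵥ (J *ᵥ fun i => σ (y i))

/-- a nondegenerate sesquilinear form, bounded with its inverse by `β` -/
structure Fr (σ : k →+* k) (J J' : Matrix D D k) (β : ℝ) : Prop where
  ss : ∀ x, σ (σ x) = x
  ns : ∀ x, ‖σ x‖ = ‖x‖
  inv : J * J' = 1
  b1 : 1 ≤ β
  le : ∀ i j, ‖J i j‖ ≤ β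
  le' : ∀ i j, ‖J' i j‖ ≤ β
  sy : ∀ x y, ‖om σ J x y‖ = ‖om σ J y x‖

section om

variable {σ : k →+* k} {J J' : Matrix D D k} {β : ℝ}

theorem om_add_left (x y z : D → k) : om σ J (x + y) z = om σ J x z + om σ J y z :=
  add_dotProduct _ _ _
theorem om_add_right (x y z : D → k) : om σ J x (y + z) = om σ J x y + om σ J x z := by
  unfold om
  have e : (fun i => σ ((y + z) i)) = (fun i => σ (y i)) + fun i => σ (z i) := by
    funext i
    exact map_add σ _ _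
  rw [e, Matrix.mulVec_add, dotProduct_add]
theorem om_sub_left (x y z : D → k) : om σ J (x - y) z = om σ J x z - om σ J y z :=
  sub_dotProduct _ _ _
theorem om_sub_right (x y z : D → k) : om σ J x (y - z) = om σ J x y - om σ J x z := by
  unfold om
  have e : (fun i => σ ((y - z) i)) = (fun i => σ (y i)) - fun i => σ (z i) := by
    funext i
    exact map_sub σ _ _
  rw [e, Matrix.mulVec_sub, dotProduct_sub]
theorem om_smul_left (c : k) (x y : D → k) : om σ J (c • x) y = c * om σ J x y := by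
  unfold om
  rw [smul_dotProduct, smul_eq_mul]
theorem om_smul_right (c : k) (x y : D → k) : om σ J x (c • y) = σ c * om σ J x y := by
  unfold om
  have e : (fun i => σ ((c • y) i)) = σ c • fun i => σ (y i) := by
    funext i
    exact map_mul σ _ _
  rw [e, Matrix.mulVec_smul, dotProduct_smul, smul_eq_mul]

theorem Fr.n_sig (h : Fr σ J J' β) (x : D → k) : ‖fun i => σ (x i)‖ = ‖x‖ := by
  refine le_antisymm ((pi_norm_le_iff_of_nonneg (norm_nonneg _)).2 fun i => ?_)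
    ((pi_norm_le_iff_of_nonneg (norm_nonneg _)).2 fun i => ?_)
  · rw [h.ns]
    exact norm_le_pi_norm x i
  · rw [← h.ns]
    exact norm_le_pi_norm (fun i => σ (x i)) i

theorem Fr.zero (h : Fr σ J J' β) {x y : D → k} (hxy : om σ J x y = 0) : om σ J y x = 0 := by
  rw [← norm_eq_zero, ← h.sy, hxy, norm_zero]

theorem Fr.om_le (h : Fr σ J J' β) (x y : D → k) : ‖om σ J x y‖ ≤ β * (‖x‖ * ‖y‖) := by
  refine (dot_le _ _).trans ?_
  have h1 := mulVec_le (zero_le_one.trans h.b1) h.le fun i => σ (y i)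
  rw [h.n_sig] at h1
  calc ‖x‖ * ‖J *ᵥ fun i => σ (y i)‖ ≤ ‖x‖ * (β * ‖y‖) :=
        mul_le_mul_of_nonneg_left h1 (norm_nonneg _)
    _ = β * (‖x‖ * ‖y‖) := by ring

theorem Fr.inv' (h : Fr σ J J' β) : J' * J = 1 := mul_eq_one_comm.1 h.inv

/-- `ω` detects the norm -/
theorem Fr.le_of (h : Fr σ J J' β) {x : D → k} {C : ℝ} (hC : 0 ≤ C)
    (hx : ∀ i, ‖om σ J (Pi.single i 1) x‖ ≤ C) : ‖x‖ ≤ β * C := by
  have hβ : 0 ≤ β := zero_le_one.trans h.b1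
  have e : (fun i => σ (x i)) = J' *ᵥ (J *ᵥ fun i => σ (x i)) := by
    rw [Matrix.mulVec_mulVec, h.inv', Matrix.one_mulVec]
  rw [← h.n_sig x, e]
  refine (mulVec_le hβ h.le' _).trans (mul_le_mul_of_nonneg_left ?_ hβ)
  refine (pi_norm_le_iff_of_nonneg hC).2 fun i => ?_
  have := hx i
  unfold om at this
  rwa [single_one_dotProduct] at this

end om

theorem norm_single_le (i : D) : ‖(Pi.single i (1 : k) : D → k)‖ ≤ 1 := by
  refine (pi_norm_le_iff_of_nonneg zero_le_one).2 fun j => ?_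
  by_cases hij : j = i
  · rw [hij, Pi.single_eq_same, norm_one]
  · rw [Pi.single_eq_of_ne hij, norm_zero]
    exact zero_le_one

/-- near-wall data of an isometry -/
structure NWD (σ : k →+* k) (J : Matrix D D k) (R n : ℝ) (h : Matrix D D k) (u y xu : D → k)
    (M : Matrix D D k) : Prop where
  n1 : 1 ≤ n
  R1 : 1 ≤ R
  iso : hᵀ * J * h.map σ = J
  hle : ∀ i j, ‖h i j‖ ≤ n
  omle : ∀ x y, ‖om σ J x y‖ ≤ R * (‖x‖ * ‖y‖)
  nu : ‖u‖ = 1
  ny : ‖y‖ ≤ R * n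
  ny' : n ≤ R * ‖y‖
  nx : ‖xu‖ * n ≤ 1
  hx : h *ᵥ xu = u
  hy : ‖h *ᵥ y‖ ≤ R
  Mle : ∀ i j, ‖M i j‖ ≤ R
  dec : ∀ x, h *ᵥ x = om σ J x y • u + M *ᵥ x
  low : ∀ x, ‖x - σ (om σ J u (h *ᵥ x)) • y‖ ≤ R * ‖h *ᵥ x‖
  linv : ∀ x, ‖x‖ ≤ R * n * ‖h *ᵥ x‖

theorem om_iso {σ : k →+* k} {J h : Matrix D D k} (hi : hᵀ * J * h.map σ = J) (x y : D → k) :
    om σ J (h *ᵥ x) (h *ᵥ y) = om σ J x y := by
  unfold om
  have e : (fun i => σ ((h *ᵥ y) i)) = (h.map σ) *ᵥ fun i => σ (y i) := by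
    funext i
    change σ (∑ j, h i j * y j) = ∑ j, σ (h i j) * σ (y j)
    rw [map_sum]
    exact Finset.sum_congr rfl fun j _ => map_mul σ _ _
  rw [e, Matrix.dotProduct_mulVec, Matrix.vecMul_mulVec, ← Matrix.dotProduct_mulVec,
    Matrix.mulVec_mulVec, hi]

theorem nwd_of [Nonempty D] {σ : k →+* k} {J J' h : Matrix D D k} {β : ℝ} (hJ : Fr σ J J' β)
    (hi : hᵀ * J * h.map σ = J) {R : ℝ} (hR : β ^ 2 ≤ R) (i0 j0 : D) (h1n : 1 ≤ ‖h i0 j0‖)
    (hp : ∀ i j, ‖h i j‖ ≤ ‖h i0 j0‖)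
    (hm : ∀ i j i' j', β ^ 2 * ‖h i j * h i' j' - h i j' * h i' j‖ ≤ R * ‖h i0 j0‖) :
    ∃ y xu M, NWD σ J R ‖h i0 j0‖ h ((h i0 j0)⁻¹ • (fun i => h i j0)) y xu M := by
  have hβ1 := hJ.b1
  have hβ : 0 ≤ β := zero_le_one.trans hβ1
  have hβR : β ≤ R := by nlinarith
  have hR1 : 1 ≤ R := hβ1.trans hβR
  have hdet : h.map σ * (J' * hᵀ * J) = 1 := by
    refine mul_eq_one_comm.1 ?_
    rw [Matrix.mul_assoc, Matrix.mul_assoc, ← Matrix.mul_assoc hᵀ, hi, hJ.inv']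
  have hn : 0 < ‖h i0 j0‖ := zero_lt_one.trans_le h1n
  have h0 : h i0 j0 ≠ 0 := norm_pos_iff.1 hn
  have hJh : h.map σ * J' * hᵀ = J' := by
    have e : h.map σ * J' * hᵀ = (h.map σ * (J' * hᵀ * J)) * J' := by
      simp only [Matrix.mul_assoc, hJ.inv, Matrix.mul_one]
    rw [e, hdet, Matrix.one_mul]
  let u : D → k := (h i0 j0)⁻¹ • (fun i => h i j0)
  let y : D → k := fun i => σ ((J' *ᵥ (h i0)) i)
  let xu : D → k := (h i0 j0)⁻¹ • (Pi.single j0 1)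
  let M : Matrix D D k := fun i j => h i j - (h i0 j0)⁻¹ * h i j0 * h i0 j
  have hxu : h *ᵥ xu = u := by
    change h *ᵥ ((h i0 j0)⁻¹ • (Pi.single j0 1)) = _
    rw [Matrix.mulVec_smul, Matrix.mulVec_single_one]
    rfl
  have hsy : (fun i => σ (y i)) = J' *ᵥ (h i0) := by
    funext i
    exact hJ.ss _
  have hrow : ∀ x, om σ J x y = (h *ᵥ x) i0 := by
    intro x
    unfold om
    rw [hsy, Matrix.mulVec_mulVec, hJ.inv, Matrix.one_mulVec, dotProduct_comm]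
    rfl
  have hnr : ‖h i0‖ = ‖h i0 j0‖ :=
    le_antisymm ((pi_norm_le_iff_of_nonneg hn.le).2 fun j => hp i0 j) (norm_le_pi_norm (h i0) j0)
  have hys : ‖y‖ = ‖J' *ᵥ (h i0)‖ := hJ.n_sig _
  have hny : ‖y‖ ≤ R * ‖h i0 j0‖ := by
    rw [hys]
    refine (mulVec_le hβ hJ.le' _).trans ?_
    rw [hnr]
    exact mul_le_mul_of_nonneg_right hβR hn.le
  have hny' : ‖h i0 j0‖ ≤ R * ‖y‖ := by
    have e : h i0 = J *ᵥ (J' *ᵥ (h i0)) := by
      rw [Matrix.mulVec_mulVec, hJ.inv, Matrix.one_mulVec]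
    rw [← hnr, hys]
    conv_lhs => rw [e]
    exact (mulVec_le hβ hJ.le _).trans (mul_le_mul_of_nonneg_right hβR (norm_nonneg _))
  have hMle' : ∀ i j, β ^ 2 * ‖M i j‖ ≤ R := by
    intro i j
    have e : M i j * h i0 j0 = h i j * h i0 j0 - h i j0 * h i0 j := by
      change (h i j - (h i0 j0)⁻¹ * h i j0 * h i0 j) * h i0 j0 = _
      field_simp
    have h1 := hm i j i0 j0
    rw [← e, norm_mul, ← mul_assoc] at h1
    exact le_of_mul_le_mul_right h1 hn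
  have hMle : ∀ i j, ‖M i j‖ ≤ R := by
    intro i j
    have h1 := hMle' i j
    have h2 : 1 ≤ β ^ 2 := one_le_pow₀ hβ1
    nlinarith [norm_nonneg (M i j)]
  have hdec : ∀ x, h *ᵥ x = om σ J x y • u + M *ᵥ x := by
    intro x
    rw [hrow]
    funext i
    change (h *ᵥ x) i = (h *ᵥ x) i0 * ((h i0 j0)⁻¹ * h i j0) +
      ∑ j, (h i j - (h i0 j0)⁻¹ * h i j0 * h i0 j) * x j
    have e1 : ∑ j, (h i j - (h i0 j0)⁻¹ * h i j0 * h i0 j) * x j =
        (h *ᵥ x) i - ((h i0 j0)⁻¹ * h i j0) * (h *ᵥ x) i0 := by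
      change _ = (∑ j, h i j * x j) - ((h i0 j0)⁻¹ * h i j0) * ∑ j, h i0 j * x j
      rw [Finset.mul_sum, ← Finset.sum_sub_distrib]
      refine Finset.sum_congr rfl fun j _ => ?_
      ring
    rw [e1]
    ring
  refine ⟨y, xu, M, h1n, hR1, hi, hp, fun a b => ?_, ?_, hny, hny', ?_, hxu, ?_, hMle, hdec, ?_,
    fun x => ?_⟩
  · exact (hJ.om_le a b).trans (mul_le_mul_of_nonneg_right hβR (by positivity))
  · change ‖(h i0 j0)⁻¹ • (fun i => h i j0)‖ = 1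
    rw [norm_smul, norm_inv]
    have e : ‖fun i => h i j0‖ = ‖h i0 j0‖ :=
      le_antisymm ((pi_norm_le_iff_of_nonneg hn.le).2 fun i => hp i j0)
        (norm_le_pi_norm (fun i => h i j0) i0)
    rw [e, inv_mul_cancel₀ hn.ne']
  · change ‖(h i0 j0)⁻¹ • (Pi.single j0 (1 : k) : D → k)‖ * _ ≤ 1
    rw [norm_smul, norm_inv]
    calc ‖h i0 j0‖⁻¹ * ‖(Pi.single j0 (1 : k) : D → k)‖ * ‖h i0 j0‖
        = ‖(Pi.single j0 (1 : k) : D → k)‖ := by field_simp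
      _ ≤ 1 := norm_single_le j0
  · have e : (fun i => σ ((h *ᵥ y) i)) = J' *ᵥ (Pi.single i0 1) := by
      have e1 : (fun i => σ ((h *ᵥ y) i)) = (h.map σ) *ᵥ fun i => σ (y i) := by
        funext i
        change σ (∑ j, h i j * y j) = ∑ j, σ (h i j) * σ (y j)
        rw [map_sum]
        exact Finset.sum_congr rfl fun j _ => map_mul σ _ _
      have e2 : h i0 = hᵀ *ᵥ (Pi.single i0 1) := by
        rw [Matrix.mulVec_single_one]
        rfl
      rw [e1, hsy, e2, Matrix.mulVec_mulVec, Matrix.mulVec_mulVec, hJh]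
    have e3 : ‖h *ᵥ y‖ = ‖J' *ᵥ (Pi.single i0 (1 : k) : D → k)‖ := by
      rw [← e]
      exact (hJ.n_sig _).symm
    rw [e3]
    refine (mulVec_le hβ hJ.le' _).trans ?_
    calc β * ‖(Pi.single i0 (1 : k) : D → k)‖ ≤ β * 1 :=
          mul_le_mul_of_nonneg_left (norm_single_le i0) hβ
      _ ≤ R := by rw [mul_one]; exact hβR
  · intro x
    have hlo : ∀ i, ‖om σ J (Pi.single i 1) (x - σ (om σ J u (h *ᵥ x)) • y)‖ ≤
        (R / β) * ‖h *ᵥ x‖ := by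
      intro i
      have e1 : om σ J (Pi.single i 1) (x - σ (om σ J u (h *ᵥ x)) • y) =
          om σ J (M *ᵥ (Pi.single i 1)) (h *ᵥ x) := by
        rw [om_sub_right, om_smul_right, hJ.ss]
        rw [← om_iso hi (Pi.single i 1) x, hdec (Pi.single i 1), om_add_left, om_smul_left]
        ring
      rw [e1]
      refine (hJ.om_le _ _).trans ?_
      have h2 : ‖M *ᵥ (Pi.single i (1 : k) : D → k)‖ ≤ R / β ^ 2 := by
        have h3 : ∀ a b, ‖M a b‖ ≤ R / β ^ 2 := fun a b => by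
          rw [le_div_iff₀ (by positivity), mul_comm]
          exact hMle' a b
        have h4 : 0 ≤ R / β ^ 2 := by positivity
        calc ‖M *ᵥ (Pi.single i (1 : k) : D → k)‖ ≤ R / β ^ 2 * ‖(Pi.single i (1 : k) : D → k)‖ :=
              mulVec_le h4 h3 _
          _ ≤ R / β ^ 2 * 1 := mul_le_mul_of_nonneg_left (norm_single_le i) h4
          _ = _ := mul_one _
      calc β * (‖M *ᵥ (Pi.single i (1 : k) : D → k)‖ * ‖h *ᵥ x‖)
          ≤ β * ((R / β ^ 2) * ‖h *ᵥ x‖) :=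
            mul_le_mul_of_nonneg_left (mul_le_mul_of_nonneg_right h2 (norm_nonneg _)) hβ
        _ = (R / β) * ‖h *ᵥ x‖ := by
            have : β ≠ 0 := by positivity
            field_simp
    refine (hJ.le_of (by positivity) hlo).trans (le_of_eq ?_)
    have : β ≠ 0 := by positivity
    change β * (R / β * ‖h *ᵥ x‖) = R * ‖h *ᵥ x‖
    field_simp
  · have hlo : ∀ i, ‖om σ J (Pi.single i 1) x‖ ≤ β * (‖h i0 j0‖ * ‖h *ᵥ x‖) := by
      intro i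
      rw [← om_iso hi]
      refine (hJ.om_le _ _).trans (mul_le_mul_of_nonneg_left ?_ hβ)
      refine mul_le_mul_of_nonneg_right ?_ (norm_nonneg _)
      refine (mulVec_le hn.le hp _).trans ?_
      calc ‖h i0 j0‖ * ‖(Pi.single i (1 : k) : D → k)‖ ≤ ‖h i0 j0‖ * 1 :=
            mul_le_mul_of_nonneg_left (norm_single_le i) hn.le
        _ = ‖h i0 j0‖ := mul_one _
    refine (hJ.le_of (by positivity) hlo).trans ?_
    calc β * (β * (‖h i0 j0‖ * ‖h *ᵥ x‖)) = β ^ 2 * (‖h i0 j0‖ * ‖h *ᵥ x‖) := by ring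
      _ ≤ R * (‖h i0 j0‖ * ‖h *ᵥ x‖) := mul_le_mul_of_nonneg_right hR (by positivity)
      _ = _ := by ring

section nwd

variable {σ : k →+* k} {J J' h M : Matrix D D k} {R n β : ℝ} {u y xu : D → k}

theorem NWD.n0 (H : NWD σ J R n h u y xu M) : 0 < n := zero_lt_one.trans_le H.n1
theorem NWD.R0 (H : NWD σ J R n h u y xu M) : 0 < R := zero_lt_one.trans_le H.R1
theorem NWD.y0 (H : NWD σ J R n h u y xu M) : 0 < ‖y‖ := by
  have h1 := H.ny'
  have h2 := H.n0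
  have h3 := H.R0
  by_contra hc
  rw [not_lt] at hc
  nlinarith

theorem NWD.rel (H : NWD σ J R n h u y xu M) {w b : D → k} (hwb : om σ J w b = 0)
    (hu : om σ J u (h *ᵥ b) ≠ 0) :
    h *ᵥ w = M *ᵥ w - (om σ J (M *ᵥ w) (h *ᵥ b) / om σ J u (h *ᵥ b)) • u := by
  have h1 := om_iso H.iso w b
  rw [H.dec w, om_add_left, om_smul_left, hwb] at h1
  have h2 : om σ J w y = - (om σ J (M *ᵥ w) (h *ᵥ b) / om σ J u (h *ᵥ b)) := by
    field_simp
    exact eq_neg_of_add_eq_zero_left h1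
  rw [H.dec w, h2, neg_smul]
  abel

theorem NWD.My (H : NWD σ J R n h u y xu M) : ‖M *ᵥ y‖ ≤ R ^ 3 := by
  have hR := H.R1
  have e : M *ᵥ y = h *ᵥ y - om σ J y y • u := by
    rw [H.dec y]
    abel
  rw [e]
  refine sub_le (H.hy.trans ?_) ?_
  · calc R = R * 1 := (mul_one R).symm
      _ ≤ R * R ^ 2 := mul_le_mul_of_nonneg_left (one_le_pow₀ hR) H.R0.le
      _ = R ^ 3 := by ring
  · rw [norm_smul, H.nu, mul_one, ← om_iso H.iso y y]
    refine (H.omle _ _).trans ?_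
    calc R * (‖h *ᵥ y‖ * ‖h *ᵥ y‖) ≤ R * (R * R) :=
          mul_le_mul_of_nonneg_left (mul_le_mul H.hy H.hy (norm_nonneg _) H.R0.le) H.R0.le
      _ = R ^ 3 := by ring

theorem NWD.up [Nonempty D] (H : NWD σ J R n h u y xu M) {w : D → k} (hw : ‖w‖ ≤ 1)
    {ρ : ℝ} (hd : ‖wg w y‖ ≤ ρ * ‖y‖) (hr : 1 ≤ ρ * n) : ‖M *ᵥ w‖ ≤ R ^ 4 * ρ := by
  have hn := H.n0
  have hR := H.R1
  have hR0 := H.R0
  have hρ : 0 < ρ := by
    by_contra hc
    rw [not_lt] at hc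
    nlinarith
  have hy0 := H.y0
  obtain ⟨μ, h1, h2⟩ := exists_comp (w := w) (norm_pos_iff.1 hy0)
  have e : M *ᵥ w = M *ᵥ (w - μ • y) + μ • (M *ᵥ y) := by
    rw [Matrix.mulVec_sub, Matrix.mulVec_smul]
    abel
  rw [e]
  refine add_le ((mulVec_le hR0.le H.Mle _).trans ?_) ?_
  · have h3 : ‖w - μ • y‖ ≤ ρ := le_of_mul_le_mul_right (h2.trans hd) hy0
    calc R * ‖w - μ • y‖ ≤ R * ρ := mul_le_mul_of_nonneg_left h3 hR0.le
      _ = (R * ρ) * 1 := (mul_one _).symm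
      _ ≤ (R * ρ) * R ^ 3 := mul_le_mul_of_nonneg_left (one_le_pow₀ hR) (by positivity)
      _ = R ^ 4 * ρ := by ring
  · have h3 : ‖μ‖ ≤ R * ρ := by
      have h4 : ‖μ‖ * ‖y‖ ≤ (R * ρ) * ‖y‖ := by
        calc ‖μ‖ * ‖y‖ ≤ 1 := h1.trans hw
          _ ≤ ρ * n := hr
          _ ≤ ρ * (R * ‖y‖) := mul_le_mul_of_nonneg_left H.ny' hρ.le
          _ = (R * ρ) * ‖y‖ := by ring
      exact le_of_mul_le_mul_right h4 hy0
    refine (smul_le h3 H.My).trans (le_of_eq ?_)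
    ring

theorem NWD.lo (H : NWD σ J R n h u y xu M) (w : D → k) :
    ‖wg w y‖ ≤ R * ‖h *ᵥ w‖ * ‖y‖ :=
  (wg_le_sub w y (σ (om σ J u (h *ᵥ w)))).trans
    (mul_le_mul_of_nonneg_right (H.low w) (norm_nonneg _))

theorem NWD.om_u (H : NWD σ J R n h u y xu M) (b : D → k) :
    ‖om σ J u (h *ᵥ b)‖ * n ≤ R * ‖b‖ := by
  have h1 : om σ J u (h *ᵥ b) = om σ J xu b := by
    conv_lhs => rw [← H.hx]
    exact om_iso H.iso xu b
  rw [h1]
  calc ‖om σ J xu b‖ * n ≤ R * (‖xu‖ * ‖b‖) * n :=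
        mul_le_mul_of_nonneg_right (H.omle _ _) H.n0.le
    _ = R * ((‖xu‖ * n) * ‖b‖) := by ring
    _ ≤ R * (1 * ‖b‖) := mul_le_mul_of_nonneg_left
        (mul_le_mul_of_nonneg_right H.nx (norm_nonneg _)) H.R0.le
    _ = R * ‖b‖ := by rw [one_mul]

theorem NWD.bB (H : NWD σ J R n h u y xu M) {b : D → k} {δ : ℝ}
    (hop : δ * ‖h *ᵥ b‖ ≤ ‖om σ J u (h *ᵥ b)‖) : δ * (‖h *ᵥ b‖ * n) ≤ R * ‖b‖ := by
  calc δ * (‖h *ᵥ b‖ * n) = (δ * ‖h *ᵥ b‖) * n := by ring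
    _ ≤ ‖om σ J u (h *ᵥ b)‖ * n := mul_le_mul_of_nonneg_right hop H.n0.le
    _ ≤ R * ‖b‖ := H.om_u b

/-- relevant vectors near `y` are contracted -/
theorem NWD.relUp [Nonempty D] (H : NWD σ J R n h u y xu M) {w b : D → k} {δ : ℝ}
    (hδ : 0 < δ) (hδ1 : δ ≤ 1) (hw : ‖w‖ ≤ 1) (hwb : om σ J w b = 0) (hb : ‖h *ᵥ b‖ = 1)
    (hop : δ ≤ ‖om σ J u (h *ᵥ b)‖) {ρ : ℝ} (hd : ‖wg w y‖ ≤ ρ * ‖y‖) (hr : 1 ≤ ρ * n) :
    ‖h *ᵥ w‖ ≤ R ^ 5 * ρ / δ := by
  have hR := H.R1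
  have hR0 := H.R0
  have hu : om σ J u (h *ᵥ b) ≠ 0 := norm_pos_iff.1 (hδ.trans_le hop)
  have h1 := H.up hw hd hr
  have h0 : 0 ≤ R ^ 4 * ρ := (norm_nonneg _).trans h1
  rw [H.rel hwb hu]
  refine sub_le (h1.trans ?_) ?_
  · rw [le_div_iff₀ hδ]
    calc R ^ 4 * ρ * δ ≤ R ^ 4 * ρ * 1 := mul_le_mul_of_nonneg_left hδ1 h0
      _ ≤ R ^ 4 * ρ * R := mul_le_mul_of_nonneg_left hR h0
      _ = R ^ 5 * ρ := by ring
  · have h2 : ‖om σ J (M *ᵥ w) (h *ᵥ b)‖ ≤ R ^ 5 * ρ := by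
      refine (H.omle _ _).trans ?_
      rw [hb, mul_one]
      calc R * ‖M *ᵥ w‖ ≤ R * (R ^ 4 * ρ) := mul_le_mul_of_nonneg_left h1 hR0.le
        _ = R ^ 5 * ρ := by ring
    have h3 := smul_le (quot_le hδ h2 hop) (le_of_eq H.nu)
    rwa [mul_one] at h3

/-- **Isotropy** -/
theorem NWD.isot [Nonempty D] (H : NWD σ J R n h u y xu M) {w w' b b' : D → k}
    {δ : ℝ} (hδ : 0 < δ) (hδ1 : δ ≤ 1) (hw : ‖w‖ ≤ 1) (hw' : ‖w'‖ ≤ 1) (hwb : om σ J w b = 0)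
    (hwb' : om σ J w' b' = 0) (hb : ‖h *ᵥ b‖ = 1) (hb' : ‖h *ᵥ b'‖ = 1)
    (hop : δ ≤ ‖om σ J u (h *ᵥ b)‖) (hop' : δ ≤ ‖om σ J u (h *ᵥ b')‖) {κ c ρ ρ' ε : ℝ}
    (hκ : ‖h *ᵥ b - h *ᵥ b'‖ ≤ κ) (hc : ‖w - w'‖ ≤ c)
    (hd : ‖wg w' y‖ ≤ ρ * ‖y‖) (hr : 1 ≤ ρ * n) (hρ' : 0 < ρ') (hlo : ρ' * ‖y‖ ≤ ‖wg w y‖)
    (h1 : R ^ 3 * c ≤ ε * ρ' * δ) (h2 : R ^ 7 * ρ * κ ≤ ε * ρ' * δ ^ 2) :
    ‖wg (h *ᵥ w) (h *ᵥ w')‖ ≤ ε * (‖h *ᵥ w‖ * ‖h *ᵥ w'‖) := by
  have hn := H.n0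
  have hR := H.R1
  have hR0 := H.R0
  have hu : om σ J u (h *ᵥ b) ≠ 0 := norm_pos_iff.1 (hδ.trans_le hop)
  have hu' : om σ J u (h *ᵥ b') ≠ 0 := norm_pos_iff.1 (hδ.trans_le hop')
  have hup := H.up hw' hd hr
  have hRρ : 0 ≤ R ^ 4 * ρ := (norm_nonneg _).trans hup
  have hκ0 : 0 ≤ κ := (norm_nonneg _).trans hκ
  have hc0 : 0 ≤ c := (norm_nonneg _).trans hc
  have hM1 : ‖M *ᵥ (w - w')‖ ≤ R * c :=
    (mulVec_le hR0.le H.Mle _).trans (mul_le_mul_of_nonneg_left hc hR0.le)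
  have hdiff : ‖h *ᵥ w - h *ᵥ w'‖ ≤ ε * ρ' / R := by
    have e : h *ᵥ w - h *ᵥ w' = (M *ᵥ (w - w') -
        (om σ J (M *ᵥ (w - w')) (h *ᵥ b) / om σ J u (h *ᵥ b)) • u) -
        ((om σ J (M *ᵥ w') (h *ᵥ b - h *ᵥ b') * om σ J u (h *ᵥ b') -
          om σ J (M *ᵥ w') (h *ᵥ b') * om σ J u (h *ᵥ b - h *ᵥ b')) /
          (om σ J u (h *ᵥ b) * om σ J u (h *ᵥ b'))) • u := by
      rw [H.rel hwb hu, H.rel hwb' hu', Matrix.mulVec_sub, om_sub_left, om_sub_right,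
        om_sub_right]
      have e2 : (om σ J (M *ᵥ w) (h *ᵥ b) / om σ J u (h *ᵥ b)) =
          ((om σ J (M *ᵥ w) (h *ᵥ b) - om σ J (M *ᵥ w') (h *ᵥ b)) / om σ J u (h *ᵥ b)) +
          (((om σ J (M *ᵥ w') (h *ᵥ b) - om σ J (M *ᵥ w') (h *ᵥ b')) * om σ J u (h *ᵥ b') -
            om σ J (M *ᵥ w') (h *ᵥ b') * (om σ J u (h *ᵥ b) - om σ J u (h *ᵥ b'))) /
            (om σ J u (h *ᵥ b) * om σ J u (h *ᵥ b'))) +
          om σ J (M *ᵥ w') (h *ᵥ b') / om σ J u (h *ᵥ b') := by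
        field_simp
        ring
      rw [e2, add_smul, add_smul]
      abel
    rw [e]
    have hεR : ∀ z : ℝ, z * R ≤ ε * ρ' → z ≤ ε * ρ' / R := fun z hz => by
      rwa [le_div_iff₀ hR0]
    refine sub_le (sub_le ?_ ?_) ?_
    · refine hM1.trans (hεR _ ?_)
      have h5 : R * c * R * δ ≤ ε * ρ' * δ := by
        calc R * c * R * δ ≤ R * c * R * 1 := mul_le_mul_of_nonneg_left hδ1 (by positivity)
          _ ≤ R * c * R * R := mul_le_mul_of_nonneg_left hR (by positivity)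
          _ = R ^ 3 * c := by ring
          _ ≤ ε * ρ' * δ := h1
      exact le_of_mul_le_mul_right h5 hδ
    · have h3 : ‖om σ J (M *ᵥ (w - w')) (h *ᵥ b)‖ ≤ R * (R * c) := by
        refine (H.omle _ _).trans ?_
        rw [hb, mul_one]
        exact mul_le_mul_of_nonneg_left hM1 hR0.le
      refine (smul_le (quot_le hδ h3 hop) (le_of_eq H.nu)).trans (hεR _ ?_)
      rw [mul_one, div_mul_eq_mul_div, div_le_iff₀ hδ]
      calc R * (R * c) * R = R ^ 3 * c := by ring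
        _ ≤ _ := h1
    · have hu2 : ∀ v : D → k, ‖om σ J u v‖ ≤ R * ‖v‖ := fun v => by
        have := H.omle u v
        rwa [H.nu, one_mul] at this
      have h3 : ‖om σ J (M *ᵥ w') (h *ᵥ b - h *ᵥ b') * om σ J u (h *ᵥ b') -
          om σ J (M *ᵥ w') (h *ᵥ b') * om σ J u (h *ᵥ b - h *ᵥ b')‖ ≤ R ^ 6 * ρ * κ := by
        refine sub_le ?_ ?_
        · rw [norm_mul]
          have e1 : ‖om σ J (M *ᵥ w') (h *ᵥ b - h *ᵥ b')‖ ≤ R * (R ^ 4 * ρ * κ) :=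
            (H.omle _ _).trans (mul_le_mul_of_nonneg_left
              (mul_le_mul hup hκ (norm_nonneg _) hRρ) hR0.le)
          have e2 : ‖om σ J u (h *ᵥ b')‖ ≤ R := by
            have := hu2 (h *ᵥ b')
            rwa [hb', mul_one] at this
          calc _ ≤ R * (R ^ 4 * ρ * κ) * R := mul_le_mul e1 e2 (norm_nonneg _) (by positivity)
            _ = _ := by ring
        · rw [norm_mul]
          have e1 : ‖om σ J (M *ᵥ w') (h *ᵥ b')‖ ≤ R * (R ^ 4 * ρ) := by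
            refine (H.omle _ _).trans ?_
            rw [hb', mul_one]
            exact mul_le_mul_of_nonneg_left hup hR0.le
          have e2 : ‖om σ J u (h *ᵥ b - h *ᵥ b')‖ ≤ R * κ :=
            (hu2 _).trans (mul_le_mul_of_nonneg_left hκ hR0.le)
          calc _ ≤ R * (R ^ 4 * ρ) * (R * κ) := mul_le_mul e1 e2 (norm_nonneg _) (by positivity)
            _ = _ := by ring
      have h4 : δ * δ ≤ ‖om σ J u (h *ᵥ b) * om σ J u (h *ᵥ b')‖ := by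
        rw [norm_mul]
        exact mul_le_mul hop hop' hδ.le (norm_nonneg _)
      refine (smul_le (quot_le (mul_pos hδ hδ) h3 h4) (le_of_eq H.nu)).trans (hεR _ ?_)
      rw [mul_one, div_mul_eq_mul_div, div_le_iff₀ (mul_pos hδ hδ)]
      calc R ^ 6 * ρ * κ * R = R ^ 7 * ρ * κ := by ring
        _ ≤ _ := h2
        _ = _ := by ring
  have h5 : ‖wg (h *ᵥ w) (h *ᵥ w')‖ ≤ ‖h *ᵥ w - h *ᵥ w'‖ * ‖h *ᵥ w'‖ := by
    have := wg_le_sub (h *ᵥ w) (h *ᵥ w') 1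
    rwa [one_smul] at this
  have h6 : ρ' / R ≤ ‖h *ᵥ w‖ := by
    rw [div_le_iff₀ hR0]
    have h7 := hlo.trans (H.lo w)
    have h8 : ρ' * ‖y‖ ≤ (‖h *ᵥ w‖ * R) * ‖y‖ := by
      calc ρ' * ‖y‖ ≤ R * ‖h *ᵥ w‖ * ‖y‖ := h7
        _ = _ := by ring
    exact le_of_mul_le_mul_right h8 H.y0
  have hε : 0 ≤ ε := by
    have h9 : 0 ≤ ε * (ρ' * δ) := by
      calc 0 ≤ R ^ 3 * c := by positivity
        _ ≤ ε * ρ' * δ := h1
        _ = _ := by ring
    exact nonneg_of_mul_nonneg_left h9 (by positivity)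
  calc ‖wg (h *ᵥ w) (h *ᵥ w')‖ ≤ ‖h *ᵥ w - h *ᵥ w'‖ * ‖h *ᵥ w'‖ := h5
    _ ≤ (ε * ρ' / R) * ‖h *ᵥ w'‖ := mul_le_mul_of_nonneg_right hdiff (norm_nonneg _)
    _ = ε * ((ρ' / R) * ‖h *ᵥ w'‖) := by ring
    _ ≤ ε * (‖h *ᵥ w‖ * ‖h *ᵥ w'‖) :=
        mul_le_mul_of_nonneg_left (mul_le_mul_of_nonneg_right h6 (norm_nonneg _)) hε

/-- a contracted vector is almost `y` -/
theorem NWD.ctr (H : NWD σ J R n h u y xu M) (hs : ∀ x, ‖σ x‖ = ‖x‖) {w : D → k} (hw : ‖w‖ = 1)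
    {C : ℝ} (h1 : ‖h *ᵥ w‖ * n ≤ C) (hbig : R * C < n) : ‖om σ J u (h *ᵥ w)‖ * ‖y‖ = 1 := by
  have hn := H.n0
  have hR := H.R0
  have h2 : ‖w - σ (om σ J u (h *ᵥ w)) • y‖ < 1 := by
    refine (H.low w).trans_lt ?_
    have h3 : R * ‖h *ᵥ w‖ * n < 1 * n := by
      calc R * ‖h *ᵥ w‖ * n = R * (‖h *ᵥ w‖ * n) := by ring
        _ ≤ R * C := mul_le_mul_of_nonneg_left h1 hR.le
        _ < n := hbig
        _ = 1 * n := (one_mul n).symm
    exact lt_of_mul_lt_mul_right h3 hn.le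
  rw [← hw] at h2
  have h4 := norm_eq_of_close h2
  rw [norm_smul, hs, hw] at h4
  exact h4

/-- **capacity** -/
theorem NWD.cap {h' M' : Matrix D D k} {n' : ℝ} {u' y' xu' : D → k}
    (H : NWD σ J R n h u y xu M) (H' : NWD σ J R n' h' u' y' xu' M')
    (hs : ∀ x, ‖σ x‖ = ‖x‖) (hss : ∀ x, σ (σ x) = x) {w : D → k}
    (hw : ‖w‖ = 1) (hww : om σ J w w = 0) {C e : ℝ} (hC : 1 ≤ C) (he : 1 ≤ e) (hn : n' ≤ e * n)
    (hn' : n ≤ e * n') (h1 : ‖h *ᵥ w‖ * n ≤ C) (h2 : ‖h' *ᵥ w‖ * n' ≤ C) (x : D → k) :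
    ‖h' *ᵥ x‖ ≤ (e ^ 2 * R ^ 8 * C ^ 3) * ‖h *ᵥ x‖ := by
  have n0 := H.n0
  have n0' := H'.n0
  have hR := H.R1
  have hR0 := H.R0
  have hC0 : 0 < C := by linarith
  have he0 : 0 < e := by linarith
  have hz0 := norm_nonneg (h *ᵥ x)
  have hRC : 1 ≤ R * C := by nlinarith
  have pw : ∀ (a b c d : ℕ), a ≤ 2 → b ≤ 8 → c ≤ 3 →
      e ^ a * R ^ b * C ^ c ≤ e ^ 2 * R ^ 8 * C ^ 3 := fun a b c d ha hb hc => by
    have g1 : e ^ a ≤ e ^ 2 := pow_le_pow_right₀ he ha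
    have g2 : R ^ b ≤ R ^ 8 := pow_le_pow_right₀ hR hb
    have g3 : C ^ c ≤ C ^ 3 := pow_le_pow_right₀ hC hc
    exact mul_le_mul (mul_le_mul g1 g2 (by positivity) (by positivity)) g3 (by positivity)
      (by positivity)
  by_cases hb : n ≤ R * C ∨ n' ≤ R * C
  · have hnn : n ≤ e * (R * C) ∧ n' ≤ e * (R * C) := by
      rcases hb with hb | hb
      · exact ⟨hb.trans (le_mul_of_one_le_left (by linarith) he),
          hn.trans (mul_le_mul_of_nonneg_left hb (by linarith))⟩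
      · exact ⟨hn'.trans (mul_le_mul_of_nonneg_left hb (by linarith)),
          hb.trans (le_mul_of_one_le_left (by linarith) he)⟩
    calc ‖h' *ᵥ x‖ ≤ n' * ‖x‖ := mulVec_le n0'.le H'.hle x
      _ ≤ n' * (R * n * ‖h *ᵥ x‖) := mul_le_mul_of_nonneg_left (H.linv x) n0'.le
      _ = R * (n' * n) * ‖h *ᵥ x‖ := by ring
      _ ≤ R * ((e * (R * C)) * (e * (R * C))) * ‖h *ᵥ x‖ :=
          mul_le_mul_of_nonneg_right (mul_le_mul_of_nonneg_left
            (mul_le_mul hnn.2 hnn.1 n0.le (by positivity)) hR0.le) hz0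
      _ = (e ^ 2 * R ^ 3 * C ^ 2) * ‖h *ᵥ x‖ := by ring
      _ ≤ _ := mul_le_mul_of_nonneg_right (pw 2 3 2 0 le_rfl (by norm_num) (by norm_num)) hz0
  · rw [not_or, not_le, not_le] at hb
    obtain ⟨hb1, hb2⟩ := hb
    have c1 := H.ctr hs hw h1 hb1
    have c2 := H'.ctr hs hw h2 hb2
    have y0 := H.y0
    have y0' := H'.y0
    have hv0 : om σ J u (h *ᵥ w) ≠ 0 := by
      intro hz
      rw [hz, norm_zero, zero_mul] at c1
      exact zero_ne_one c1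
    have hvv : om σ J (h *ᵥ w) (h *ᵥ w) = 0 := (om_iso H.iso w w).trans hww
    obtain ⟨Z, hZ⟩ : ∃ Z, Z = ‖h *ᵥ x‖ := ⟨_, rfl⟩
    rw [← hZ] at hz0 ⊢
    obtain ⟨α, hα⟩ : ∃ α : k, α = om σ J (h *ᵥ x) (h *ᵥ w) / om σ J u (h *ᵥ w) := ⟨_, rfl⟩
    obtain ⟨β, hβ⟩ : ∃ β : k, β = σ ((om σ J u (h *ᵥ x) - σ α * om σ J u u) /
      om σ J u (h *ᵥ w)) := ⟨_, rfl⟩
    have hvn : ‖om σ J u (h *ᵥ w)‖ = 1 / ‖y‖ := by
      rw [eq_div_iff y0.ne']
      exact c1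
    have hwn : ‖h *ᵥ w‖ ≤ C / n := by
      rw [le_div_iff₀ n0]
      exact h1
    have hα1 : ‖α‖ ≤ R ^ 2 * C * Z := by
      rw [hα, norm_div, hvn, div_div_eq_mul_div, div_one]
      have h3 := H.omle (h *ᵥ x) (h *ᵥ w)
      rw [← hZ] at h3
      calc ‖om σ J (h *ᵥ x) (h *ᵥ w)‖ * ‖y‖ ≤ (R * (Z * ‖h *ᵥ w‖)) * (R * n) :=
            mul_le_mul h3 H.ny (norm_nonneg _) (by positivity)
        _ = R ^ 2 * Z * (‖h *ᵥ w‖ * n) := by ring
        _ ≤ R ^ 2 * Z * C := mul_le_mul_of_nonneg_left h1 (by positivity)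
        _ = R ^ 2 * C * Z := by ring
    have huu : ‖om σ J u u‖ ≤ R := by
      have := H.omle u u
      rwa [H.nu, mul_one, mul_one] at this
    have hβ1 : ‖β‖ ≤ R ^ 4 * C * Z * n := by
      rw [hβ, hs, norm_div, hvn, div_div_eq_mul_div, div_one]
      have h3 : ‖om σ J u (h *ᵥ x) - σ α * om σ J u u‖ ≤ R ^ 3 * C * Z := by
        refine sub_le ?_ ?_
        · have h4 := H.omle u (h *ᵥ x)
          rw [← hZ, H.nu, one_mul] at h4
          refine h4.trans ?_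
          calc R * Z = R * Z * 1 := (mul_one _).symm
            _ ≤ R * Z * (R ^ 2 * C) := mul_le_mul_of_nonneg_left
                (one_le_mul_of_one_le_of_one_le (one_le_pow₀ hR) hC) (by positivity)
            _ = _ := by ring
        · rw [norm_mul, hs]
          calc ‖α‖ * ‖om σ J u u‖ ≤ (R ^ 2 * C * Z) * R :=
                mul_le_mul hα1 huu (norm_nonneg _) (by positivity)
            _ = _ := by ring
      calc ‖om σ J u (h *ᵥ x) - σ α * om σ J u u‖ * ‖y‖ ≤ (R ^ 3 * C * Z) * (R * n) :=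
            mul_le_mul h3 H.ny (norm_nonneg _) (by positivity)
        _ = _ := by ring
    obtain ⟨x₀, hx₀⟩ : ∃ x₀ : D → k, x₀ = x - α • xu - β • w := ⟨_, rfl⟩
    have hz₀ : h *ᵥ x₀ = h *ᵥ x - α • u - β • (h *ᵥ w) := by
      rw [hx₀, Matrix.mulVec_sub, Matrix.mulVec_sub, Matrix.mulVec_smul, Matrix.mulVec_smul, H.hx]
    have hou : om σ J u (h *ᵥ x₀) = 0 := by
      rw [hz₀, om_sub_right, om_sub_right, om_smul_right, om_smul_right, hβ, hss]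
      field_simp
      ring
    have how : om σ J x₀ w = 0 := by
      rw [← om_iso H.iso, hz₀, om_sub_left, om_sub_left, om_smul_left, om_smul_left, hvv, hα]
      field_simp
      ring
    have hz₀n : ‖h *ᵥ x₀‖ ≤ R ^ 4 * C ^ 2 * Z := by
      rw [hz₀]
      refine sub_le (sub_le ?_ ?_) ?_
      · rw [← hZ]
        calc Z = 1 * Z := (one_mul Z).symm
          _ ≤ (R ^ 4 * C ^ 2) * Z := mul_le_mul_of_nonneg_right
              (one_le_mul_of_one_le_of_one_le (one_le_pow₀ hR) (one_le_pow₀ hC)) hz0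
      · have h3 := smul_le hα1 (le_of_eq H.nu)
        rw [mul_one] at h3
        refine h3.trans ?_
        calc R ^ 2 * C * Z = (R ^ 2 * C * Z) * 1 := (mul_one _).symm
          _ ≤ (R ^ 2 * C * Z) * (R ^ 2 * C) := mul_le_mul_of_nonneg_left
              (one_le_mul_of_one_le_of_one_le (one_le_pow₀ hR) hC) (by positivity)
          _ = _ := by ring
      · refine (smul_le hβ1 hwn).trans (le_of_eq ?_)
        field_simp
    have hx₀n : ‖x₀‖ ≤ R ^ 5 * C ^ 2 * Z := by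
      have h3 := H.low x₀
      rw [hou, map_zero, zero_smul, sub_zero] at h3
      refine h3.trans ((mul_le_mul_of_nonneg_left hz₀n hR0.le).trans (le_of_eq ?_))
      ring
    -- the image of `x₀`
    have hoy : ‖om σ J x₀ y'‖ ≤ R ^ 3 * C * ‖x₀‖ := by
      have h3 : om σ J x₀ (w - σ (om σ J u' (h' *ᵥ w)) • y') =
          - (om σ J u' (h' *ᵥ w) * om σ J x₀ y') := by
        rw [om_sub_right, how, om_smul_right, hss, zero_sub]
      have h4 : ‖om σ J u' (h' *ᵥ w)‖ * ‖om σ J x₀ y'‖ ≤ R * (‖x₀‖ * (R * (C / n'))) := by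
        rw [← norm_mul, ← norm_neg, ← h3]
        refine (H'.omle _ _).trans (mul_le_mul_of_nonneg_left
          (mul_le_mul_of_nonneg_left ?_ (norm_nonneg _)) hR0.le)
        refine (H'.low w).trans (mul_le_mul_of_nonneg_left ?_ hR0.le)
        rw [le_div_iff₀ n0']
        exact h2
      have h5 : ‖om σ J u' (h' *ᵥ w)‖ = 1 / ‖y'‖ := by
        rw [eq_div_iff y0'.ne']
        exact c2
      rw [h5] at h4
      have h6 : ‖om σ J x₀ y'‖ = ‖y'‖ * (1 / ‖y'‖ * ‖om σ J x₀ y'‖) := by field_simp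
      rw [h6]
      calc ‖y'‖ * (1 / ‖y'‖ * ‖om σ J x₀ y'‖) ≤ (R * n') * (R * (‖x₀‖ * (R * (C / n')))) :=
            mul_le_mul H'.ny h4 (by positivity) (by positivity)
        _ = R ^ 3 * C * ‖x₀‖ := by field_simp
    have hhx₀ : ‖h' *ᵥ x₀‖ ≤ R ^ 8 * C ^ 3 * Z := by
      rw [H'.dec x₀]
      have h7 : R ^ 3 * C * ‖x₀‖ ≤ R ^ 8 * C ^ 3 * Z := by
        calc R ^ 3 * C * ‖x₀‖ ≤ R ^ 3 * C * (R ^ 5 * C ^ 2 * Z) :=
              mul_le_mul_of_nonneg_left hx₀n (by positivity)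
          _ = _ := by ring
      refine add_le ?_ ?_
      · have := smul_le hoy (le_of_eq H'.nu)
        rw [mul_one] at this
        exact this.trans h7
      · refine (mulVec_le hR0.le H'.Mle x₀).trans (le_trans ?_ h7)
        refine mul_le_mul_of_nonneg_right ?_ (norm_nonneg _)
        calc R = R * 1 := (mul_one R).symm
          _ ≤ R * (R ^ 2 * C) := mul_le_mul_of_nonneg_left
              (one_le_mul_of_one_le_of_one_le (one_le_pow₀ hR) hC) hR0.le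
          _ = _ := by ring
    have ex : h' *ᵥ x = h' *ᵥ x₀ + α • (h' *ᵥ xu) + β • (h' *ᵥ w) := by
      rw [hx₀, Matrix.mulVec_sub, Matrix.mulVec_sub, Matrix.mulVec_smul, Matrix.mulVec_smul]
      abel
    rw [ex]
    refine add_le (add_le ?_ ?_) ?_
    · refine hhx₀.trans (mul_le_mul_of_nonneg_right ?_ hz0)
      have := pw 0 8 3 0 (by norm_num) le_rfl le_rfl
      simpa using this
    · have h9 : ‖h' *ᵥ xu‖ ≤ e := by
        have h10 : ‖xu‖ ≤ 1 / n := by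
          rw [le_div_iff₀ n0]
          exact H.nx
        calc ‖h' *ᵥ xu‖ ≤ n' * ‖xu‖ := mulVec_le n0'.le H'.hle _
          _ ≤ (e * n) * (1 / n) := mul_le_mul hn h10 (norm_nonneg _) (by positivity)
          _ = e := by field_simp
      refine (smul_le hα1 h9).trans ?_
      calc R ^ 2 * C * Z * e = (e ^ 1 * R ^ 2 * C ^ 1) * Z := by ring
        _ ≤ _ := mul_le_mul_of_nonneg_right (pw 1 2 1 0 (by norm_num) (by norm_num)
            (by norm_num)) hz0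
    · have h9 : ‖h' *ᵥ w‖ ≤ C / n' := by
        rw [le_div_iff₀ n0']
        exact h2
      refine (smul_le hβ1 h9).trans ?_
      calc R ^ 4 * C * Z * n * (C / n') = (n / n') * (R ^ 4 * C ^ 2 * Z) := by ring
        _ ≤ e * (R ^ 4 * C ^ 2 * Z) := by
            refine mul_le_mul_of_nonneg_right ?_ (by positivity)
            rw [div_le_iff₀ n0']
            exact hn'
        _ = (e ^ 1 * R ^ 4 * C ^ 2) * Z := by ring
        _ ≤ _ := mul_le_mul_of_nonneg_right (pw 1 4 2 0 (by norm_num) (by norm_num)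
            (by norm_num)) hz0

end nwd

end Vale.Agent.P092.H145.G3
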