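import Vale.Agent.P092.H145.WL4

/-!
P092 (helper145), team P, row [P2-WL]: shells, for functions on a space `Y` mapped continuously to
an ultrametric space `X` (the centres of the shells are in `X`).
-/

set_option linter.all false

open Filter Topology

namespace Vale.Agent.P092.H145.G4

open Vale.Agent.P092.H145.WL Vale.Agent.P092.H145.WL4

/-- the data of one family of functions `H γ = f ∘ h γ`: centre, depth, relevant set, near set -/
structure Fam {X Y Γ : Type*} [TopologicalSpace Y] (dst : X → X → ℝ) (pt : Y → X) (s L : ℕ)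
    (Z C : ℝ) (η : Γ → X) (m : Γ → ℕ) (Rel Nr : Γ → Set Y) (H : Γ → C(Y, ℂ)) : Prop where
  mL : ∀ γ, m γ < L
  lc : ∀ γ, IsLocallyConstant (H γ)
  bd : ∀ γ y, ‖H γ y‖ ≤ Z
  near : ∀ γ, ∀ w ∈ Rel γ, dst (pt w) (η γ) ≤ rd (m γ + 1) → w ∈ Nr γ
  nlc : ∀ γ, IsLocallyConstant fun w => w ∈ Nr γ
  ncap : ∀ (S : Finset Γ) (y : Y), (∀ γ ∈ S, y ∈ Nr γ) → (S.card : ℝ) ≤ C
  iso : ∀ γ, ∀ j ≤ m γ, ∀ w ∈ Rel γ, ∀ w' ∈ Rel γ, rd (j + 1) < dst (pt w) (η γ) →
    dst (pt w) (η γ) ≤ rd j → dst (pt w') (η γ) ≤ rd j → dst (pt w) (pt w') ≤ rd (j + s) →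
    H γ w = H γ w'

section fam

variable {X Y Γ : Type*} [TopologicalSpace X] [TopologicalSpace Y] [Nonempty X] [Nonempty Y]
  {dst : X → X → ℝ} {pt : Y → X} {s L N₀ : ℕ}

/-- the pieces of the shells -/
def Ds (dst : X → X → ℝ) (pt : Y → X) (s : ℕ) (e : ℕ → X → Set X → Fin N₀) (η : Γ → X) (j : ℕ)
    (i : Fin N₀) (γ : Γ) : Set Y := {w | pt w ∈ WL4.Ds dst s e η j i γ}

theorem Ds_lc (h : UM dst) (hpt : Continuous pt) (e : ℕ → X → Set X → Fin N₀) (η : Γ → X) (j : ℕ)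
    (i : Fin N₀) (γ : Γ) : IsLocallyConstant fun w => w ∈ Ds dst pt s e η j i γ :=
  (WL4.Ds_lc h e η j i γ).comp_continuous hpt

/-- **Expansion of one family of functions with respect to shells.** -/
theorem Fam.expand (h : UM dst) (hpt : Continuous pt) {Z C : ℝ} (hZ : 0 ≤ Z) (hs : 1 ≤ s)
    (hN : 0 < N₀)
    (hD : Dbl dst s N₀) {η : Γ → X} {m : Γ → ℕ} {Rel Nr : Γ → Set Y}
    {H : Γ → C(Y, ℂ)} (hF : Fam dst pt s L Z C η m Rel Nr H) :
    ∃ (z : Option (Fin L × Fin N₀) → Γ → ℂ) (G : Option (Fin L × Fin N₀) → Γ → C(Y, ℂ)),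
      (∀ α γ, ‖z α γ‖ ≤ max Z 1) ∧ (∀ α γ, IsLocallyConstant (G α γ)) ∧
      (∀ S : Finset Γ, ∀ y, ∑ γ ∈ S, ‖G none γ y‖ ^ 2 ≤ Z ^ 2 * C) ∧
      (∀ j i γ γ', dst (η γ) (η γ') ≤ rd (j.1 + s) → G (some (j, i)) γ = G (some (j, i)) γ') ∧
      (∀ j i, ∀ S : Finset Γ, (∀ γ ∈ S, ∀ γ' ∈ S, dst (η γ) (η γ') ≤ rd (j.1 + s) → γ = γ') →
        ∀ y, ∑ γ ∈ S, ‖G (some (j, i)) γ y‖ ^ 2 ≤ N₀) ∧
      ∀ γ, ∀ w ∈ Rel γ, (H γ - ∑ α, z α γ • G α γ) w = 0 := by
  classical
  obtain ⟨e, he⟩ := exists_code hN hD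
  let near : Γ → Set Y := fun γ => {w | dst (pt w) (η γ) ≤ rd (m γ + 1) ∧ w ∈ Nr γ}
  have nearlc : ∀ γ, IsLocallyConstant fun w => w ∈ near γ := fun γ =>
    and_lc ((h.le_lc (rd_pos _) _).comp_continuous hpt) (hF.nlc γ)
  let G : Option (Fin L × Fin N₀) → Γ → C(Y, ℂ) := fun α γ =>
    match α with
    | none => H γ * chc (near γ) (nearlc γ)
    | some (j, i) => chc (Ds dst pt s e η j.1 i γ) (Ds_lc h hpt e η j.1 i γ)
  let z : Option (Fin L × Fin N₀) → Γ → ℂ := fun α γ =>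
    match α with
    | none => 1
    | some (j, i) => if hh : j.1 ≤ m γ ∧ ∃ w, w ∈ Ds dst pt s e η j.1 i γ ∧ w ∈ Rel γ then
        H γ hh.2.choose else 0
  refine ⟨z, G, ?_, ?_, ?_, ?_, ?_, ?_⟩
  · rintro (_ | ⟨j, i⟩) γ
    · change ‖(1 : ℂ)‖ ≤ _
      rw [norm_one]
      exact le_max_right _ _
    · change ‖(if hh : j.1 ≤ m γ ∧ ∃ w, w ∈ Ds dst pt s e η j.1 i γ ∧ w ∈ Rel γ then
        H γ hh.2.choose else 0 : ℂ)‖ ≤ _
      split_ifs with hh
      · exact (hF.bd γ _).trans (le_max_left _ _)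
      · rw [norm_zero]
        exact hZ.trans (le_max_left _ _)
  · rintro (_ | ⟨j, i⟩) γ
    · exact (hF.lc γ).comp₂ (chi_lc (nearlc γ)) fun a b => a * b
    · exact chi_lc (Ds_lc h hpt e η j.1 i γ)
  · intro S y
    have h1 : ∀ γ, ‖G none γ y‖ ^ 2 ≤ if y ∈ Nr γ then Z ^ 2 else 0 := by
      intro γ
      change ‖H γ y * chi (near γ) y‖ ^ 2 ≤ _
      split_ifs with hy
      · rw [norm_mul, mul_pow]
        calc ‖H γ y‖ ^ 2 * ‖chi (near γ) y‖ ^ 2 ≤ Z ^ 2 * 1 :=
              mul_le_mul (pow_le_pow_left₀ (norm_nonneg _) (hF.bd γ y) 2) chi_sq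
                (by positivity) (by positivity)
          _ = Z ^ 2 := mul_one _
      · have : y ∉ near γ := fun h2 => hy h2.2
        rw [chi_of_not this, mul_zero, norm_zero]
        norm_num
    refine (Finset.sum_le_sum fun γ _ => h1 γ).trans ?_
    rw [← Finset.sum_filter, Finset.sum_const, nsmul_eq_mul, mul_comm]
    refine mul_le_mul_of_nonneg_left ?_ (by positivity)
    exact hF.ncap _ y fun γ hγ => (Finset.mem_filter.1 hγ).2
  · intro j i γ γ' hγ
    have e1 := WL4.Ds_cst h hs e η j.1 i hγ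
    refine ContinuousMap.ext fun w => ?_
    change chi (Ds dst pt s e η j.1 i γ) w = chi (Ds dst pt s e η j.1 i γ') w
    unfold Ds
    rw [e1]
  · intro j i S hS y
    have h1 : ∀ γ, ‖G (some (j, i)) γ y‖ ^ 2 ≤
        if dst (η γ) (pt y) ≤ rd j.1 then (1 : ℝ) else 0 := by
      intro γ
      change ‖chi (Ds dst pt s e η j.1 i γ) y‖ ^ 2 ≤ _
      split_ifs with hy
      · exact chi_sq
      · have : y ∉ Ds dst pt s e η j.1 i γ := fun h2 => hy (by
          rw [h.symm]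
          exact h2.1.2)
        rw [chi_of_not this, norm_zero]
        norm_num
    refine (Finset.sum_le_sum fun γ _ => h1 γ).trans ?_
    rw [← Finset.sum_filter, Finset.sum_const, nsmul_eq_mul, mul_one]
    obtain ⟨F, hF1, hF2⟩ := hD j.1 (pt y)
    have h2 : (S.filter fun γ => dst (η γ) (pt y) ≤ rd j.1).card ≤ F.card := by
      refine Finset.card_le_card_of_injOn (fun γ => bl dst (rd (j.1 + s)) (η γ)) ?_ ?_
      · intro γ hγ
        exact hF2 _ (Finset.mem_filter.1 hγ).2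
      · intro γ hγ γ' hγ' hh
        exact hS γ (Finset.mem_filter.1 hγ).1 γ' (Finset.mem_filter.1 hγ').1
          ((h.bl_iff (rd_pos _).le).1 hh)
    exact_mod_cast h2.trans hF1
  · intro γ w hw
    have e0 : (H γ - ∑ α, z α γ • G α γ) w = H γ w - ∑ α, z α γ * G α γ w := by
      rw [ContinuousMap.sub_apply, ContinuousMap.sum_apply]
      rfl
    rw [e0, Fintype.sum_option]
    have en : z none γ * G none γ w = H γ w * chi (near γ) w := one_mul _
    have eg : ∀ α : Fin L × Fin N₀, G (some α) γ w = chi (Ds dst pt s e η α.1.1 α.2 γ) w :=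
      fun α => rfl
    rw [en]
    by_cases hnear : dst (pt w) (η γ) ≤ rd (m γ + 1)
    · have h1 : w ∈ near γ := ⟨hnear, hF.near γ w hw hnear⟩
      rw [chi_of_mem h1, mul_one]
      have h2 : ∑ α : Fin L × Fin N₀, z (some α) γ * G (some α) γ w = 0 := by
        refine Finset.sum_eq_zero fun α _ => ?_
        rw [eg]
        by_cases hj : α.1.1 ≤ m γ
        · have h3 : w ∉ Ds dst pt s e η α.1.1 α.2 γ := fun h4 =>
            h4.1.1 (hnear.trans (rd_le (by omega)))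
          rw [chi_of_not h3, mul_zero]
        · have h3 : z (some α) γ = 0 := by
            change (if hh : α.1.1 ≤ m γ ∧ ∃ w, w ∈ Ds dst pt s e η α.1.1 α.2 γ ∧ w ∈ Rel γ then
              H γ hh.2.choose else 0 : ℂ) = 0
            rw [dif_neg fun hh => hj hh.1]
          rw [h3, zero_mul]
      rw [h2, add_zero, sub_self]
    · have h1 : w ∉ near γ := fun h2 => hnear h2.1
      rw [chi_of_not h1, mul_zero, zero_add]
      -- the shell of `w`
      have hex : ∃ j, ¬ dst (pt w) (η γ) ≤ rd (j + 1) := ⟨m γ, hnear⟩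
      obtain ⟨j, hj⟩ : ∃ j, j = Nat.find hex := ⟨_, rfl⟩
      have hj1 : ¬ dst (pt w) (η γ) ≤ rd (j + 1) := by
        rw [hj]
        exact Nat.find_spec hex
      have hj2 : dst (pt w) (η γ) ≤ rd j := by
        rcases Nat.eq_zero_or_pos j with h0 | h0
        · rw [h0, rd_zero]
          exact h.le1 _ _
        · have h3 := Nat.find_min hex (m := j - 1) (by omega)
          rw [not_not] at h3
          have h4 : j - 1 + 1 = j := by omega
          rwa [h4] at h3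
      have hjm : j ≤ m γ := by
        rw [hj]
        exact Nat.find_min' hex hnear
      have hjL : j < L := hjm.trans_lt (hF.mL γ)
      obtain ⟨i, hi⟩ : ∃ i, i = e j (pk (bl dst (rd (j + s)) (η γ)))
          (bl dst (rd (j + s)) (pt w)) := ⟨_, rfl⟩
      have hwD : w ∈ Ds dst pt s e η j i γ := ⟨⟨hj1, hj2⟩, hi.symm⟩
      rw [Finset.sum_eq_single (⟨⟨j, hjL⟩, i⟩ : Fin L × Fin N₀)]
      · change H γ w - z (some (⟨⟨j, hjL⟩, i⟩ : Fin L × Fin N₀)) γ *
          chi (Ds dst pt s e η j i γ) w = 0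
        rw [chi_of_mem hwD, mul_one, sub_eq_zero]
        have hh : j ≤ m γ ∧ ∃ w, w ∈ Ds dst pt s e η j i γ ∧ w ∈ Rel γ := ⟨hjm, w, hwD, hw⟩
        have ez : z (some (⟨⟨j, hjL⟩, i⟩ : Fin L × Fin N₀)) γ = H γ hh.2.choose := by
          change (if hh : j ≤ m γ ∧ ∃ w, w ∈ Ds dst pt s e η j i γ ∧ w ∈ Rel γ then
              H γ hh.2.choose else 0 : ℂ) = _
          rw [dif_pos hh]
        rw [ez]
        obtain ⟨h5, h6⟩ := hh.2.choose_spec
        refine hF.iso γ j hjm w hw _ h6 (not_le.1 hj1) hj2 h5.1.2 ?_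
        have hpk : dst (η γ) (pk (bl dst (rd (j + s)) (η γ))) ≤ rd j := by
          have h7 : pk (bl dst (rd (j + s)) (η γ)) ∈ bl dst (rd (j + s)) (η γ) := by
            refine pk_mem ⟨η γ, ?_⟩
            change dst (η γ) (η γ) ≤ _
            rw [h.self]
            exact (rd_pos _).le
          rw [h.symm]
          exact (show dst _ _ ≤ rd (j + s) from h7).trans (rd_le (by omega))
        have h8 := he j (pk (bl dst (rd (j + s)) (η γ))) (pt w) (pt hh.2.choose)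
          ((h.ultra _ (η γ) _).trans (max_le hj2 hpk))
          ((h.ultra _ (η γ) _).trans (max_le h5.1.2 hpk)) (hi.symm.trans h5.2.symm)
        exact (h.bl_iff (rd_pos _).le).1 h8
      · rintro ⟨j', i'⟩ - hne
        change z (some (j', i')) γ * chi (Ds dst pt s e η j'.1 i' γ) w = 0
        have h3 : w ∉ Ds dst pt s e η j'.1 i' γ := by
          rintro ⟨⟨h4, h5⟩, h6⟩
          have h7 : j'.1 = j := by
            rcases lt_trichotomy j'.1 j with h8 | h8 | h8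
            · exact absurd (hj2.trans (rd_le (by omega))) h4
            · exact h8
            · exact absurd (h5.trans (rd_le (by omega))) hj1
          apply hne
          have h9 : j' = ⟨j, hjL⟩ := Fin.ext h7
          subst h9
          have h10 : i' = i := by
            rw [hi]
            exact h6.symm
          rw [h10]
        rw [chi_of_not h3, mul_zero]
      · intro h3
        exact absurd (Finset.mem_univ _) h3

end fam

/-! ### Compactness -/

section cpt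

variable {Y : Type*} [TopologicalSpace Y] [CompactSpace Y] {dst : Y → Y → ℝ}

/-- the balls are a basis of the topology -/
def Bas (dst : Y → Y → ℝ) : Prop :=
  ∀ (x : Y) (O : Set Y), IsOpen O → x ∈ O → ∃ ρ > 0, ∀ z, dst z x ≤ ρ → z ∈ O

/-- uniform local constancy -/
theorem lc_unif (h : UM dst) (hb : Bas dst) {Z : Type*} {f : Y → Z} (hf : IsLocallyConstant f) :
    ∃ ρ > 0, ∀ x y, dst x y ≤ ρ → f x = f y := by
  classical
  have h1 : ∀ x, ∃ ρ > 0, ∀ z, dst z x ≤ ρ → f z = f x := fun x =>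
    hb x _ (hf.isOpen_fiber (f x)) rfl
  choose ρ hρ h2 using h1
  obtain ⟨t, ht⟩ := CompactSpace.elim_nhds_subcover (fun x : Y => {z | dst z x ≤ ρ x})
    (fun x => (h.clo x _ (hρ x)).isOpen.mem_nhds (by
      change dst x x ≤ ρ x
      rw [h.self]
      exact (hρ x).le))
  have h3 : ∃ r > 0, ∀ x ∈ t, r ≤ ρ x := by
    rcases t.eq_empty_or_nonempty with rfl | hne
    · exact ⟨1, one_pos, fun x hx => by simp at hx⟩
    · obtain ⟨x0, _, h4⟩ := t.exists_min_image ρ hne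
      exact ⟨ρ x0, hρ x0, h4⟩
  obtain ⟨r, hr, h4⟩ := h3
  refine ⟨r, hr, fun x y hxy => ?_⟩
  have hx : x ∈ ⋃ x ∈ t, {z | dst z x ≤ ρ x} := by
    rw [ht]
    trivial
  simp only [Set.mem_iUnion] at hx
  obtain ⟨a, ha, hxa⟩ := hx
  have hxa' : dst x a ≤ ρ a := hxa
  have hya : dst y a ≤ ρ a := (h.ultra y x a).trans
    (max_le ((by rw [h.symm]; exact hxy : dst y x ≤ r).trans (h4 a ha)) hxa')
  rw [h2 a x hxa', h2 a y hya]

theorem uc_unif (h : UM dst) (hb : Bas dst) (f : C(Y, ℂ)) {ε : ℝ} (hε : 0 < ε) :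
    ∃ ρ > 0, ∀ x y, dst x y ≤ ρ → ‖f x - f y‖ ≤ ε := by
  classical
  have h1 : ∀ x, ∃ ρ > 0, ∀ z, dst z x ≤ ρ → z ∈ f ⁻¹' (Metric.ball (f x) (ε / 2)) := fun x =>
    hb x _ (Metric.isOpen_ball.preimage f.continuous) (Metric.mem_ball_self (half_pos hε))
  choose ρ hρ h2 using h1
  obtain ⟨t, ht⟩ := CompactSpace.elim_nhds_subcover (fun x : Y => {z | dst z x ≤ ρ x})
    (fun x => (h.clo x _ (hρ x)).isOpen.mem_nhds (by
      change dst x x ≤ ρ x
      rw [h.self]
      exact (hρ x).le))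
  have h3 : ∃ r > 0, ∀ x ∈ t, r ≤ ρ x := by
    rcases t.eq_empty_or_nonempty with rfl | hne
    · exact ⟨1, one_pos, fun x hx => by simp at hx⟩
    · obtain ⟨x0, _, h4⟩ := t.exists_min_image ρ hne
      exact ⟨ρ x0, hρ x0, h4⟩
  obtain ⟨r, hr, h4⟩ := h3
  refine ⟨r, hr, fun x y hxy => ?_⟩
  have hx : x ∈ ⋃ x ∈ t, {z | dst z x ≤ ρ x} := by
    rw [ht]
    trivial
  simp only [Set.mem_iUnion] at hx
  obtain ⟨a, ha, hxa⟩ := hx
  have hxa' : dst x a ≤ ρ a := hxa
  have hya : dst y a ≤ ρ a := (h.ultra y x a).trans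
    (max_le ((by rw [h.symm]; exact hxy : dst y x ≤ r).trans (h4 a ha)) hxa')
  have h5 := mem_ball_iff_norm.1 (h2 a x hxa')
  have h6 := mem_ball_iff_norm.1 (h2 a y hya)
  have e : f x - f y = (f x - f a) - (f y - f a) := by ring
  rw [e]
  refine (norm_sub_le _ _).trans ?_
  linarith

/-- locally constant functions are dense, with control of the supports -/
theorem lc_dense [Nonempty Y] (h : UM dst) (hb : Bas dst) (f : C(Y, ℂ)) {U : Set Y}
    (hU : IsLocallyConstant fun x => x ∈ U) (hf : ∀ x, f x ≠ 0 → x ∈ U) :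
    f ∈ closure {f' : C(Y, ℂ) | IsLocallyConstant f' ∧ ∀ x, f' x ≠ 0 → x ∈ U} := by
  rw [Metric.mem_closure_iff]
  intro ε hε
  obtain ⟨ρ, hρ, h1⟩ := uc_unif h hb f (half_pos hε)
  have hlc : IsLocallyConstant fun y => f (pk (bl dst ρ y)) :=
    (h.bl_lc hρ).comp fun S => f (pk S)
  let f' : C(Y, ℂ) := (⟨_, hlc.continuous⟩ : C(Y, ℂ)) * chc U hU
  have hv : ∀ y, f' y = f (pk (bl dst ρ y)) * chi U y := fun y => rfl
  refine ⟨f', ⟨hlc.comp₂ (chi_lc hU) fun a b => a * b, fun x hx => ?_⟩, ?_⟩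
  · by_contra hc
    apply hx
    rw [hv, chi_of_not hc, mul_zero]
  · refine lt_of_le_of_lt ?_ (half_lt_self hε)
    rw [dist_eq_norm]
    refine (ContinuousMap.norm_le _ (half_pos hε).le).2 fun y => ?_
    change ‖f y - f' y‖ ≤ _
    rw [hv]
    by_cases hy : y ∈ U
    · rw [chi_of_mem hy, mul_one]
      refine h1 _ _ ?_
      have h2 : pk (bl dst ρ y) ∈ bl dst ρ y := pk_mem ⟨y, by
        change dst y y ≤ ρ
        rw [h.self]
        exact hρ.le⟩
      rw [h.symm]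
      exact h2
    · have h3 : f y = 0 := by
        by_contra hc
        exact hy (hf y hc)
      rw [chi_of_not hy, h3, mul_zero, sub_zero, norm_zero]
      exact (half_pos hε).le

omit [CompactSpace Y] in
/-- clopen neighbourhoods of a set -/
theorem nbhd_lc (h : UM dst) {ρ : ℝ} (hρ : 0 < ρ) (A : Set Y) :
    IsLocallyConstant fun x => x ∈ {x | ∃ a ∈ A, dst x a ≤ ρ} := by
  have h1 : (fun x => x ∈ {x | ∃ a ∈ A, dst x a ≤ ρ}) =
      fun x => ∃ a ∈ A, bl dst ρ x = bl dst ρ a := by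
    funext x
    rw [eq_iff_iff]
    change (∃ a ∈ A, dst x a ≤ ρ) ↔ _
    simp only [h.bl_iff hρ.le]
  rw [h1]
  exact (h.bl_lc hρ).comp fun S => ∃ a ∈ A, S = bl dst ρ a

theorem exists_eps (h : UM dst) (hb : Bas dst) (Fl : List C(Y, ℂ))
    (hF : ∀ f ∈ Fl, IsLocallyConstant f) : ∃ ε > 0, ∀ f ∈ Fl, ∀ x y, dst x y ≤ ε → f x = f y := by
  induction Fl with
  | nil => exact ⟨1, one_pos, fun f hf => by simp at hf⟩
  | cons f Fl ih =>
    obtain ⟨ε, hε, h1⟩ := ih fun f hf => hF f (List.mem_cons_of_mem _ hf)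
    obtain ⟨ε', hε', h2⟩ := lc_unif h hb (hF f List.mem_cons_self)
    refine ⟨min ε ε', lt_min hε hε', fun f' hf' x y hxy => ?_⟩
    rcases List.mem_cons.1 hf' with rfl | hf'
    · exact h2 x y (hxy.trans (min_le_right _ _))
    · exact h1 f' hf' x y (hxy.trans (min_le_left _ _))

theorem exists_bd (Fl : List C(Y, ℂ)) (f₀ : C(Y, ℂ)) :
    ∃ Z, 0 ≤ Z ∧ (∀ y, ‖f₀ y‖ ≤ Z) ∧ ∀ f ∈ Fl, ∀ y, ‖f y‖ ≤ Z := by
  induction Fl with
  | nil => exact ⟨‖f₀‖, norm_nonneg _, fun y => f₀.norm_coe_le_norm y, fun f hf => by simp at hf⟩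
  | cons f Fl ih =>
    obtain ⟨Z, hZ, h1, h2⟩ := ih
    refine ⟨max Z ‖f‖, hZ.trans (le_max_left _ _), fun y => (h1 y).trans (le_max_left _ _),
      fun f' hf' y => ?_⟩
    rcases List.mem_cons.1 hf' with rfl | hf'
    · exact (f'.norm_coe_le_norm y).trans (le_max_right _ _)
    · exact (h2 f' hf' y).trans (le_max_left _ _)

end cpt

end Vale.Agent.P092.H145.G4
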