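import Vale.Agent.P092.H145.WL6

/-!
P092 (helper145), team P, row [P2-WL]: the count of a word over the near-wall elements.
-/

set_option linter.all false

open Filter Topology
open scoped LinearAlgebra.Projectivization Matrix

namespace Vale.Agent.P092.H145.WL7

open Vale.Agent.P092.H145.WL Vale.Agent.P092.H145.WL3 Vale.Agent.P092.H145.WL4
open Vale.Agent.P092.H145.WL5 Vale.Agent.P092.H145.WL6
open Vale.Agent.P092.H820 (pj pj_oq pj_surj pj_continuous csP csSL)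
open Matrix (SpecialLinearGroup)

section lc

variable {Y : Type*} [TopologicalSpace Y]

theorem lc_sum {ι : Type*} (s : Finset ι) (f : ι → C(Y, ℂ)) (h : ∀ i ∈ s, IsLocallyConstant (f i)) :
    IsLocallyConstant (∑ i ∈ s, f i : C(Y, ℂ)) := by
  classical
  induction s using Finset.induction_on with
  | empty =>
    rw [Finset.sum_empty]
    exact IsLocallyConstant.const (0 : ℂ)
  | insert a s ha ih =>
    rw [Finset.sum_insert ha]
    have h1 := h a (Finset.mem_insert_self a s)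
    have h2 := ih fun i hi => h i (Finset.mem_insert_of_mem hi)
    exact h1.comp₂ h2 fun a b => a + b

theorem sq_sum_le' {K ι : Type*} [NormedAddCommGroup K] [InnerProductSpace ℂ K] (s : Finset ι)
    (x : ι → K) : ‖∑ i ∈ s, x i‖ ^ 2 ≤ s.card * ∑ i ∈ s, ‖x i‖ ^ 2 := by
  have h1 : ‖∑ i ∈ s, x i‖ ≤ ∑ i ∈ s, ‖x i‖ := norm_sum_le _ _
  calc ‖∑ i ∈ s, x i‖ ^ 2 ≤ (∑ i ∈ s, ‖x i‖) ^ 2 := pow_le_pow_left₀ (norm_nonneg _) h1 2
    _ ≤ _ := sq_sum_le_card_mul_sum_sq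

end lc

section words

variable {k : Type*} [NontriviallyNormedField k] [IsUltrametricDist k] [ProperSpace k]
  {D : Type*} [Fintype D] [DecidableEq D] [Nonempty D]
  {ι K : Type*} [NormedAddCommGroup K] [InnerProductSpace ℂ K]

/-- opposite supports -/
def Opp (J : Matrix D D k) (u h : C(ℙ k (D → k), ℂ)) : Prop :=
  ∀ x y, u x ≠ 0 → h y ≠ 0 → om J (nv x) (nv y) ≠ 0

/-- words -/
noncomputable def wl (E : ι → (C(ℙ k (D → k), ℂ) →ₗ[ℂ] (K →L[ℂ] K)))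
    (L : List (ι × C(ℙ k (D → k), ℂ))) : K →L[ℂ] K := (L.map fun p => E p.1 p.2).prod

theorem wl_cons (E : ι → (C(ℙ k (D → k), ℂ) →ₗ[ℂ] (K →L[ℂ] K))) (p : ι × C(ℙ k (D → k), ℂ))
    (L : List (ι × C(ℙ k (D → k), ℂ))) : wl E (p :: L) = E p.1 p.2 * wl E L := by
  unfold wl
  rw [List.map_cons, List.prod_cons]

/-- the word lemma for fewer than `n` intermediate letters -/
def Wn (J : Matrix D D k) (E : ι → (C(ℙ k (D → k), ℂ) →ₗ[ℂ] (K →L[ℂ] K))) (n : ℕ) : Prop :=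
  ∀ (i j : ι) (L : List (ι × C(ℙ k (D → k), ℂ))), L.length < n →
    (∀ p ∈ L, IsLocallyConstant p.2) → ∀ u h : C(ℙ k (D → k), ℂ), IsLocallyConstant u →
    IsLocallyConstant h → Opp J u h → E i u * wl E L * E j h = 0

/-- the translated word -/
noncomputable def tw (g : SpecialLinearGroup D k) (L : List (ι × C(ℙ k (D → k), ℂ))) :
    List (ι × C(ℙ k (D → k), ℂ)) := L.map fun p => (p.1, cg g p.2)

theorem class_count {Γ : Type*} {J J' : Matrix D D k} (hJ : Frm J J') {R δ κ ε : ℝ}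
    {σ s Mc N₀ : ℕ} {g : Γ → SpecialLinearGroup D k} {B : Set (ℙ k (D → k))}
    (hcl : Cls J R δ κ σ g B)
    (hδ : 0 < δ) (hδ1 : δ ≤ 1) (hκ0 : 0 ≤ κ) (hκ1 : κ < 1) (hs : 1 ≤ s)
    (hsR : R ^ 2 * rd (s - 1) ≤ ε * δ) (hκR : 2 * R ^ 2 * κ ≤ ε * δ ^ 2) (hε : 0 < ε)
    (hR : 1 ≤ R)
    (ud : ∀ S : Finset Γ, (∀ γ ∈ S, ∀ γ' ∈ S, ∀ x, ‖(g γ').1 *ᵥ x‖ ≤
      (2 ^ 2 * R ^ 2 * (R / δ) ^ 2) * ‖(g γ).1 *ᵥ x‖) → S.card ≤ Mc)
    (hN₀ : 0 < N₀) (hD : Dbl (dst (k := k) (D := D)) s N₀)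
    {E : ι → (C(ℙ k (D → k), ℂ) →ₗ[ℂ] (K →L[ℂ] K))} (hE : ∀ j, Bes fun f => E j f)
    {Z : ℝ} (hZ : 0 ≤ Z) {f₀ : C(ℙ k (D → k), ℂ)} (hf₀ : IsLocallyConstant f₀)
    (hf₀B : ∀ x, f₀ x ≠ 0 → x ∈ B) (hf₀Z : ∀ y, ‖f₀ y‖ ≤ Z)
    (L : List (ι × C(ℙ k (D → k), ℂ))) (hL : ∀ p ∈ L, IsLocallyConstant p.2 ∧
      (∀ y, ‖p.2 y‖ ≤ Z) ∧ ∀ x y, dst x y ≤ ε → p.2 x = p.2 y)
    (hW : Wn J E L.length) (j₀ : ι) (S : Finset Γ) (ξ : K) :
    ∑ γ ∈ S, ‖(E j₀ (cg (g γ) f₀) * wl E (tw (g γ) L)) ξ‖ ^ 2 ≤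
      ((((σ + 1) * N₀ + 1 : ℕ) : ℝ) ^ 2 * (max Z 1) ^ 2) ^ L.length *
        (N₀ + Z ^ 2 * Mc) ^ (L.length + 1) * ‖ξ‖ ^ 2 := by
  classical
  haveI : Nonempty (ℙ k (D → k)) := by
    obtain ⟨i⟩ := ‹Nonempty D›
    exact ⟨Projectivization.mk k (Pi.single i 1) (by
      intro h
      have := congrFun h i
      simp at this)⟩
  obtain ⟨η, Nr, hfam, hcapB⟩ := fam_of hJ hcl hδ hδ1 hκ0 hκ1 hs hsR hκR hε hR ud
  obtain ⟨M, hM⟩ : ∃ M : ℝ, M = N₀ + Z ^ 2 * Mc := ⟨_, rfl⟩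
  have hM0 : 0 ≤ M := by rw [hM]; positivity
  have hex : ∀ f : C(ℙ k (D → k), ℂ), ∃ (z : Option (Fin (σ + 1) × Fin N₀) → Γ → ℂ)
      (G : Option (Fin (σ + 1) × Fin N₀) → Γ → C(ℙ k (D → k), ℂ)),
      (IsLocallyConstant f ∧ (∀ y, ‖f y‖ ≤ Z) ∧ ∀ x y, dst x y ≤ ε → f x = f y) →
      (∀ α γ, ‖z α γ‖ ≤ max Z 1) ∧ (∀ α γ, IsLocallyConstant (G α γ)) ∧
      (∀ S : Finset Γ, ∀ y, ∑ γ ∈ S, ‖G none γ y‖ ^ 2 ≤ Z ^ 2 * Mc) ∧
      (∀ j i γ γ', dst (η γ) (η γ') ≤ rd (j.1 + s) → G (some (j, i)) γ = G (some (j, i)) γ') ∧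
      (∀ j i, ∀ S : Finset Γ, (∀ γ ∈ S, ∀ γ' ∈ S, dst (η γ) (η γ') ≤ rd (j.1 + s) → γ = γ') →
        ∀ y, ∑ γ ∈ S, ‖G (some (j, i)) γ y‖ ^ 2 ≤ N₀) ∧
      ∀ γ, ∀ w ∈ Rel J g B γ, (cg (g γ) f - ∑ α, z α γ • G α γ) w = 0 := by
    intro f
    by_cases hf : IsLocallyConstant f ∧ (∀ y, ‖f y‖ ≤ Z) ∧ ∀ x y, dst x y ≤ ε → f x = f y
    · obtain ⟨z, G, h⟩ := (hfam Z f hf.1 hf.2.1 hf.2.2).expand um hZ hs hN₀ hD
      exact ⟨z, G, fun _ => h⟩
    · exact ⟨fun _ _ => 0, fun _ _ => 0, fun h => absurd h hf⟩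
  choose z G hzG using hex
  let r : Option (Fin (σ + 1) × Fin N₀) → Γ → Γ → Prop := fun α γ γ' =>
    match α with
    | none => γ = γ'
    | some (j, i) => dst (η γ) (η γ') ≤ rd (j.1 + s)
  let mk : ι × C(ℙ k (D → k), ℂ) → Hl (ℙ k (D → k)) K Γ (Option (Fin (σ + 1) × Fin N₀)) :=
    fun p => ⟨E p.1, fun γ => cg (g γ) p.2, z p.2, G p.2, r⟩
  let P : Lt (ℙ k (D → k)) K Γ → Prop := fun l => Ok M l ∧ (∃ j, ∀ f, l.E f = E j f) ∧
    (∀ γ, IsLocallyConstant (l.G γ)) ∧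
    (l.r = (fun γ γ' => γ = γ') ∨ ∃ j : ℕ, l.r = fun γ γ' => dst (η γ) (η γ') ≤ rd (j + s))
  let l0 : Lt (ℙ k (D → k)) K Γ := ⟨fun f => E j₀ f, fun γ => cg (g γ) f₀, fun γ γ' => γ = γ'⟩
  have hNM : (N₀ : ℝ) ≤ M := by
    rw [hM]
    have : 0 ≤ Z ^ 2 * (Mc : ℝ) := by positivity
    linarith
  have hZM : Z ^ 2 * (Mc : ℝ) ≤ M := by
    rw [hM]
    have : (0 : ℝ) ≤ N₀ := Nat.cast_nonneg _
    linarith
  have h0P : P l0 := by
    refine ⟨⟨hE j₀, ⟨fun _ => rfl, fun h => h.symm, fun h h' => h.trans h'⟩,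
      fun γ γ' h => by rw [show γ = γ' from h], ?_⟩, ⟨j₀, fun _ => rfl⟩, ?_, Or.inl rfl⟩
    · intro S _ y
      have h1 : ∀ γ, ‖cg (g γ) f₀ y‖ ^ 2 ≤ if g γ • y ∈ B then Z ^ 2 else 0 := by
        intro γ
        change ‖f₀ (g γ • y)‖ ^ 2 ≤ _
        split_ifs with hy
        · exact pow_le_pow_left₀ (norm_nonneg _) (hf₀Z _) 2
        · have : f₀ (g γ • y) = 0 := by
            by_contra hc
            exact hy (hf₀B _ hc)
          rw [this, norm_zero]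
          norm_num
      refine (Finset.sum_le_sum fun γ _ => h1 γ).trans (le_trans ?_ hZM)
      rw [← Finset.sum_filter, Finset.sum_const, nsmul_eq_mul, mul_comm]
      refine mul_le_mul_of_nonneg_left ?_ (by positivity)
      exact hcapB _ y fun γ hγ => (Finset.mem_filter.1 hγ).2
    · intro γ
      exact hf₀.comp_continuous (continuous_const_smul (g γ))
  have hPc : ∀ l, P l → ∀ l', P l' →
      (∀ γ γ', l.r γ γ' → l'.r γ γ') ∨ (∀ γ γ', l'.r γ γ' → l.r γ γ') := by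
    rintro l ⟨-, -, -, h1⟩ l' ⟨-, -, -, h2⟩
    have hself : ∀ (j : ℕ) γ γ', γ = γ' → dst (η γ) (η γ') ≤ rd (j + s) := by
      rintro j γ _ rfl
      rw [um.self]
      exact (rd_pos _).le
    rcases h1 with h1 | ⟨j, h1⟩
    · left
      rcases h2 with h2 | ⟨j', h2⟩
      · rw [h1, h2]
        exact fun γ γ' h => h
      · rw [h1, h2]
        exact hself j'
    · rcases h2 with h2 | ⟨j', h2⟩
      · right
        rw [h1, h2]
        exact hself j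
      · rcases le_total j j' with h3 | h3
        · right
          rw [h1, h2]
          exact fun γ γ' h => h.trans (rd_le (by omega))
        · left
          rw [h1, h2]
          exact fun γ γ' h => h.trans (rd_le (by omega))
  have hpre : ∀ (pre : List (Lt (ℙ k (D → k)) K Γ)), (∀ l ∈ pre, P l) → ∀ γ,
      ∃ L' : List (ι × C(ℙ k (D → k), ℂ)), L'.length = pre.length ∧
        (∀ p ∈ L', IsLocallyConstant p.2) ∧ wl E L' = wd pre γ := by
    intro pre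
    induction pre with
    | nil =>
      intro _ γ
      exact ⟨[], rfl, fun p hp => by simp at hp, rfl⟩
    | cons l pre ih =>
      intro hl γ
      obtain ⟨L', h1, h2, h3⟩ := ih (fun l' hl' => hl l' (List.mem_cons_of_mem _ hl')) γ
      obtain ⟨-, ⟨j, hj⟩, hlc, -⟩ := hl l List.mem_cons_self
      refine ⟨(j, l.G γ) :: L', by rw [List.length_cons, List.length_cons, h1], ?_, ?_⟩
      · intro p hp
        rcases List.mem_cons.1 hp with rfl | hp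
        · exact hlc γ
        · exact h2 p hp
      · rw [wl_cons, h3]
        change E j (l.G γ) * wd pre γ = l.E (l.G γ) * wd pre γ
        rw [hj]
  have hmk : ∀ p : ι × C(ℙ k (D → k), ℂ), (IsLocallyConstant p.2 ∧
      (∀ y, ‖p.2 y‖ ≤ Z) ∧ ∀ x y, dst x y ≤ ε → p.2 x = p.2 y) →
      (∀ α, P ((mk p).pc α)) ∧ (∀ α γ, ‖(mk p).z α γ‖ ≤ max Z 1) ∧
        ∀ pre' : List (Lt (ℙ k (D → k)) K Γ), (∀ l ∈ pre', P l) → pre'.length < L.length → ∀ γ,
          wd (l0 :: pre') γ * (mk p).E ((mk p).H γ - ∑ α, (mk p).z α γ • (mk p).G α γ) = 0 := by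
    intro p hp
    obtain ⟨h1, h2, h3, h4, h5, h6⟩ := hzG p.2 hp
    refine ⟨?_, h1, ?_⟩
    · rintro (_ | ⟨j, i⟩)
      · refine ⟨⟨hE p.1, ⟨fun _ => rfl, fun h => h.symm, fun h h' => h.trans h'⟩,
          fun γ γ' h => ?_, fun S _ y => (h3 S y).trans hZM⟩, ⟨p.1, fun _ => rfl⟩,
          fun γ => h2 none γ, Or.inl rfl⟩
        rw [show γ = γ' from h]
      · refine ⟨⟨hE p.1, ⟨fun γ => ?_, fun h => ?_, fun h h' => ?_⟩,
          fun γ γ' h => h4 j i γ γ' h, fun S hS y => (h5 j i S hS y).trans hNM⟩,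
          ⟨p.1, fun _ => rfl⟩, fun γ => h2 (some (j, i)) γ, Or.inr ⟨j.1, rfl⟩⟩
        · change dst (η γ) (η γ) ≤ _
          rw [um.self]
          exact (rd_pos _).le
        · rename_i a b
          change dst (η b) (η a) ≤ _
          rw [um.symm]
          exact h
        · exact (um.ultra _ _ _).trans (max_le h h')
    · intro pre' hp' hlen γ
      obtain ⟨L', e1, e2, e3⟩ := hpre pre' hp' γ
      have h7 := hW j₀ p.1 L' (by rw [e1]; exact hlen) e2 (cg (g γ) f₀)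
        (cg (g γ) p.2 - ∑ α, z p.2 α γ • G p.2 α γ)
        (hf₀.comp_continuous (continuous_const_smul (g γ))) ?_ ?_
      · rw [e3] at h7
        exact h7
      · have h8 : IsLocallyConstant (cg (g γ) p.2) :=
          hp.1.comp_continuous (continuous_const_smul (g γ))
        have h9 : IsLocallyConstant (∑ α, z p.2 α γ • G p.2 α γ : C(ℙ k (D → k), ℂ)) :=
          lc_sum _ _ fun α _ => (h2 α γ).comp fun c => z p.2 α γ • c
        exact h8.comp₂ h9 fun a b => a - b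
      · intro x y hx hy h0
        apply hy
        refine h6 γ y ⟨x, hf₀B _ hx, ?_⟩
        rw [hJ.neg, h0, neg_zero]
  have hwh : ∀ (L : List (ι × C(ℙ k (D → k), ℂ))) (γ : Γ),
      wh (L.map mk) γ = wl E (tw (g γ) L) := by
    intro L γ
    induction L with
    | nil => rfl
    | cons p L ih =>
      have e1 : tw (g γ) (p :: L) = (p.1, cg (g γ) p.2) :: tw (g γ) L := rfl
      rw [List.map_cons, e1, wl_cons, ← ih]
      rfl
  have hmain := WL.expand (A := Option (Fin (σ + 1) × Fin N₀)) hM0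
    (hZ.trans (le_max_left Z 1)) P (fun l hl => hl.1) hPc l0 h0P (fun γ γ' h => h) L.length
    (L.map mk) [] (by rw [List.length_map, List.length_nil, zero_add])
    (fun l hl => by simp at hl) (fun h hh => by
      obtain ⟨p, hp, rfl⟩ := List.mem_map.1 hh
      exact hmk p (hL p hp)) S ξ
  have ecard : Fintype.card (Option (Fin (σ + 1) × Fin N₀)) = (σ + 1) * N₀ + 1 := by
    rw [Fintype.card_option, Fintype.card_prod, Fintype.card_fin, Fintype.card_fin]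
  rw [ecard, List.length_map] at hmain
  rw [← hM]
  refine le_trans (le_of_eq ?_) hmain
  refine Finset.sum_congr rfl fun γ _ => ?_
  rw [hwh]
  rfl

end words

end Vale.Agent.P092.H145.WL7
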