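import Vale.Agent.P092.H145.G3
import Vale.Agent.P092.H145.G4
import Vale.Agent.P092.H145.WL7

/-!
P092 (helper145), team P, row [P2-WL]: the families `f ∘ h` for the near-wall elements `h` of one
size class, for functions on a space `Y` over the projective space and any sesquilinear form.
-/

set_option linter.all false

open Filter Topology
open scoped LinearAlgebra.Projectivization Matrix

namespace Vale.Agent.P092.H145.G5

open Vale.Agent.P092.H145.WL3 (add_le sub_le norm_eq_of_close dot_le mulVec_le exists_pivot wg wg_le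
  wg_self wg_sub_left wg_smul_left wg_smul_right wg_comm exists_comp wg_le_sub smul_le quot_le)
open Vale.Agent.P092.H145.WL4 (UM bl pk pk_mem rd rd_pos rd_le rd_zero Dbl chi chc chi_lc
  chi_of_mem chi_of_not chi_sq and_lc)
open Vale.Agent.P092.H145.WL5 (nv norm_nv nv_ne mk_nv nv_smul dst dst_mk rep_near clo_gen um
  dst_le_of ball_sub dbl)
open Vale.Agent.P092.H145.WL6 (mulVec_ne smul_eq smul_nv exists_lift rd_mul_two_pow)
open Vale.Agent.P092.H145.G3 Vale.Agent.P092.H145.G4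
open Matrix (SpecialLinearGroup)

section

variable {k : Type*} [NontriviallyNormedField k] [IsUltrametricDist k]
  {D : Type*} [Fintype D] [DecidableEq D] [Nonempty D] {Y : Type*} [TopologicalSpace Y]

/-- the ultrametric of `Y` -/
noncomputable def dY (pt : Y → ℙ k (D → k)) (x y : Y) : ℝ := dst (pt x) (pt y)

theorem umY {pt : Y → ℙ k (D → k)} (hpt : Continuous pt) : UM (dY pt) where
  self x := um.self _
  symm x y := um.symm _ _
  ultra x y z := um.ultra _ _ _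
  le1 x y := um.le1 _ _
  clo x ρ hρ := (um.clo (pt x) ρ hρ).preimage hpt

theorem basY {pt : Y → ℙ k (D → k)} (hpt : IsInducing pt) : Bas (dY pt) := by
  intro x O hO hx
  obtain ⟨O', hO', rfl⟩ := hpt.isOpen_iff.1 hO
  obtain ⟨ρ, hρ, h⟩ := ball_sub (pt x) hO' hx
  exact ⟨ρ, hρ, fun z hz => h _ hz⟩

/-- near-wall elements of one size class, with a small target set `B` opposite to the attracting
points -/
structure Cls {Γ : Type*} (σ : k →+* k) (J : Matrix D D k) (pt : Y → ℙ k (D → k)) (R δ κ : ℝ)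
    (τ : ℕ) (g : Γ → SpecialLinearGroup D k) (B : Set Y) : Prop where
  ex : ∀ γ, ∃ (u y xu : D → k) (M : Matrix D D k) (n : ℝ), NWD σ J R n (g γ).1 u y xu M ∧
    (2 : ℝ) ^ τ ≤ n ∧ n ≤ 2 ^ (τ + 1) ∧ ∀ a ∈ B, δ ≤ ‖om σ J u (nv (pt a))‖
  diam : ∀ a ∈ B, ∀ a' ∈ B, dY pt a a' ≤ κ

/-- the relevant points -/
def Rel {Γ : Type*} (σ : k →+* k) (J : Matrix D D k) (pt : Y → ℙ k (D → k)) (T : Γ → C(Y, Y))
    (B : Set Y) (γ : Γ) : Set Y :=
  {w | ∃ β : Y, T γ β ∈ B ∧ om σ J (nv (pt w)) (nv (pt β)) = 0}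

theorem fam_of {Γ : Type*} {σ : k →+* k} {J J' : Matrix D D k} {bt : ℝ} (hJ : Fr σ J J' bt)
    {pt : Y → ℙ k (D → k)} (hpt : Continuous pt)
    (hiso : ∀ y, om σ J (nv (pt y)) (nv (pt y)) = 0) {R δ κ ε : ℝ} {τ s Mc : ℕ}
    {g : Γ → SpecialLinearGroup D k} {T : Γ → C(Y, Y)} (hT : ∀ γ y, pt (T γ y) = g γ • pt y)
    {B : Set Y} (hcl : Cls σ J pt R δ κ τ g B)
    (hδ : 0 < δ) (hδ1 : δ ≤ 1) (hκ0 : 0 ≤ κ) (hκ1 : κ < 1) (hs : 1 ≤ s)
    (hsR : R ^ 3 * rd (s - 1) ≤ ε * δ) (hκR : 2 * R ^ 7 * κ ≤ ε * δ ^ 2) (hε : 0 < ε)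
    (hR : 1 ≤ R)
    (ud : ∀ S : Finset Γ, (∀ γ ∈ S, ∀ γ' ∈ S, ∀ x, ‖(g γ').1 *ᵥ x‖ ≤
      (2 ^ 2 * R ^ 8 * (R ^ 5 / δ) ^ 3) * ‖(g γ).1 *ᵥ x‖) → S.card ≤ Mc) :
    ∃ (η : Γ → ℙ k (D → k)) (Nr : Γ → Set Y), (∀ (Z : ℝ) (f : C(Y, ℂ)),
      IsLocallyConstant f → (∀ y, ‖f y‖ ≤ Z) → (∀ x y, dY pt x y ≤ ε → f x = f y) →
      Fam dst pt s (τ + 1) Z Mc η (fun _ => τ) (Rel σ J pt T B) Nr (fun γ => f.comp (T γ))) ∧
      (∀ (S : Finset Γ) (y : Y), (∀ γ ∈ S, T γ y ∈ B) → (S.card : ℝ) ≤ Mc) := by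
  choose u y xu M n hN h2 h3 hB using hcl.ex
  have hy0 : ∀ γ, y γ ≠ 0 := fun γ => by
    rw [← norm_pos_iff]
    exact (hN γ).y0
  have hR0 : 0 < R := zero_lt_one.trans_le hR
  have hR5 : 1 ≤ R ^ 5 := one_le_pow₀ hR
  have hC : 1 ≤ R ^ 5 / δ := by
    rw [le_div_iff₀ hδ]
    linarith
  have h2τ : (0 : ℝ) < 2 ^ τ := by positivity
  have hnn : ∀ γ γ', n γ' ≤ 2 * n γ := by
    intro γ γ'
    calc n γ' ≤ 2 ^ (τ + 1) := h3 γ'
      _ = 2 * 2 ^ τ := by ring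
      _ ≤ 2 * n γ := by linarith [h2 γ]
  -- capacity
  have hcap : ∀ (S : Finset Γ) (a : Y),
      (∀ γ ∈ S, ‖(g γ).1 *ᵥ nv (pt a)‖ * n γ ≤ R ^ 5 / δ) → (S.card : ℝ) ≤ Mc := by
    intro S a hS
    exact_mod_cast ud S fun γ hγ γ' hγ' x =>
      (hN γ).cap (hN γ') hJ.ns hJ.ss (norm_nv _) (hiso a) hC one_le_two (hnn γ γ') (hnn γ' γ)
        (hS γ hγ) (hS γ' hγ') x
  refine ⟨fun γ => Projectivization.mk k (y γ) (hy0 γ),
    fun γ => {w | ‖(g γ).1 *ᵥ nv (pt w)‖ ≤ (R ^ 5 / δ) / n γ}, fun Z f hlc hZ hf => ?_, ?_⟩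
  swap
  · intro S a hS
    refine hcap S a fun γ hγ => ?_
    obtain ⟨c, hc, e⟩ := nv_smul (smul_nv (g γ) (pt a))
    have h4 : δ * ‖(g γ).1 *ᵥ nv (pt a)‖ ≤ ‖om σ J (u γ) ((g γ).1 *ᵥ nv (pt a))‖ := by
      have h5 := hB γ _ (hS γ hγ)
      rw [hT] at h5
      have e2 : ‖om σ J (u γ) ((g γ).1 *ᵥ nv (pt a))‖ =
          ‖c‖ * ‖om σ J (u γ) (nv (g γ • pt a))‖ := by
        rw [e, om_smul_right, norm_mul, hJ.ns]
      rw [e2, hc, mul_comm]
      exact mul_le_mul_of_nonneg_left h5 (norm_nonneg _)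
    have h6 := (hN γ).bB h4
    rw [norm_nv, mul_one] at h6
    rw [le_div_iff₀ hδ]
    calc ‖(g γ).1 *ᵥ nv (pt a)‖ * n γ * δ = δ * (‖(g γ).1 *ᵥ nv (pt a)‖ * n γ) := by ring
      _ ≤ R := h6
      _ = R ^ 1 := (pow_one R).symm
      _ ≤ R ^ 5 := pow_le_pow_right₀ hR (by norm_num)
  -- lifts of the points of `B`
  have hlift : ∀ γ (β : Y) (v : D → k) (hv : v ≠ 0),
      Projectivization.mk k v hv = pt (T γ β) → ‖v‖ = 1 → T γ β ∈ B →
      ∃ b : D → k, (∃ c : k, b = c • nv (pt β)) ∧ (g γ).1 *ᵥ b = v ∧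
        δ ≤ ‖om σ J (u γ) v‖ := by
    intro γ β v hv e hv1 hβ
    obtain ⟨c, hc⟩ := exists_lift (g γ) (e.trans (hT γ β))
    refine ⟨c • nv (pt β), ⟨c, rfl⟩, hc, ?_⟩
    obtain ⟨c', hc', e'⟩ := nv_smul e
    rw [e', om_smul_right, norm_mul, hJ.ns, hc', hv1, one_mul]
    exact hB γ _ hβ
  refine ⟨fun γ => Nat.lt_succ_self τ, fun γ => ?_, fun γ y => hZ _, ?_, ?_, ?_, ?_⟩
  · exact hlc.comp_continuous (T γ).continuous
  · -- near points
    rintro γ w ⟨β, hβ, hwβ⟩ hw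
    have hn := (hN γ).n0
    obtain ⟨b, ⟨c, hc⟩, hb, hop⟩ := hlift γ β (nv (pt (T γ β))) (nv_ne _) (mk_nv _) (norm_nv _) hβ
    have hwb : om σ J (nv (pt w)) b = 0 := by
      rw [hc, om_smul_right, hwβ, mul_zero]
    have hd : ‖wg (nv (pt w)) (y γ)‖ ≤ (1 / n γ) * ‖y γ‖ := by
      rw [dst_mk (mk_nv (pt w)) (rfl : Projectivization.mk k (y γ) (hy0 γ) = _), norm_nv, one_mul]
      refine mul_le_mul_of_nonneg_right ?_ (norm_nonneg _)
      rw [le_div_iff₀ hn]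
      calc dst (pt w) (Projectivization.mk k (y γ) (hy0 γ)) * n γ ≤ rd (τ + 1) * 2 ^ (τ + 1) :=
            mul_le_mul hw (h3 γ) hn.le (rd_pos _).le
        _ = 1 := rd_mul_two_pow _
    have h7 := (hN γ).relUp hδ hδ1 (le_of_eq (norm_nv (pt w))) hwb
      (by rw [hb, norm_nv]) (by rw [hb]; exact hop) hd (le_of_eq (by field_simp))
    change ‖(g γ).1 *ᵥ nv (pt w)‖ ≤ (R ^ 5 / δ) / n γ
    refine h7.trans (le_of_eq ?_)
    field_simp
  · intro γ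
    have h4 := (clo_gen (k := k) (D := D) (fun v => (g γ).1 *ᵥ v)
      (Continuous.matrix_mulVec continuous_const continuous_id)
      (fun c v => by rw [Matrix.mulVec_smul, norm_smul])
      (ρ := (R ^ 5 / δ) / n γ) (div_pos (by linarith) (hN γ).n0)).preimage hpt
    rw [IsLocallyConstant.iff_eventually_eq]
    intro x
    by_cases hx : ‖(g γ).1 *ᵥ nv (pt x)‖ ≤ (R ^ 5 / δ) / n γ
    · filter_upwards [h4.isOpen.mem_nhds hx] with z hz
      rw [eq_iff_iff]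
      exact ⟨fun _ => hx, fun _ => hz⟩
    · filter_upwards [h4.compl.isOpen.mem_nhds hx] with z hz
      rw [eq_iff_iff]
      exact ⟨fun h => absurd h hz, fun h => absurd h hx⟩
  · intro S a hS
    refine hcap S a fun γ hγ => ?_
    have h4 : ‖(g γ).1 *ᵥ nv (pt a)‖ ≤ (R ^ 5 / δ) / n γ := hS γ hγ
    rwa [le_div_iff₀ (hN γ).n0] at h4
  · -- isotropy
    rintro γ j hj w ⟨β, hβ, hwβ⟩ w' ⟨β', hβ', hwβ'⟩ hlo hup hup' hww
    have hn := (hN γ).n0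
    have hjs : rd (j + s) < 1 := by
      have h4 : rd (j + s) ≤ rd 1 := rd_le (by omega)
      have h5 : rd 1 = 1 / 2 := by unfold rd; norm_num
      rw [h5] at h4
      linarith
    obtain ⟨v, hv, e1, e2, e3⟩ := rep_near (x := pt w') (z := pt w) (hww.trans_lt hjs)
    obtain ⟨b, ⟨c, hc⟩, hb, hop⟩ := hlift γ β (nv (pt (T γ β))) (nv_ne _) (mk_nv _) (norm_nv _) hβ
    obtain ⟨v', hv', f1, f2, f3⟩ := rep_near (x := pt (T γ β)) (z := pt (T γ β'))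
      ((hcl.diam _ hβ' _ hβ).trans_lt hκ1)
    obtain ⟨b', ⟨c', hc'⟩, hb', hop'⟩ := hlift γ β' v' hv' f1 f2 hβ'
    have hvb : om σ J v b = 0 := by
      obtain ⟨a, -, ea⟩ := nv_smul e1
      rw [hc, om_smul_right, ea, om_smul_left, hwβ, mul_zero, mul_zero]
    have hwb' : om σ J (nv (pt w')) b' = 0 := by
      rw [hc', om_smul_right, hwβ', mul_zero]
    have hκ : ‖(g γ).1 *ᵥ b - (g γ).1 *ᵥ b'‖ ≤ κ := by
      rw [hb, hb', norm_sub_rev]
      exact f3.trans (hcl.diam _ hβ' _ hβ)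
    have hr : 1 ≤ rd j * n γ := by
      calc (1 : ℝ) = rd τ * 2 ^ τ := (rd_mul_two_pow τ).symm
        _ ≤ rd j * n γ := mul_le_mul (rd_le hj) (h2 γ) h2τ.le (rd_pos _).le
    have hd : ‖wg (nv (pt w')) (y γ)‖ ≤ rd j * ‖y γ‖ := by
      rw [dst_mk (mk_nv (pt w')) (rfl : Projectivization.mk k (y γ) (hy0 γ) = _), norm_nv,
        one_mul]
      exact mul_le_mul_of_nonneg_right hup' (norm_nonneg _)
    have hl : rd (j + 1) * ‖y γ‖ ≤ ‖wg v (y γ)‖ := by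
      rw [dst_mk e1 (rfl : Projectivization.mk k (y γ) (hy0 γ) = _), e2, one_mul]
      exact mul_le_mul_of_nonneg_right hlo.le (norm_nonneg _)
    have hjj : rd j = 2 * rd (j + 1) := by
      unfold rd
      rw [pow_succ]
      ring
    have hjs2 : rd (j + s) = rd (j + 1) * rd (s - 1) := by
      unfold rd
      rw [← pow_add]
      congr 1
      omega
    have h8 := (hN γ).isot hδ hδ1 (le_of_eq e2) (le_of_eq (norm_nv (pt w'))) hvb hwb'
      (by rw [hb, norm_nv]) (by rw [hb', f2]) (by rw [hb]; exact hop) (by rw [hb']; exact hop')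
      hκ (e3.trans hww) hd hr (rd_pos (j + 1)) hl (ε := ε)
      (by
        rw [hjs2]
        calc R ^ 3 * (rd (j + 1) * rd (s - 1)) = rd (j + 1) * (R ^ 3 * rd (s - 1)) := by ring
          _ ≤ rd (j + 1) * (ε * δ) := mul_le_mul_of_nonneg_left hsR (rd_pos _).le
          _ = ε * rd (j + 1) * δ := by ring)
      (by
        rw [hjj]
        calc R ^ 7 * (2 * rd (j + 1)) * κ = rd (j + 1) * (2 * R ^ 7 * κ) := by ring
          _ ≤ rd (j + 1) * (ε * δ ^ 2) := mul_le_mul_of_nonneg_left hκR (rd_pos _).le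
          _ = ε * rd (j + 1) * δ ^ 2 := by ring)
    refine hf _ _ ?_
    change dst (pt (T γ w)) (pt (T γ w')) ≤ ε
    rw [hT, hT]
    exact dst_le_of (smul_eq (g γ) e1) (smul_nv (g γ) (pt w')) h8

end

end Vale.Agent.P092.H145.G5
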