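import Vale.Agent.P092.H145.G5

/-!
P092 (helper145), team P, row [P2-WL]: the count of a word over the near-wall elements, for
functions on a space `Y` over the projective space and any sesquilinear form.
-/

set_option linter.all false

open Filter Topology
open scoped LinearAlgebra.Projectivization Matrix

namespace Vale.Agent.P092.H145.G6

open Vale.Agent.P092.H145.WL (Bes Lt wd Ok Hl wh)
open Vale.Agent.P092.H145.WL4 (UM bl pk pk_mem rd rd_pos rd_le rd_zero Dbl chi chc chi_lc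
  chi_of_mem chi_of_not chi_sq and_lc)
open Vale.Agent.P092.H145.WL5 (nv norm_nv nv_ne mk_nv nv_smul dst dst_mk rep_near clo_gen um
  dst_le_of ball_sub dbl)
open Vale.Agent.P092.H145.WL7 (lc_sum sq_sum_le')
open Vale.Agent.P092.H145.G3 Vale.Agent.P092.H145.G4 Vale.Agent.P092.H145.G5
open Matrix (SpecialLinearGroup)

section words

variable {k : Type*} [NontriviallyNormedField k] [IsUltrametricDist k]
  {D : Type*} [Fintype D] [DecidableEq D] [Nonempty D] {Y : Type*} [TopologicalSpace Y]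
  [CompactSpace Y] [Nonempty Y]
  {ι K : Type*} [NormedAddCommGroup K] [InnerProductSpace ℂ K]

/-- opposite supports -/
def Opp (σ : k →+* k) (J : Matrix D D k) (pt : Y → ℙ k (D → k)) (u h : C(Y, ℂ)) : Prop :=
  ∀ x y, u x ≠ 0 → h y ≠ 0 → om σ J (nv (pt x)) (nv (pt y)) ≠ 0

/-- words -/
noncomputable def wl (E : ι → (C(Y, ℂ) →ₗ[ℂ] (K →L[ℂ] K)))
    (L : List (ι × C(Y, ℂ))) : K →L[ℂ] K := (L.map fun p => E p.1 p.2).prod

omit [CompactSpace Y] [Nonempty Y] in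
theorem wl_cons (E : ι → (C(Y, ℂ) →ₗ[ℂ] (K →L[ℂ] K))) (p : ι × C(Y, ℂ))
    (L : List (ι × C(Y, ℂ))) : wl E (p :: L) = E p.1 p.2 * wl E L := by
  unfold wl
  rw [List.map_cons, List.prod_cons]

/-- the word lemma for fewer than `n` intermediate letters -/
def Wn (σ : k →+* k) (J : Matrix D D k) (pt : Y → ℙ k (D → k))
    (E : ι → (C(Y, ℂ) →ₗ[ℂ] (K →L[ℂ] K))) (n : ℕ) : Prop :=
  ∀ (i j : ι) (L : List (ι × C(Y, ℂ))), L.length < n →
    (∀ p ∈ L, IsLocallyConstant p.2) → ∀ u h : C(Y, ℂ), IsLocallyConstant u →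
    IsLocallyConstant h → Opp σ J pt u h → E i u * wl E L * E j h = 0

/-- the translated word -/
noncomputable def tw (T : C(Y, Y)) (L : List (ι × C(Y, ℂ))) : List (ι × C(Y, ℂ)) :=
  L.map fun p => (p.1, p.2.comp T)

theorem class_count {Γ : Type*} {σ : k →+* k} {J J' : Matrix D D k} {bt : ℝ}
    (hJ : Fr σ J J' bt)
    {pt : Y → ℙ k (D → k)} (hpt : Continuous pt)
    (hiso : ∀ y, om σ J (nv (pt y)) (nv (pt y)) = 0) {R δ κ ε : ℝ} {τ s Mc N₀ : ℕ}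
    {g : Γ → SpecialLinearGroup D k} {T : Γ → C(Y, Y)} (hT : ∀ γ y, pt (T γ y) = g γ • pt y)
    {B : Set Y} (hcl : Cls σ J pt R δ κ τ g B)
    (hδ : 0 < δ) (hδ1 : δ ≤ 1) (hκ0 : 0 ≤ κ) (hκ1 : κ < 1) (hs : 1 ≤ s)
    (hsR : R ^ 3 * rd (s - 1) ≤ ε * δ) (hκR : 2 * R ^ 7 * κ ≤ ε * δ ^ 2) (hε : 0 < ε)
    (hR : 1 ≤ R)
    (ud : ∀ S : Finset Γ, (∀ γ ∈ S, ∀ γ' ∈ S, ∀ x, ‖(g γ').1 *ᵥ x‖ ≤
      (2 ^ 2 * R ^ 8 * (R ^ 5 / δ) ^ 3) * ‖(g γ).1 *ᵥ x‖) → S.card ≤ Mc)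
    (hN₀ : 0 < N₀) (hD : Dbl (dst (k := k) (D := D)) s N₀)
    {E : ι → (C(Y, ℂ) →ₗ[ℂ] (K →L[ℂ] K))} (hE : ∀ j, Bes fun f => E j f)
    {Z : ℝ} (hZ : 0 ≤ Z) {f₀ : C(Y, ℂ)} (hf₀ : IsLocallyConstant f₀)
    (hf₀B : ∀ x, f₀ x ≠ 0 → x ∈ B) (hf₀Z : ∀ y, ‖f₀ y‖ ≤ Z)
    (L : List (ι × C(Y, ℂ))) (hL : ∀ p ∈ L, IsLocallyConstant p.2 ∧
      (∀ y, ‖p.2 y‖ ≤ Z) ∧ ∀ x y, dY pt x y ≤ ε → p.2 x = p.2 y)
    (hW : Wn σ J pt E L.length) (j₀ : ι) (S : Finset Γ) (ξ : K) :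
    ∑ γ ∈ S, ‖(E j₀ (f₀.comp (T γ)) * wl E (tw (T γ) L)) ξ‖ ^ 2 ≤
      ((((τ + 1) * N₀ + 1 : ℕ) : ℝ) ^ 2 * (max Z 1) ^ 2) ^ L.length *
        (N₀ + Z ^ 2 * Mc) ^ (L.length + 1) * ‖ξ‖ ^ 2 := by
  classical
  haveI : Nonempty (ℙ k (D → k)) := ‹Nonempty Y›.map pt
  obtain ⟨η, Nr, hfam, hcapB⟩ := fam_of hJ hpt hiso hT hcl hδ hδ1 hκ0 hκ1 hs hsR hκR hε hR ud
  obtain ⟨M, hM⟩ : ∃ M : ℝ, M = N₀ + Z ^ 2 * Mc := ⟨_, rfl⟩
  have hM0 : 0 ≤ M := by rw [hM]; positivity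
  have hex : ∀ f : C(Y, ℂ), ∃ (z : Option (Fin (τ + 1) × Fin N₀) → Γ → ℂ)
      (G : Option (Fin (τ + 1) × Fin N₀) → Γ → C(Y, ℂ)),
      (IsLocallyConstant f ∧ (∀ y, ‖f y‖ ≤ Z) ∧ ∀ x y, dY pt x y ≤ ε → f x = f y) →
      (∀ α γ, ‖z α γ‖ ≤ max Z 1) ∧ (∀ α γ, IsLocallyConstant (G α γ)) ∧
      (∀ S : Finset Γ, ∀ y, ∑ γ ∈ S, ‖G none γ y‖ ^ 2 ≤ Z ^ 2 * Mc) ∧
      (∀ j i γ γ', dst (η γ) (η γ') ≤ rd (j.1 + s) → G (some (j, i)) γ = G (some (j, i)) γ') ∧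
      (∀ j i, ∀ S : Finset Γ, (∀ γ ∈ S, ∀ γ' ∈ S, dst (η γ) (η γ') ≤ rd (j.1 + s) → γ = γ') →
        ∀ y, ∑ γ ∈ S, ‖G (some (j, i)) γ y‖ ^ 2 ≤ N₀) ∧
      ∀ γ, ∀ w ∈ Rel σ J pt T B γ, (f.comp (T γ) - ∑ α, z α γ • G α γ) w = 0 := by
    intro f
    by_cases hf : IsLocallyConstant f ∧ (∀ y, ‖f y‖ ≤ Z) ∧ ∀ x y, dY pt x y ≤ ε → f x = f y
    · obtain ⟨z, G, h⟩ := (hfam Z f hf.1 hf.2.1 hf.2.2).expand um hpt hZ hs hN₀ hD
      exact ⟨z, G, fun _ => h⟩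
    · exact ⟨fun _ _ => 0, fun _ _ => 0, fun h => absurd h hf⟩
  choose z G hzG using hex
  let r : Option (Fin (τ + 1) × Fin N₀) → Γ → Γ → Prop := fun α γ γ' =>
    match α with
    | none => γ = γ'
    | some (j, i) => dst (η γ) (η γ') ≤ rd (j.1 + s)
  let mk : ι × C(Y, ℂ) → Hl Y K Γ (Option (Fin (τ + 1) × Fin N₀)) :=
    fun p => ⟨E p.1, fun γ => p.2.comp (T γ), z p.2, G p.2, r⟩
  let P : Lt Y K Γ → Prop := fun l => Ok M l ∧ (∃ j, ∀ f, l.E f = E j f) ∧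
    (∀ γ, IsLocallyConstant (l.G γ)) ∧
    (l.r = (fun γ γ' => γ = γ') ∨ ∃ j : ℕ, l.r = fun γ γ' => dst (η γ) (η γ') ≤ rd (j + s))
  let l0 : Lt Y K Γ := ⟨fun f => E j₀ f, fun γ => f₀.comp (T γ), fun γ γ' => γ = γ'⟩
  have hNM : (N₀ : ℝ) ≤ M := by
    rw [hM]
    have : 0 ≤ Z ^ 2 * (Mc : ℝ) := by positivity
    linarith
  have hZM : Z ^ 2 * (Mc : ℝ) ≤ M := by
    rw [hM]
    have : (0 : ℝ) ≤ N₀ := Nat.cast_nonneg _
    linarith
  have h0P : P l0 := by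
    refine ⟨⟨hE j₀, ⟨fun _ => rfl, fun h => h.symm, fun h h' => h.trans h'⟩,
      fun γ γ' h => by rw [show γ = γ' from h], ?_⟩, ⟨j₀, fun _ => rfl⟩, ?_, Or.inl rfl⟩
    · intro S _ y
      have h1 : ∀ γ, ‖(f₀.comp (T γ)) y‖ ^ 2 ≤ if T γ y ∈ B then Z ^ 2 else 0 := by
        intro γ
        change ‖f₀ (T γ y)‖ ^ 2 ≤ _
        split_ifs with hy
        · exact pow_le_pow_left₀ (norm_nonneg _) (hf₀Z _) 2
        · have : f₀ (T γ y) = 0 := by
            by_contra hc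
            exact hy (hf₀B _ hc)
          rw [this, norm_zero]
          norm_num
      refine (Finset.sum_le_sum fun γ _ => h1 γ).trans (le_trans ?_ hZM)
      rw [← Finset.sum_filter, Finset.sum_const, nsmul_eq_mul, mul_comm]
      refine mul_le_mul_of_nonneg_left ?_ (by positivity)
      exact hcapB _ y fun γ hγ => (Finset.mem_filter.1 hγ).2
    · intro γ
      exact hf₀.comp_continuous (T γ).continuous
  have hPc : ∀ l, P l → ∀ l', P l' →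
      (∀ γ γ', l.r γ γ' → l'.r γ γ') ∨ (∀ γ γ', l'.r γ γ' → l.r γ γ') := by
    rintro l ⟨-, -, -, h1⟩ l' ⟨-, -, -, h2⟩
    have hself : ∀ (j : ℕ) γ γ', γ = γ' → dst (η γ) (η γ') ≤ rd (j + s) := by
      rintro j γ _ rfl
      rw [um.self]
      exact (rd_pos _).le
    rcases h1 with h1 | ⟨j, h1⟩
    · left
      rcases h2 with h2 | ⟨j', h2⟩
      · rw [h1, h2]
        exact fun γ γ' h => h
      · rw [h1, h2]
        exact hself j'
    · rcases h2 with h2 | ⟨j', h2⟩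
      · right
        rw [h1, h2]
        exact hself j
      · rcases le_total j j' with h3 | h3
        · right
          rw [h1, h2]
          exact fun γ γ' h => h.trans (rd_le (by omega))
        · left
          rw [h1, h2]
          exact fun γ γ' h => h.trans (rd_le (by omega))
  have hpre : ∀ (pre : List (Lt Y K Γ)), (∀ l ∈ pre, P l) → ∀ γ,
      ∃ L' : List (ι × C(Y, ℂ)), L'.length = pre.length ∧
        (∀ p ∈ L', IsLocallyConstant p.2) ∧ wl E L' = wd pre γ := by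
    intro pre
    induction pre with
    | nil =>
      intro _ γ
      exact ⟨[], rfl, fun p hp => by simp at hp, rfl⟩
    | cons l pre ih =>
      intro hl γ
      obtain ⟨L', h1, h2, h3⟩ := ih (fun l' hl' => hl l' (List.mem_cons_of_mem _ hl')) γ
      obtain ⟨-, ⟨j, hj⟩, hlc, -⟩ := hl l List.mem_cons_self
      refine ⟨(j, l.G γ) :: L', by rw [List.length_cons, List.length_cons, h1], ?_, ?_⟩
      · intro p hp
        rcases List.mem_cons.1 hp with rfl | hp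
        · exact hlc γ
        · exact h2 p hp
      · rw [wl_cons, h3]
        change E j (l.G γ) * wd pre γ = l.E (l.G γ) * wd pre γ
        rw [hj]
  have hmk : ∀ p : ι × C(Y, ℂ), (IsLocallyConstant p.2 ∧
      (∀ y, ‖p.2 y‖ ≤ Z) ∧ ∀ x y, dY pt x y ≤ ε → p.2 x = p.2 y) →
      (∀ α, P ((mk p).pc α)) ∧ (∀ α γ, ‖(mk p).z α γ‖ ≤ max Z 1) ∧
        ∀ pre' : List (Lt Y K Γ), (∀ l ∈ pre', P l) → pre'.length < L.length → ∀ γ,
          wd (l0 :: pre') γ * (mk p).E ((mk p).H γ - ∑ α, (mk p).z α γ • (mk p).G α γ) = 0 := by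
    intro p hp
    obtain ⟨h1, h2, h3, h4, h5, h6⟩ := hzG p.2 hp
    refine ⟨?_, h1, ?_⟩
    · rintro (_ | ⟨j, i⟩)
      · refine ⟨⟨hE p.1, ⟨fun _ => rfl, fun h => h.symm, fun h h' => h.trans h'⟩,
          fun γ γ' h => ?_, fun S _ y => (h3 S y).trans hZM⟩, ⟨p.1, fun _ => rfl⟩,
          fun γ => h2 none γ, Or.inl rfl⟩
        rw [show γ = γ' from h]
      · refine ⟨⟨hE p.1, ⟨fun γ => ?_, fun h => ?_, fun h h' => ?_⟩,
          fun γ γ' h => h4 j i γ γ' h, fun S hS y => (h5 j i S hS y).trans hNM⟩,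
          ⟨p.1, fun _ => rfl⟩, fun γ => h2 (some (j, i)) γ, Or.inr ⟨j.1, rfl⟩⟩
        · change dst (η γ) (η γ) ≤ _
          rw [um.self]
          exact (rd_pos _).le
        · rename_i a b
          change dst (η b) (η a) ≤ _
          rw [um.symm]
          exact h
        · exact (um.ultra _ _ _).trans (max_le h h')
    · intro pre' hp' hlen γ
      obtain ⟨L', e1, e2, e3⟩ := hpre pre' hp' γ
      have h7 := hW j₀ p.1 L' (by rw [e1]; exact hlen) e2 (f₀.comp (T γ))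
        (p.2.comp (T γ) - ∑ α, z p.2 α γ • G p.2 α γ)
        (hf₀.comp_continuous (T γ).continuous) ?_ ?_
      · rw [e3] at h7
        exact h7
      · have h8 : IsLocallyConstant (p.2.comp (T γ)) :=
          hp.1.comp_continuous (T γ).continuous
        have h9 : IsLocallyConstant (∑ α, z p.2 α γ • G p.2 α γ : C(Y, ℂ)) :=
          lc_sum _ _ fun α _ => (h2 α γ).comp fun c => z p.2 α γ • c
        exact h8.comp₂ h9 fun a b => a - b
      · intro x y hx hy h0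
        apply hy
        exact h6 γ y ⟨x, hf₀B _ hx, hJ.zero h0⟩
  have hwh : ∀ (L : List (ι × C(Y, ℂ))) (γ : Γ),
      wh (L.map mk) γ = wl E (tw (T γ) L) := by
    intro L γ
    induction L with
    | nil => rfl
    | cons p L ih =>
      have e1 : tw (T γ) (p :: L) = (p.1, p.2.comp (T γ)) :: tw (T γ) L := rfl
      rw [List.map_cons, e1, wl_cons, ← ih]
      rfl
  have hmain := WL.expand (A := Option (Fin (τ + 1) × Fin N₀)) hM0
    (hZ.trans (le_max_left Z 1)) P (fun l hl => hl.1) hPc l0 h0P (fun γ γ' h => h) L.length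
    (L.map mk) [] (by rw [List.length_map, List.length_nil, zero_add])
    (fun l hl => by simp at hl) (fun h hh => by
      obtain ⟨p, hp, rfl⟩ := List.mem_map.1 hh
      exact hmk p (hL p hp)) S ξ
  have ecard : Fintype.card (Option (Fin (τ + 1) × Fin N₀)) = (τ + 1) * N₀ + 1 := by
    rw [Fintype.card_option, Fintype.card_prod, Fintype.card_fin, Fintype.card_fin]
  rw [ecard, List.length_map] at hmain
  rw [← hM]
  refine le_trans (le_of_eq ?_) hmain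
  refine Finset.sum_congr rfl fun γ _ => ?_
  rw [hwh]
  rfl

end words

end Vale.Agent.P092.H145.G6
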