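import Vale.Agent.P092.H145.WL7

/-!
P092 (helper145), team P, row [P2-WL]: the polynomial count of a word over all near-wall elements.
-/

set_option linter.all false

open Filter Topology
open scoped LinearAlgebra.Projectivization Matrix

namespace Vale.Agent.P092.H145.WL8

open Vale.Agent.P092.H145.WL Vale.Agent.P092.H145.WL3 Vale.Agent.P092.H145.WL4
open Vale.Agent.P092.H145.WL5 Vale.Agent.P092.H145.WL6 Vale.Agent.P092.H145.WL7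
open Vale.Agent.P092.H820 (pj pj_oq pj_surj pj_continuous csP csSL)
open Matrix (SpecialLinearGroup)

section

variable {k : Type*} [NontriviallyNormedField k] [IsUltrametricDist k]
  {D : Type*} [Fintype D] [DecidableEq D] [Nonempty D]

/-- the size -/
noncomputable def nmm (g : SpecialLinearGroup D k) : ℝ := ‖(fun i j => g.1 i j : D → D → k)‖

theorem NWD_one {J J' h M : Matrix D D k} {R n : ℝ} {u y xu : D → k} (hJ : Frm J J')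
    (H : NWD J R n h u y xu M) : 1 ≤ n := by
  obtain ⟨i⟩ := ‹Nonempty D›
  have hn := H.n0
  have h1 := H.le_inv hJ (Pi.single i 1)
  have h2 := mulVec_le hn.le H.hle (Pi.single i (1 : k))
  have h3 : ‖(Pi.single i (1 : k) : D → k)‖ = 1 := by
    refine le_antisymm ?_ ?_
    · refine (pi_norm_le_iff_of_nonneg zero_le_one).2 fun j => ?_
      by_cases hij : j = i
      · rw [hij, Pi.single_eq_same, norm_one]
      · rw [Pi.single_eq_of_ne hij, norm_zero]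
        exact zero_le_one
    · have := norm_le_pi_norm (Pi.single i (1 : k) : D → k) i
      rwa [Pi.single_eq_same, norm_one] at this
  rw [h3] at h1
  rw [h3, mul_one] at h2
  by_contra hc
  rw [not_le] at hc
  have h4 := mul_le_mul_of_nonneg_left h2 hn.le
  nlinarith

theorem exists_rd {c : ℝ} (hc : 0 < c) : ∃ s, rd s ≤ c := by
  obtain ⟨s, hs⟩ := exists_pow_lt_of_lt_one hc (show (1 / 2 : ℝ) < 1 by norm_num)
  exact ⟨s, hs.le⟩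

end

section

variable {k : Type*} [NontriviallyNormedField k] [IsUltrametricDist k] [ProperSpace k]
  {D : Type*} [Fintype D] [DecidableEq D] [Nonempty D]
  {ι K : Type*} [NormedAddCommGroup K] [InnerProductSpace ℂ K]

theorem exists_eps (Fl : List C(ℙ k (D → k), ℂ)) (h : ∀ f ∈ Fl, IsLocallyConstant f) :
    ∃ ε > 0, ∀ f ∈ Fl, ∀ x y, dst x y ≤ ε → f x = f y := by
  induction Fl with
  | nil => exact ⟨1, one_pos, fun f hf => by simp at hf⟩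
  | cons f Fl ih =>
    obtain ⟨ε, hε, h1⟩ := ih fun f hf => h f (List.mem_cons_of_mem _ hf)
    obtain ⟨ε', hε', h2⟩ := lc_unif (h f List.mem_cons_self)
    refine ⟨min ε ε', lt_min hε hε', fun f' hf' x y hxy => ?_⟩
    rcases List.mem_cons.1 hf' with rfl | hf'
    · exact h2 x y (hxy.trans (min_le_right _ _))
    · exact h1 f' hf' x y (hxy.trans (min_le_left _ _))

theorem exists_bd (Fl : List C(ℙ k (D → k), ℂ)) (f₀ : C(ℙ k (D → k), ℂ)) :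
    ∃ Z, 0 ≤ Z ∧ (∀ y, ‖f₀ y‖ ≤ Z) ∧ ∀ f ∈ Fl, ∀ y, ‖f y‖ ≤ Z := by
  induction Fl with
  | nil => exact ⟨‖f₀‖, norm_nonneg _, fun y => f₀.norm_coe_le_norm y, fun f hf => by simp at hf⟩
  | cons f Fl ih =>
    obtain ⟨Z, hZ, h1, h2⟩ := ih
    refine ⟨max Z ‖f‖, hZ.trans (le_max_left _ _), fun y => (h1 y).trans (le_max_left _ _),
      fun f' hf' y => ?_⟩
    rcases List.mem_cons.1 hf' with rfl | hf'
    · exact (f'.norm_coe_le_norm y).trans (le_max_right _ _)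
    · exact (h2 f' hf' y).trans (le_max_left _ _)

/-- **The polynomial count.** -/
theorem big_count {Γ : Type*} {J J' : Matrix D D k} (hJ : Frm J J') {R δ : ℝ} (hδ : 0 < δ)
    (hδ1 : δ ≤ 1) (hR : 1 ≤ R) {q : Γ → SpecialLinearGroup D k} {𝒢 : Set Γ}
    {f₀ : C(ℙ k (D → k), ℂ)} (hf₀ : IsLocallyConstant f₀)
    (hnw : ∀ γ ∈ 𝒢, ∃ u y xu M, NWD J R (nmm (q γ)) (q γ).1 u y xu M ∧
      ∀ a, f₀ a ≠ 0 → δ ≤ ‖om J u (nv a)‖)
    (ud : ∀ C : ℝ, ∃ Mc : ℕ, ∀ S : Finset Γ, (∀ γ ∈ S, γ ∈ 𝒢) → (∀ γ ∈ S, ∀ γ' ∈ S, ∀ x,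
      ‖(q γ').1 *ᵥ x‖ ≤ C * ‖(q γ).1 *ᵥ x‖) → S.card ≤ Mc)
    {E : ι → (C(ℙ k (D → k), ℂ) →ₗ[ℂ] (K →L[ℂ] K))} (hE : ∀ j, Bes fun f => E j f)
    (Fl : List C(ℙ k (D → k), ℂ)) (hFl : ∀ f ∈ Fl, IsLocallyConstant f)
    (hW : Wn J E Fl.length) :
    ∃ C : ℝ, ∀ (L : List (ι × C(ℙ k (D → k), ℂ))), L.map Prod.snd = Fl → ∀ (j₀ : ι)
      (T : ℝ), 0 ≤ T → ∀ (S : Finset Γ), (∀ γ ∈ S, γ ∈ 𝒢 ∧ Real.log (nmm (q γ)) ≤ T) → ∀ ξ : K,
      ∑ γ ∈ S, ‖(E j₀ (cg (q γ) f₀) * wl E (tw (q γ) L)) ξ‖ ^ 2 ≤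
        C * (1 + T) ^ (2 * Fl.length + 1) * ‖ξ‖ ^ 2 := by
  classical
  obtain ⟨ε, hε, hFε⟩ := exists_eps Fl hFl
  obtain ⟨Z, hZ, hfZ, hFZ⟩ := exists_bd Fl f₀
  have hR2 : 0 < R ^ 2 := by positivity
  obtain ⟨s₁, hs₁⟩ := exists_rd (c := ε * δ / R ^ 2) (by positivity)
  obtain ⟨s₂, hs₂⟩ := exists_rd (c := ε * δ ^ 2 / (2 * R ^ 2)) (by positivity)
  rw [le_div_iff₀ hR2] at hs₁
  rw [le_div_iff₀ (by positivity)] at hs₂
  obtain ⟨N₀, hN₀, hD⟩ := dbl (k := k) (D := D) (s₁ + 1)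
  obtain ⟨N₂, hN₂, hD₂⟩ := dbl (k := k) (D := D) (s₂ + 1)
  obtain ⟨x₀⟩ : Nonempty (ℙ k (D → k)) := by
    obtain ⟨i⟩ := ‹Nonempty D›
    exact ⟨Projectivization.mk k (Pi.single i 1) (by
      intro h
      have := congrFun h i
      simp at this)⟩
  obtain ⟨F, -, hF⟩ := hD₂ 0 x₀
  have hF' : ∀ w, bl dst (rd (s₂ + 1)) w ∈ F := by
    intro w
    have := hF w (by rw [rd_zero]; exact um.le1 _ _)
    rwa [zero_add] at this
  obtain ⟨Mc, hMc⟩ := ud (2 ^ 2 * R ^ 2 * (R / δ) ^ 2)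
  obtain ⟨κ, hκ⟩ : ∃ κ, κ = rd (s₂ + 1) := ⟨_, rfl⟩
  have hκ0 : 0 < κ := by rw [hκ]; exact rd_pos _
  have hκ1 : κ < 1 := by
    have h1 : rd (s₂ + 1) ≤ rd 1 := rd_le (by omega)
    have h2 : rd 1 = 1 / 2 := by unfold rd; norm_num
    rw [hκ]
    linarith
  have hκR : 2 * R ^ 2 * κ ≤ ε * δ ^ 2 := by
    have h1 : κ ≤ rd s₂ := by rw [hκ]; exact rd_le (Nat.le_succ _)
    calc 2 * R ^ 2 * κ ≤ 2 * R ^ 2 * rd s₂ := mul_le_mul_of_nonneg_left h1 (by positivity)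
      _ = rd s₂ * (2 * R ^ 2) := by ring
      _ ≤ _ := hs₂
  have hsR : R ^ 2 * rd (s₁ + 1 - 1) ≤ ε * δ := by
    rw [Nat.add_sub_cancel]
    linarith
  -- the pieces of `f₀`
  have hplc : ∀ Sb : Set (ℙ k (D → k)),
      IsLocallyConstant fun x => x ∈ {x | bl dst κ x = Sb} := fun Sb =>
    (um.bl_lc hκ0).comp fun S => S = Sb
  let fp : Set (ℙ k (D → k)) → C(ℙ k (D → k), ℂ) := fun Sb =>
    f₀ * chc {x | bl dst κ x = Sb} (hplc Sb)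
  have fplc : ∀ Sb, IsLocallyConstant (fp Sb) := fun Sb =>
    hf₀.comp₂ (chi_lc (hplc Sb)) fun a b => a * b
  have fpv : ∀ Sb x, fp Sb x = f₀ x * chi {x | bl dst κ x = Sb} x := fun _ _ => rfl
  have fpZ : ∀ Sb y, ‖fp Sb y‖ ≤ Z := by
    intro Sb y
    rw [fpv]
    by_cases h : y ∈ {x | bl dst κ x = Sb}
    · rw [chi_of_mem h, mul_one]
      exact hfZ y
    · rw [chi_of_not h, mul_zero, norm_zero]
      exact hZ
  have fsum : f₀ = ∑ Sb ∈ F, fp Sb := by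
    refine ContinuousMap.ext fun x => ?_
    rw [ContinuousMap.sum_apply]
    rw [Finset.sum_eq_single (bl dst κ x)]
    · rw [fpv, chi_of_mem (show x ∈ {x' | bl dst κ x' = bl dst κ x} from rfl), mul_one]
    · intro Sb _ hne
      rw [fpv, chi_of_not (show x ∉ {x' | bl dst κ x' = Sb} from fun h => hne (Eq.symm h)),
        mul_zero]
    · intro h
      exact absurd (by rw [hκ]; exact hF' x) h
  have csum : ∀ g : SpecialLinearGroup D k, cg g f₀ = ∑ Sb ∈ F, cg g (fp Sb) := by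
    intro g
    refine ContinuousMap.ext fun x => ?_
    rw [ContinuousMap.sum_apply]
    change f₀ (g • x) = ∑ Sb ∈ F, fp Sb (g • x)
    conv_lhs => rw [fsum]
    rw [ContinuousMap.sum_apply]
  obtain ⟨M, hM⟩ : ∃ M : ℝ, M = N₀ + Z ^ 2 * Mc := ⟨_, rfl⟩
  have hM0 : 0 ≤ M := by rw [hM]; positivity
  -- one class and one piece
  have hcls : ∀ (L : List (ι × C(ℙ k (D → k), ℂ))), L.map Prod.snd = Fl → ∀ (j₀ : ι) (σ : ℕ)
      (Sb : Set (ℙ k (D → k))) (S : Finset Γ), (∀ γ ∈ S, γ ∈ 𝒢 ∧ (2 : ℝ) ^ σ ≤ nmm (q γ) ∧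
        nmm (q γ) ≤ 2 ^ (σ + 1)) → ∀ ξ : K,
      ∑ γ ∈ S, ‖(E j₀ (cg (q γ) (fp Sb)) * wl E (tw (q γ) L)) ξ‖ ^ 2 ≤
        ((((σ + 1) * N₀ + 1 : ℕ) : ℝ) ^ 2 * (max Z 1) ^ 2) ^ Fl.length *
          M ^ (Fl.length + 1) * ‖ξ‖ ^ 2 := by
    intro L hL j₀ σ Sb S hS ξ
    let p : Γ → Prop := fun γ => γ ∈ 𝒢 ∧ (2 : ℝ) ^ σ ≤ nmm (q γ) ∧ nmm (q γ) ≤ 2 ^ (σ + 1)
    have hlen : L.length = Fl.length := by rw [← hL, List.length_map]
    have hcl : Cls J R δ κ σ (fun γ : {γ // p γ} => q γ.1) {x | fp Sb x ≠ 0} := by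
      refine ⟨fun γ => ?_, fun a ha a' ha' => ?_⟩
      · obtain ⟨u, y, xu, M, h1, h2⟩ := hnw γ.1 γ.2.1
        refine ⟨u, y, xu, M, nmm (q γ.1), h1, γ.2.2.1, γ.2.2.2, fun a ha => h2 a fun h3 => ?_⟩
        apply (show fp Sb a ≠ 0 from ha)
        rw [fpv, h3, zero_mul]
      · have h1 : ∀ a, fp Sb a ≠ 0 → bl dst κ a = Sb := by
          intro a ha
          by_contra hc
          apply ha
          rw [fpv, chi_of_not (show a ∉ {x' | bl dst κ x' = Sb} from hc), mul_zero]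
        exact (um.bl_iff hκ0.le).1 ((h1 a ha).trans (h1 a' ha').symm)
    have h4 := class_count hJ hcl hδ hδ1 hκ0.le hκ1 (Nat.le_add_left 1 s₁) hsR hκR hε hR
      (Mc := Mc) (N₀ := N₀) (fun T hT => by
        have h5 := hMc (T.map ⟨Subtype.val, Subtype.val_injective⟩) (fun γ hγ => by
          obtain ⟨γ', -, rfl⟩ := Finset.mem_map.1 hγ
          exact γ'.2.1) (fun γ hγ γ' hγ' x => by
          obtain ⟨a, ha, rfl⟩ := Finset.mem_map.1 hγ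
          obtain ⟨a', ha', rfl⟩ := Finset.mem_map.1 hγ'
          exact hT a ha a' ha' x)
        rwa [Finset.card_map] at h5) hN₀ hD hE hZ (fplc Sb) (fun x hx => hx) (fpZ Sb) L
      (fun p hp => by
        have h6 : p.2 ∈ Fl := by
          rw [← hL]
          exact List.mem_map_of_mem hp
        exact ⟨hFl _ h6, hFZ _ h6, hFε _ h6⟩) (by rw [hlen]; exact hW) j₀ (S.subtype p) ξ
    have h7 : ∑ γ ∈ S.subtype p, ‖(E j₀ (cg (q γ.1) (fp Sb)) * wl E (tw (q γ.1) L)) ξ‖ ^ 2 =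
        ∑ γ ∈ S, ‖(E j₀ (cg (q γ) (fp Sb)) * wl E (tw (q γ) L)) ξ‖ ^ 2 :=
      Finset.sum_subtype_of_mem
        (fun γ => ‖(E j₀ (cg (q γ) (fp Sb)) * wl E (tw (q γ) L)) ξ‖ ^ 2) hS
    rw [← h7, ← hlen, hM]
    exact h4
  -- one class
  have hcls2 : ∀ (L : List (ι × C(ℙ k (D → k), ℂ))), L.map Prod.snd = Fl → ∀ (j₀ : ι) (σ : ℕ)
      (S : Finset Γ), (∀ γ ∈ S, γ ∈ 𝒢 ∧ (2 : ℝ) ^ σ ≤ nmm (q γ) ∧
        nmm (q γ) ≤ 2 ^ (σ + 1)) → ∀ ξ : K,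
      ∑ γ ∈ S, ‖(E j₀ (cg (q γ) f₀) * wl E (tw (q γ) L)) ξ‖ ^ 2 ≤
        (F.card : ℝ) ^ 2 * (((((σ + 1) * N₀ + 1 : ℕ) : ℝ) ^ 2 * (max Z 1) ^ 2) ^ Fl.length *
          M ^ (Fl.length + 1) * ‖ξ‖ ^ 2) := by
    intro L hL j₀ σ S hS ξ
    have h1 : ∀ γ, ‖(E j₀ (cg (q γ) f₀) * wl E (tw (q γ) L)) ξ‖ ^ 2 ≤
        F.card * ∑ Sb ∈ F, ‖(E j₀ (cg (q γ) (fp Sb)) * wl E (tw (q γ) L)) ξ‖ ^ 2 := by
      intro γ
      rw [csum, map_sum, Finset.sum_mul, ContinuousLinearMap.sum_apply]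
      exact sq_sum_le' _ _
    refine (Finset.sum_le_sum fun γ _ => h1 γ).trans ?_
    rw [← Finset.mul_sum, Finset.sum_comm]
    have h2 := Finset.sum_le_sum fun Sb (_ : Sb ∈ F) => hcls L hL j₀ σ Sb S hS ξ
    rw [Finset.sum_const, nsmul_eq_mul] at h2
    refine (mul_le_mul_of_nonneg_left h2 (Nat.cast_nonneg _)).trans (le_of_eq ?_)
    ring
  obtain ⟨a, ha⟩ : ∃ a : ℝ, a = ((2 * N₀ + 1 : ℝ) ^ 2 * (max Z 1) ^ 2) ^ Fl.length := ⟨_, rfl⟩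
  have ha0 : 0 ≤ a := by rw [ha]; positivity
  refine ⟨2 * ((F.card : ℝ) ^ 2 * (a * M ^ (Fl.length + 1))), fun L hL j₀ T hT S hS ξ => ?_⟩
  -- the class of an element
  have hσ : ∀ γ, ∃ σ : ℕ, 1 ≤ nmm (q γ) → (2 : ℝ) ^ σ ≤ nmm (q γ) ∧ nmm (q γ) < 2 ^ (σ + 1) := by
    intro γ
    by_cases h : 1 ≤ nmm (q γ)
    · obtain ⟨σ, h1⟩ := exists_nat_pow_near h one_lt_two
      exact ⟨σ, fun _ => h1⟩
    · exact ⟨0, fun h1 => absurd h1 h⟩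
  choose σ hσ using hσ
  have hone : ∀ γ ∈ 𝒢, 1 ≤ nmm (q γ) := by
    intro γ hγ
    obtain ⟨u, y, xu, M, h1, -⟩ := hnw γ hγ
    exact NWD_one hJ h1
  have hσT : ∀ γ ∈ S, σ γ ∈ Finset.range (⌊2 * T⌋₊ + 1) := by
    intro γ hγ
    obtain ⟨h1, h2⟩ := hS γ hγ
    have h3 := hone γ h1
    obtain ⟨h4, -⟩ := hσ γ h3
    rw [Finset.mem_range, Nat.lt_succ_iff]
    refine Nat.le_floor ?_
    have h5 : (σ γ : ℝ) * Real.log 2 ≤ T := by
      rw [← Real.log_pow]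
      exact (Real.log_le_log (by positivity) h4).trans h2
    have h6 : (1 / 2 : ℝ) ≤ Real.log 2 := by
      have := Real.log_two_gt_d9
      linarith
    have h7 : (0 : ℝ) ≤ σ γ := Nat.cast_nonneg _
    nlinarith
  have h1 : ∑ γ ∈ S, ‖(E j₀ (cg (q γ) f₀) * wl E (tw (q γ) L)) ξ‖ ^ 2 =
      ∑ τ ∈ Finset.range (⌊2 * T⌋₊ + 1), ∑ γ ∈ S.filter (fun γ => σ γ = τ),
        ‖(E j₀ (cg (q γ) f₀) * wl E (tw (q γ) L)) ξ‖ ^ 2 :=
    (Finset.sum_fiberwise_of_maps_to hσT _).symm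
  rw [h1]
  have h2 : ∀ τ ∈ Finset.range (⌊2 * T⌋₊ + 1), ∑ γ ∈ S.filter (fun γ => σ γ = τ),
      ‖(E j₀ (cg (q γ) f₀) * wl E (tw (q γ) L)) ξ‖ ^ 2 ≤
      (F.card : ℝ) ^ 2 * ((a * (1 + T) ^ (2 * Fl.length)) * M ^ (Fl.length + 1) * ‖ξ‖ ^ 2) := by
    intro τ hτ
    refine (hcls2 L hL j₀ τ _ (fun γ hγ => ?_) ξ).trans ?_
    · obtain ⟨h3, h4⟩ := Finset.mem_filter.1 hγ
      obtain ⟨h5, h6⟩ := hσ γ (hone γ (hS γ h3).1)
      rw [h4] at h5 h6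
      exact ⟨(hS γ h3).1, h5, h6.le⟩
    · have hτ' : (τ : ℝ) ≤ 2 * T := by
        have h3 : τ ≤ ⌊2 * T⌋₊ := Nat.lt_succ_iff.1 (Finset.mem_range.1 hτ)
        exact (Nat.cast_le.2 h3).trans (Nat.floor_le (by positivity))
      have hNn : (0 : ℝ) ≤ N₀ := Nat.cast_nonneg _
      have h8 : (((τ + 1) * N₀ + 1 : ℕ) : ℝ) ≤ (2 * N₀ + 1) * (1 + T) := by
        push_cast
        nlinarith
      have h9 : ((((τ + 1) * N₀ + 1 : ℕ) : ℝ) ^ 2 * (max Z 1) ^ 2) ^ Fl.length ≤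
          a * (1 + T) ^ (2 * Fl.length) := by
        rw [ha, pow_mul (1 + T) 2, ← mul_pow ((2 * N₀ + 1 : ℝ) ^ 2 * (max Z 1) ^ 2) ((1 + T) ^ 2)]
        refine pow_le_pow_left₀ (mul_nonneg (sq_nonneg _) (sq_nonneg _)) ?_ _
        calc (((τ + 1) * N₀ + 1 : ℕ) : ℝ) ^ 2 * (max Z 1) ^ 2
            ≤ ((2 * N₀ + 1) * (1 + T)) ^ 2 * (max Z 1) ^ 2 :=
              mul_le_mul_of_nonneg_right (pow_le_pow_left₀ (Nat.cast_nonneg _) h8 2)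
                (by positivity)
          _ = _ := by ring
      refine mul_le_mul_of_nonneg_left ?_ (sq_nonneg _)
      refine mul_le_mul_of_nonneg_right ?_ (sq_nonneg _)
      exact mul_le_mul_of_nonneg_right h9 (pow_nonneg hM0 _)
  refine (Finset.sum_le_sum h2).trans ?_
  rw [Finset.sum_const, Finset.card_range, nsmul_eq_mul]
  have h10 : ((⌊2 * T⌋₊ + 1 : ℕ) : ℝ) ≤ 2 * (1 + T) := by
    push_cast
    have := Nat.floor_le (show 0 ≤ 2 * T by positivity)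
    linarith
  calc ((⌊2 * T⌋₊ + 1 : ℕ) : ℝ) * ((F.card : ℝ) ^ 2 * ((a * (1 + T) ^ (2 * Fl.length)) *
        M ^ (Fl.length + 1) * ‖ξ‖ ^ 2))
      ≤ (2 * (1 + T)) * ((F.card : ℝ) ^ 2 * ((a * (1 + T) ^ (2 * Fl.length)) *
        M ^ (Fl.length + 1) * ‖ξ‖ ^ 2)) :=
        mul_le_mul_of_nonneg_right h10 (mul_nonneg (sq_nonneg _) (mul_nonneg (mul_nonneg
          (mul_nonneg ha0 (by positivity)) (pow_nonneg hM0 _)) (sq_nonneg _)))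
    _ = _ := by ring

end

end Vale.Agent.P092.H145.WL8
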