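import Vale.Agent.P092.H145.G6
import Vale.Agent.P092.H145.WL8

/-!
P092 (helper145), team P, row [P2-WL]: the polynomial count of a word over all near-wall elements
(functions on a space `Y` over the projective space, any sesquilinear form).
-/

set_option linter.all false

open Filter Topology
open scoped LinearAlgebra.Projectivization Matrix

namespace Vale.Agent.P092.H145.G7

open Vale.Agent.P092.H145.WL (Bes)
open Vale.Agent.P092.H145.WL4 (UM bl pk pk_mem rd rd_pos rd_le rd_zero Dbl chi chc chi_lc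
  chi_of_mem chi_of_not chi_sq and_lc)
open Vale.Agent.P092.H145.WL5 (nv norm_nv nv_ne mk_nv nv_smul dst dst_mk rep_near clo_gen um
  dst_le_of ball_sub dbl)
open Vale.Agent.P092.H145.WL7 (lc_sum sq_sum_le')
open Vale.Agent.P092.H145.WL8 (nmm exists_rd)
open Vale.Agent.P092.H145.G3 Vale.Agent.P092.H145.G4 Vale.Agent.P092.H145.G5
open Vale.Agent.P092.H145.G6
open Matrix (SpecialLinearGroup)

section

variable {k : Type*} [NontriviallyNormedField k] [IsUltrametricDist k] [ProperSpace k]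
  {D : Type*} [Fintype D] [DecidableEq D] [Nonempty D] {Y : Type*} [TopologicalSpace Y]
  [CompactSpace Y] [Nonempty Y]
  {ι K : Type*} [NormedAddCommGroup K] [InnerProductSpace ℂ K]

/-- **The polynomial count.** -/
theorem big_count {Γ : Type*} {σ : k →+* k} {J J' : Matrix D D k} {bt : ℝ}
    (hJ : Fr σ J J' bt)
    {pt : Y → ℙ k (D → k)} (hpt : IsInducing pt)
    (hiso : ∀ y, om σ J (nv (pt y)) (nv (pt y)) = 0) {R δ : ℝ} (hδ : 0 < δ)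
    (hδ1 : δ ≤ 1) (hR : 1 ≤ R) {q : Γ → SpecialLinearGroup D k} {T : Γ → C(Y, Y)}
    (hT : ∀ γ y, pt (T γ y) = q γ • pt y) {𝒢 : Set Γ}
    {f₀ : C(Y, ℂ)} (hf₀ : IsLocallyConstant f₀)
    (hnw : ∀ γ ∈ 𝒢, ∃ u y xu M, NWD σ J R (nmm (q γ)) (q γ).1 u y xu M ∧
      ∀ a, f₀ a ≠ 0 → δ ≤ ‖om σ J u (nv (pt a))‖)
    (ud : ∀ C : ℝ, ∃ Mc : ℕ, ∀ S : Finset Γ, (∀ γ ∈ S, γ ∈ 𝒢) → (∀ γ ∈ S, ∀ γ' ∈ S, ∀ x,
      ‖(q γ').1 *ᵥ x‖ ≤ C * ‖(q γ).1 *ᵥ x‖) → S.card ≤ Mc)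
    {E : ι → (C(Y, ℂ) →ₗ[ℂ] (K →L[ℂ] K))} (hE : ∀ j, Bes fun f => E j f)
    (Fl : List C(Y, ℂ)) (hFl : ∀ f ∈ Fl, IsLocallyConstant f)
    (hW : Wn σ J pt E Fl.length) :
    ∃ C : ℝ, ∀ (L : List (ι × C(Y, ℂ))), L.map Prod.snd = Fl → ∀ (j₀ : ι)
      (t : ℝ), 0 ≤ t → ∀ (S : Finset Γ), (∀ γ ∈ S, γ ∈ 𝒢 ∧ Real.log (nmm (q γ)) ≤ t) → ∀ ξ : K,
      ∑ γ ∈ S, ‖(E j₀ (f₀.comp (T γ)) * wl E (tw (T γ) L)) ξ‖ ^ 2 ≤
        C * (1 + t) ^ (2 * Fl.length + 1) * ‖ξ‖ ^ 2 := by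
  classical
  have umy := umY hpt.continuous
  have bsy := basY hpt
  obtain ⟨ε, hε, hFε⟩ := exists_eps umy bsy Fl hFl
  obtain ⟨Z, hZ, hfZ, hFZ⟩ := exists_bd Fl f₀
  have hR0 : 0 < R := zero_lt_one.trans_le hR
  obtain ⟨s₁, hs₁⟩ := exists_rd (c := ε * δ / R ^ 3) (by positivity)
  obtain ⟨s₂, hs₂⟩ := exists_rd (c := ε * δ ^ 2 / (2 * R ^ 7)) (by positivity)
  rw [le_div_iff₀ (by positivity)] at hs₁
  rw [le_div_iff₀ (by positivity)] at hs₂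
  obtain ⟨N₀, hN₀, hD⟩ := dbl (k := k) (D := D) (s₁ + 1)
  obtain ⟨N₂, hN₂, hD₂⟩ := dbl (k := k) (D := D) (s₂ + 1)
  obtain ⟨κ, hκ⟩ : ∃ κ, κ = rd (s₂ + 1) := ⟨_, rfl⟩
  have hκ0 : 0 < κ := by rw [hκ]; exact rd_pos _
  have hκ1 : κ < 1 := by
    have h1 : rd (s₂ + 1) ≤ rd 1 := rd_le (by omega)
    have h2 : rd 1 = 1 / 2 := by unfold rd; norm_num
    rw [hκ]
    linarith
  obtain ⟨y₀⟩ := ‹Nonempty Y›
  haveI : Nonempty Y := ⟨y₀⟩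
  obtain ⟨F', -, hF'⟩ := hD₂ 0 (pt y₀)
  -- finitely many balls of `Y`
  obtain ⟨F, hF⟩ : ∃ F : Finset (Set Y), ∀ w, bl (dY pt) κ w ∈ F := by
    refine ⟨F'.image fun B => pt ⁻¹' B, fun w => Finset.mem_image.2
      ⟨bl dst κ (pt w), ?_, rfl⟩⟩
    have := hF' (pt w) (by rw [rd_zero]; exact um.le1 _ _)
    rwa [zero_add, ← hκ] at this
  obtain ⟨Mc, hMc⟩ := ud (2 ^ 2 * R ^ 8 * (R ^ 5 / δ) ^ 3)
  have hκR : 2 * R ^ 7 * κ ≤ ε * δ ^ 2 := by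
    have h1 : κ ≤ rd s₂ := by rw [hκ]; exact rd_le (Nat.le_succ _)
    calc 2 * R ^ 7 * κ ≤ 2 * R ^ 7 * rd s₂ := mul_le_mul_of_nonneg_left h1 (by positivity)
      _ = rd s₂ * (2 * R ^ 7) := by ring
      _ ≤ _ := hs₂
  have hsR : R ^ 3 * rd (s₁ + 1 - 1) ≤ ε * δ := by
    rw [Nat.add_sub_cancel]
    linarith
  -- the pieces of `f₀`
  have hplc : ∀ Sb : Set Y,
      IsLocallyConstant fun x => x ∈ {x | bl (dY pt) κ x = Sb} := fun Sb =>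
    (umy.bl_lc hκ0).comp fun S => S = Sb
  let fp : Set Y → C(Y, ℂ) := fun Sb => f₀ * chc {x | bl (dY pt) κ x = Sb} (hplc Sb)
  have fplc : ∀ Sb, IsLocallyConstant (fp Sb) := fun Sb =>
    hf₀.comp₂ (chi_lc (hplc Sb)) fun a b => a * b
  have fpv : ∀ Sb x, fp Sb x = f₀ x * chi {x | bl (dY pt) κ x = Sb} x := fun _ _ => rfl
  have fpZ : ∀ Sb y, ‖fp Sb y‖ ≤ Z := by
    intro Sb y
    rw [fpv]
    by_cases h : y ∈ {x | bl (dY pt) κ x = Sb}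
    · rw [chi_of_mem h, mul_one]
      exact hfZ y
    · rw [chi_of_not h, mul_zero, norm_zero]
      exact hZ
  have fsum : f₀ = ∑ Sb ∈ F, fp Sb := by
    refine ContinuousMap.ext fun x => ?_
    rw [ContinuousMap.sum_apply]
    rw [Finset.sum_eq_single (bl (dY pt) κ x)]
    · rw [fpv, chi_of_mem (show x ∈ {x' | bl (dY pt) κ x' = bl (dY pt) κ x} from rfl), mul_one]
    · intro Sb _ hne
      rw [fpv, chi_of_not (show x ∉ {x' | bl (dY pt) κ x' = Sb} from fun h => hne (Eq.symm h)),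
        mul_zero]
    · intro h
      exact absurd (hF x) h
  have csum : ∀ t : C(Y, Y), f₀.comp t = ∑ Sb ∈ F, (fp Sb).comp t := by
    intro t
    refine ContinuousMap.ext fun x => ?_
    rw [ContinuousMap.sum_apply]
    change f₀ (t x) = ∑ Sb ∈ F, fp Sb (t x)
    conv_lhs => rw [fsum]
    rw [ContinuousMap.sum_apply]
  obtain ⟨M, hM⟩ : ∃ M : ℝ, M = N₀ + Z ^ 2 * Mc := ⟨_, rfl⟩
  have hM0 : 0 ≤ M := by rw [hM]; positivity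
  -- one class and one piece
  have hcls : ∀ (L : List (ι × C(Y, ℂ))), L.map Prod.snd = Fl → ∀ (j₀ : ι) (τ : ℕ)
      (Sb : Set Y) (S : Finset Γ), (∀ γ ∈ S, γ ∈ 𝒢 ∧ (2 : ℝ) ^ τ ≤ nmm (q γ) ∧
        nmm (q γ) ≤ 2 ^ (τ + 1)) → ∀ ξ : K,
      ∑ γ ∈ S, ‖(E j₀ ((fp Sb).comp (T γ)) * wl E (tw (T γ) L)) ξ‖ ^ 2 ≤
        ((((τ + 1) * N₀ + 1 : ℕ) : ℝ) ^ 2 * (max Z 1) ^ 2) ^ Fl.length *
          M ^ (Fl.length + 1) * ‖ξ‖ ^ 2 := by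
    intro L hL j₀ τ Sb S hS ξ
    let p : Γ → Prop := fun γ => γ ∈ 𝒢 ∧ (2 : ℝ) ^ τ ≤ nmm (q γ) ∧ nmm (q γ) ≤ 2 ^ (τ + 1)
    have hlen : L.length = Fl.length := by rw [← hL, List.length_map]
    have hcl : Cls σ J pt R δ κ τ (fun γ : {γ // p γ} => q γ.1) {x | fp Sb x ≠ 0} := by
      refine ⟨fun γ => ?_, fun a ha a' ha' => ?_⟩
      · obtain ⟨u, y, xu, M, h1, h2⟩ := hnw γ.1 γ.2.1
        refine ⟨u, y, xu, M, nmm (q γ.1), h1, γ.2.2.1, γ.2.2.2, fun a ha => h2 a fun h3 => ?_⟩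
        apply (show fp Sb a ≠ 0 from ha)
        rw [fpv, h3, zero_mul]
      · have h1 : ∀ a, fp Sb a ≠ 0 → bl (dY pt) κ a = Sb := by
          intro a ha
          by_contra hc
          apply ha
          rw [fpv, chi_of_not (show a ∉ {x' | bl (dY pt) κ x' = Sb} from hc), mul_zero]
        exact (umy.bl_iff hκ0.le).1 ((h1 a ha).trans (h1 a' ha').symm)
    have h4 := class_count hJ hpt.continuous hiso (T := fun γ : {γ // p γ} => T γ.1)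
      (fun γ y => hT γ.1 y) hcl hδ hδ1 hκ0.le hκ1 (Nat.le_add_left 1 s₁) hsR hκR hε hR
      (Mc := Mc) (N₀ := N₀) (fun t ht => by
        have h5 := hMc (t.map ⟨Subtype.val, Subtype.val_injective⟩) (fun γ hγ => by
          obtain ⟨γ', -, rfl⟩ := Finset.mem_map.1 hγ
          exact γ'.2.1) (fun γ hγ γ' hγ' x => by
          obtain ⟨a, ha, rfl⟩ := Finset.mem_map.1 hγ
          obtain ⟨a', ha', rfl⟩ := Finset.mem_map.1 hγ'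
          exact ht a ha a' ha' x)
        rwa [Finset.card_map] at h5) hN₀ hD hE hZ (fplc Sb) (fun x hx => hx) (fpZ Sb) L
      (fun p hp => by
        have h6 : p.2 ∈ Fl := by
          rw [← hL]
          exact List.mem_map_of_mem hp
        exact ⟨hFl _ h6, hFZ _ h6, hFε _ h6⟩) (by rw [hlen]; exact hW) j₀ (S.subtype p) ξ
    have h7 : ∑ γ ∈ S.subtype p, ‖(E j₀ ((fp Sb).comp (T γ.1)) * wl E (tw (T γ.1) L)) ξ‖ ^ 2 =
        ∑ γ ∈ S, ‖(E j₀ ((fp Sb).comp (T γ)) * wl E (tw (T γ) L)) ξ‖ ^ 2 :=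
      Finset.sum_subtype_of_mem
        (fun γ => ‖(E j₀ ((fp Sb).comp (T γ)) * wl E (tw (T γ) L)) ξ‖ ^ 2) hS
    rw [← h7, ← hlen, hM]
    exact h4
  -- one class
  have hcls2 : ∀ (L : List (ι × C(Y, ℂ))), L.map Prod.snd = Fl → ∀ (j₀ : ι) (τ : ℕ)
      (S : Finset Γ), (∀ γ ∈ S, γ ∈ 𝒢 ∧ (2 : ℝ) ^ τ ≤ nmm (q γ) ∧
        nmm (q γ) ≤ 2 ^ (τ + 1)) → ∀ ξ : K,
      ∑ γ ∈ S, ‖(E j₀ (f₀.comp (T γ)) * wl E (tw (T γ) L)) ξ‖ ^ 2 ≤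
        (F.card : ℝ) ^ 2 * (((((τ + 1) * N₀ + 1 : ℕ) : ℝ) ^ 2 * (max Z 1) ^ 2) ^ Fl.length *
          M ^ (Fl.length + 1) * ‖ξ‖ ^ 2) := by
    intro L hL j₀ τ S hS ξ
    have h1 : ∀ γ, ‖(E j₀ (f₀.comp (T γ)) * wl E (tw (T γ) L)) ξ‖ ^ 2 ≤
        F.card * ∑ Sb ∈ F, ‖(E j₀ ((fp Sb).comp (T γ)) * wl E (tw (T γ) L)) ξ‖ ^ 2 := by
      intro γ
      rw [csum, map_sum, Finset.sum_mul, ContinuousLinearMap.sum_apply]
      exact sq_sum_le' _ _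
    refine (Finset.sum_le_sum fun γ _ => h1 γ).trans ?_
    rw [← Finset.mul_sum, Finset.sum_comm]
    have h2 := Finset.sum_le_sum fun Sb (_ : Sb ∈ F) => hcls L hL j₀ τ Sb S hS ξ
    rw [Finset.sum_const, nsmul_eq_mul] at h2
    refine (mul_le_mul_of_nonneg_left h2 (Nat.cast_nonneg _)).trans (le_of_eq ?_)
    ring
  obtain ⟨a, ha⟩ : ∃ a : ℝ, a = ((2 * N₀ + 1 : ℝ) ^ 2 * (max Z 1) ^ 2) ^ Fl.length := ⟨_, rfl⟩
  have ha0 : 0 ≤ a := by rw [ha]; positivity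
  refine ⟨2 * ((F.card : ℝ) ^ 2 * (a * M ^ (Fl.length + 1))), fun L hL j₀ t ht S hS ξ => ?_⟩
  -- the class of an element
  have hσ : ∀ γ, ∃ τ : ℕ, 1 ≤ nmm (q γ) → (2 : ℝ) ^ τ ≤ nmm (q γ) ∧ nmm (q γ) < 2 ^ (τ + 1) := by
    intro γ
    by_cases h : 1 ≤ nmm (q γ)
    · obtain ⟨τ, h1⟩ := exists_nat_pow_near h one_lt_two
      exact ⟨τ, fun _ => h1⟩
    · exact ⟨0, fun h1 => absurd h1 h⟩
  choose τc hτc using hσ
  have hone : ∀ γ ∈ 𝒢, 1 ≤ nmm (q γ) := by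
    intro γ hγ
    obtain ⟨u, y, xu, M, h1, -⟩ := hnw γ hγ
    exact h1.n1
  have hσT : ∀ γ ∈ S, τc γ ∈ Finset.range (⌊2 * t⌋₊ + 1) := by
    intro γ hγ
    obtain ⟨h1, h2⟩ := hS γ hγ
    have h3 := hone γ h1
    obtain ⟨h4, -⟩ := hτc γ h3
    rw [Finset.mem_range, Nat.lt_succ_iff]
    refine Nat.le_floor ?_
    have h5 : (τc γ : ℝ) * Real.log 2 ≤ t := by
      rw [← Real.log_pow]
      exact (Real.log_le_log (by positivity) h4).trans h2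
    have h6 : (1 / 2 : ℝ) ≤ Real.log 2 := by
      have := Real.log_two_gt_d9
      linarith
    have h7 : (0 : ℝ) ≤ τc γ := Nat.cast_nonneg _
    nlinarith
  have h1 : ∑ γ ∈ S, ‖(E j₀ (f₀.comp (T γ)) * wl E (tw (T γ) L)) ξ‖ ^ 2 =
      ∑ τ ∈ Finset.range (⌊2 * t⌋₊ + 1), ∑ γ ∈ S.filter (fun γ => τc γ = τ),
        ‖(E j₀ (f₀.comp (T γ)) * wl E (tw (T γ) L)) ξ‖ ^ 2 :=
    (Finset.sum_fiberwise_of_maps_to hσT _).symm
  rw [h1]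
  have h2 : ∀ τ ∈ Finset.range (⌊2 * t⌋₊ + 1), ∑ γ ∈ S.filter (fun γ => τc γ = τ),
      ‖(E j₀ (f₀.comp (T γ)) * wl E (tw (T γ) L)) ξ‖ ^ 2 ≤
      (F.card : ℝ) ^ 2 * ((a * (1 + t) ^ (2 * Fl.length)) * M ^ (Fl.length + 1) * ‖ξ‖ ^ 2) := by
    intro τ hτ
    refine (hcls2 L hL j₀ τ _ (fun γ hγ => ?_) ξ).trans ?_
    · obtain ⟨h3, h4⟩ := Finset.mem_filter.1 hγ
      obtain ⟨h5, h6⟩ := hτc γ (hone γ (hS γ h3).1)
      rw [h4] at h5 h6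
      exact ⟨(hS γ h3).1, h5, h6.le⟩
    · have hτ' : (τ : ℝ) ≤ 2 * t := by
        have h3 : τ ≤ ⌊2 * t⌋₊ := Nat.lt_succ_iff.1 (Finset.mem_range.1 hτ)
        exact (Nat.cast_le.2 h3).trans (Nat.floor_le (by positivity))
      have hNn : (0 : ℝ) ≤ N₀ := Nat.cast_nonneg _
      have h8 : (((τ + 1) * N₀ + 1 : ℕ) : ℝ) ≤ (2 * N₀ + 1) * (1 + t) := by
        push_cast
        nlinarith
      have h9 : ((((τ + 1) * N₀ + 1 : ℕ) : ℝ) ^ 2 * (max Z 1) ^ 2) ^ Fl.length ≤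
          a * (1 + t) ^ (2 * Fl.length) := by
        rw [ha, pow_mul (1 + t) 2, ← mul_pow ((2 * N₀ + 1 : ℝ) ^ 2 * (max Z 1) ^ 2) ((1 + t) ^ 2)]
        refine pow_le_pow_left₀ (mul_nonneg (sq_nonneg _) (sq_nonneg _)) ?_ _
        calc (((τ + 1) * N₀ + 1 : ℕ) : ℝ) ^ 2 * (max Z 1) ^ 2
            ≤ ((2 * N₀ + 1) * (1 + t)) ^ 2 * (max Z 1) ^ 2 :=
              mul_le_mul_of_nonneg_right (pow_le_pow_left₀ (Nat.cast_nonneg _) h8 2)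
                (by positivity)
          _ = _ := by ring
      refine mul_le_mul_of_nonneg_left ?_ (sq_nonneg _)
      refine mul_le_mul_of_nonneg_right ?_ (sq_nonneg _)
      exact mul_le_mul_of_nonneg_right h9 (pow_nonneg hM0 _)
  refine (Finset.sum_le_sum h2).trans ?_
  rw [Finset.sum_const, Finset.card_range, nsmul_eq_mul]
  have h10 : ((⌊2 * t⌋₊ + 1 : ℕ) : ℝ) ≤ 2 * (1 + t) := by
    push_cast
    have := Nat.floor_le (show 0 ≤ 2 * t by positivity)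
    linarith
  calc ((⌊2 * t⌋₊ + 1 : ℕ) : ℝ) * ((F.card : ℝ) ^ 2 * ((a * (1 + t) ^ (2 * Fl.length)) *
        M ^ (Fl.length + 1) * ‖ξ‖ ^ 2))
      ≤ (2 * (1 + t)) * ((F.card : ℝ) ^ 2 * ((a * (1 + t) ^ (2 * Fl.length)) *
        M ^ (Fl.length + 1) * ‖ξ‖ ^ 2)) :=
        mul_le_mul_of_nonneg_right h10 (mul_nonneg (sq_nonneg _) (mul_nonneg (mul_nonneg
          (mul_nonneg ha0 (by positivity)) (pow_nonneg hM0 _)) (sq_nonneg _)))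
    _ = _ := by ring

end

end Vale.Agent.P092.H145.G7
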