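import Vale.Agent.P092.H145.WL2
import Vale.Agent.P092.H145.G7

/-!
P092 (helper145), team P, row [P2-WL]: **the word lemma** for a target `Y` over the projective
space of an ultrametric local field and any nondegenerate sesquilinear form vanishing on `Y`.
The letters `E j` are only completely positive (inequality of Bessel); they are moved by the
contracting elements and fixed by the root groups.
-/

set_option linter.all false

open scoped InnerProductSpace ENNReal LinearAlgebra.Projectivization Matrix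
open Filter Topology ContinuousLinearMap MeasureTheory TopologicalSpace

namespace Vale.Agent.P092.H145.G8

open Vale.Agent.P092.SD (Ms UC)
open Vale.Agent.P092.RC (Cm TRN)
open Vale.Agent.P092.H790.CT (PicL lam_norm)
open Vale.Agent.P092.H790.CTA (ORBG SIZEG csm)
open Vale.Agent.P092.H145.WL (Bes)
open Vale.Agent.P092.H145.WL2 (hh Bn pi_inv_mul pi_mul_inv of_poly mul_zero_of_dom)
open Vale.Agent.P092.H145.WL3 (norm_eq_of_close)
open Vale.Agent.P092.H145.WL4 (UM bl)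
open Vale.Agent.P092.H145.WL5 (nv norm_nv nv_ne mk_nv nv_smul dst dst_mk rep_near um pv pv_ne)
open Vale.Agent.P092.H145.WL8 (nmm)
open Vale.Agent.P092.H145.G3 Vale.Agent.P092.H145.G4 Vale.Agent.P092.H145.G5
open Vale.Agent.P092.H145.G6 Vale.Agent.P092.H145.G7
open Matrix (SpecialLinearGroup)

/-! ### Opposite sets -/

section opp

variable {k : Type*} [NontriviallyNormedField k] [IsUltrametricDist k]
  {D : Type*} [Fintype D] [DecidableEq D] [Nonempty D] {σ : k →+* k} {J J' : Matrix D D k}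
  {bt : ℝ}

theorem om_close1 (hJ : Fr σ J J' bt) {x x' y : ℙ k (D → k)}
    (h : bt * dst x' x < ‖om σ J (nv x) (nv y)‖) :
    ‖om σ J (nv x') (nv y)‖ = ‖om σ J (nv x) (nv y)‖ := by
  have hb := hJ.b1
  have hb0 : 0 < bt := by linarith
  have h1 : ‖om σ J (nv x) (nv y)‖ ≤ bt := by
    refine (hJ.om_le _ _).trans ?_
    rw [norm_nv, norm_nv, mul_one, mul_one]
  have hd : dst x' x < 1 := by
    have h2 : bt * dst x' x < bt * 1 := by
      rw [mul_one]
      exact h.trans_le h1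
    exact lt_of_mul_lt_mul_left h2 hb0.le
  obtain ⟨v, hv, e1, e2, e3⟩ := rep_near hd
  obtain ⟨c, hc, e4⟩ := nv_smul e1
  have h2 : ‖om σ J v (nv y)‖ = ‖om σ J (nv x) (nv y)‖ := by
    refine norm_eq_of_close ?_
    rw [← om_sub_left]
    refine lt_of_le_of_lt (hJ.om_le _ _) ?_
    rw [norm_nv, mul_one, norm_sub_rev]
    exact (mul_le_mul_of_nonneg_left e3 hb0.le).trans_lt h
  rw [← h2, e4, om_smul_left, norm_mul, hc, e2, one_mul]

theorem om_close2 (hJ : Fr σ J J' bt) {x y y' : ℙ k (D → k)}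
    (h : bt * dst y' y < ‖om σ J (nv x) (nv y)‖) :
    ‖om σ J (nv x) (nv y')‖ = ‖om σ J (nv x) (nv y)‖ := by
  rw [hJ.sy (nv x) (nv y), hJ.sy (nv x) (nv y')]
  exact om_close1 hJ (by rwa [hJ.sy (nv y) (nv x)])

variable {Y : Type*} [TopologicalSpace Y] [CompactSpace Y]

theorem opp_delta (hJ : Fr σ J J' bt) {pt : Y → ℙ k (D → k)} (hpt : Continuous pt)
    {A B : Set Y} (hA : IsClosed A) (hB : IsClosed B)
    (h : ∀ x ∈ A, ∀ y ∈ B, om σ J (nv (pt x)) (nv (pt y)) ≠ 0) :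
    ∃ δ > 0, δ ≤ 1 ∧ ∀ x ∈ A, ∀ y ∈ B, δ ≤ ‖om σ J (nv (pt x)) (nv (pt y))‖ := by
  classical
  have hb := hJ.b1
  have hb0 : 0 < bt := by linarith
  have hc : IsCompact (A ×ˢ B) := (hA.isCompact).prod (hB.isCompact)
  let rr : Y × Y → ℝ := fun p => ‖om σ J (nv (pt p.1)) (nv (pt p.2))‖ / (2 * bt)
  let U : Y × Y → Set (Y × Y) := fun p =>
    {x | dY pt x p.1 ≤ rr p} ×ˢ {y | dY pt y p.2 ≤ rr p}
  have hpos : ∀ p ∈ A ×ˢ B, 0 < ‖om σ J (nv (pt p.1)) (nv (pt p.2))‖ := fun p hp =>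
    norm_pos_iff.2 (h p.1 hp.1 p.2 hp.2)
  have umy := umY (k := k) hpt
  have hU : ∀ p ∈ A ×ˢ B, U p ∈ 𝓝 p := by
    intro p hp
    have h1 : 0 < rr p := div_pos (hpos p hp) (by linarith)
    have h2 : ∀ x : Y, {z | dY pt z x ≤ rr p} ∈ 𝓝 x := fun x =>
      (umy.clo x _ h1).isOpen.mem_nhds (by
        change dY pt x x ≤ _
        rw [umy.self]
        exact h1.le)
    exact prod_mem_nhds (h2 p.1) (h2 p.2)
  obtain ⟨t, ht, hcov⟩ := hc.elim_nhds_subcover U hU
  have h3 : ∃ r > 0, r ≤ 1 ∧ ∀ p ∈ t, r ≤ ‖om σ J (nv (pt p.1)) (nv (pt p.2))‖ := by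
    rcases t.eq_empty_or_nonempty with rfl | hne
    · exact ⟨1, one_pos, le_rfl, fun x hx => by simp at hx⟩
    · obtain ⟨p0, hp0, h4⟩ := t.exists_min_image
        (fun p => ‖om σ J (nv (pt p.1)) (nv (pt p.2))‖) hne
      refine ⟨min 1 ‖om σ J (nv (pt p0.1)) (nv (pt p0.2))‖, lt_min one_pos (hpos p0 (ht p0 hp0)),
        min_le_left _ _, fun p hp => (min_le_right _ _).trans (h4 p hp)⟩
  obtain ⟨r, hr, hr1, h4⟩ := h3
  refine ⟨r, hr, hr1, fun x hx y hy => ?_⟩
  have h5 := hcov (Set.mk_mem_prod hx hy)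
  simp only [Set.mem_iUnion] at h5
  obtain ⟨p, hp, h6⟩ := h5
  have h7 := hpos p (ht p hp)
  have h7' : bt * rr p < ‖om σ J (nv (pt p.1)) (nv (pt p.2))‖ := by
    have e : bt * rr p = ‖om σ J (nv (pt p.1)) (nv (pt p.2))‖ / 2 := by
      change bt * (‖om σ J (nv (pt p.1)) (nv (pt p.2))‖ / (2 * bt)) = _
      field_simp
    rw [e]
    exact half_lt_self h7
  have h8 : bt * dst (pt x) (pt p.1) < ‖om σ J (nv (pt p.1)) (nv (pt p.2))‖ :=
    lt_of_le_of_lt (mul_le_mul_of_nonneg_left (show dst (pt x) (pt p.1) ≤ _ from h6.1) hb0.le) h7'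
  have h9 := om_close1 hJ h8
  have h10 : bt * dst (pt y) (pt p.2) < ‖om σ J (nv (pt x)) (nv (pt p.2))‖ := by
    rw [h9]
    exact lt_of_le_of_lt
      (mul_le_mul_of_nonneg_left (show dst (pt y) (pt p.2) ≤ _ from h6.2) hb0.le) h7'
  rw [om_close2 hJ h10, h9]
  exact h4 p hp

end opp

/-! ### The data -/

section data

/-- **The input of the word lemma.** The letters `E j` are indexed by `ι`; `g j` is adapted to the
letter `j`; `hh (g i) b N = (g i * b ^ N * (g i)⁻¹)⁻¹` moves the letter `j` to `tr i N j`. -/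
structure WG {k : Type} [NontriviallyNormedField k] {D : Type} [Fintype D] [DecidableEq D]
    [IsUltrametricDist k] [Nonempty D] {Y : Type} [TopologicalSpace Y] [CompactSpace Y]
    {G Γ K V : Type} [Group G] [TopologicalSpace G] [Group Γ]
    [NormedAddCommGroup K] [InnerProductSpace ℂ K] [CompleteSpace K] [NormedAddCommGroup V]
    [MeasurableSpace V] (μ : Measure V) (b : G) (n : V → G) (π : G →* (K →L[ℂ] K))
    (lam : Γ →* (K →L[ℂ] K)) (W : Set (K →L[ℂ] K)) (Ω : K) (m : Set Γ → (K →L[ℂ] K))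
    (q : Γ → SpecialLinearGroup D k) (T : Γ → C(Y, Y)) (pt : Y → ℙ k (D → k))
    (NA : ℝ → ℝ → Set Y → Set Γ) (σ : k →+* k) (J J' : Matrix D D k) (bt : ℝ) {ι : Type}
    (E : ι → (C(Y, ℂ) →ₗ[ℂ] (K →L[ℂ] K))) (g : ι → G) (tr : ι → ℕ → ι → ι) : Prop where
  frm : Fr σ J J' bt
  ind : IsInducing pt
  iso0 : ∀ y, om σ J (nv (pt y)) (nv (pt y)) = 0
  hT : ∀ γ y, pt (T γ y) = q γ • pt y
  pic : PicL π lam W Ω
  ms : Ms lam W Ω m
  uc : UC π W Ω m
  orb : ∃ ρ : ℝ, 0 < ρ ∧ ρ < 1 ∧ ORBG μ b n ρ π lam W Ω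
  nc : Tendsto n (𝓝 0) (𝓝 1)
  sub : ∀ γ, ∃ d : ℝ, 1 ≤ d ∧ ∀ y, nmm (q (γ * y)) ≤ d * nmm (q y)
  nw : ∀ R, ∃ R', 1 ≤ R' ∧ ∀ η > 0, ∃ t > 0, ∀ (A : Set Y) γ, γ ∈ NA R t A →
    ∃ u y xu M, NWD σ J R' (nmm (q γ)) (q γ).1 u y xu M ∧
      ∃ a ∈ A, ∃ (w : D → k) (hw : w ≠ 0), Projectivization.mk k w hw = pt a ∧ ‖w‖ = 1 ∧
        ‖u - w‖ ≤ η
  ud : ∀ C : ℝ, ∃ Mc : ℕ, ∀ S : Finset Γ, (∀ γ ∈ S, ∀ γ' ∈ S, ∀ x,
      ‖(q γ').1 *ᵥ x‖ ≤ C * ‖(q γ).1 *ᵥ x‖) → S.card ≤ Mc
  size : SIZEG b π Ω m fun γ => nmm (q γ)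
  cm : ∀ j f, Cm W (E j f)
  str : ∀ j f, adjoint (E j f) = E j (star f)
  cov : ∀ γ j f, E j f * lam γ = lam γ * E j (f.comp (T γ))
  bes : ∀ j, Bes fun f => E j f
  mov : ∀ i t j f, π (hh (g i) b t) * E j f * π (hh (g i) b t)⁻¹ = E (tr i t j) f
  fix : ∀ i j f s, Commute (E j f) (π (g i * n s * (g i)⁻¹))
  dom : ∀ i (u : C(Y, ℂ)) (A : Set Y), IsOpen A → tsupport u ⊆ A → ∀ ζ : K, ∀ ε > 0,
    ∃ R : ℝ, ∀ t > 0, ∃ᶠ N : ℕ in atTop,
      ‖E i u ζ‖ ≤ ‖u‖ * ‖m (NA R t A) (π (hh (g i) b N) ζ)‖ + ε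

end data

section main

variable {k : Type} [NontriviallyNormedField k] [IsUltrametricDist k] {D : Type} [Fintype D]
  [DecidableEq D] [Nonempty D] {Y : Type} [TopologicalSpace Y] [CompactSpace Y]
  {G Γ K V : Type} [Group G] [TopologicalSpace G] [Group Γ]
  [NormedAddCommGroup K] [InnerProductSpace ℂ K] [CompleteSpace K] [NormedAddCommGroup V]
  [MeasurableSpace V] {μ : Measure V} {b : G} {n : V → G} {π : G →* (K →L[ℂ] K)}
  {lam : Γ →* (K →L[ℂ] K)} {W : Set (K →L[ℂ] K)} {Ω : K} {m : Set Γ → (K →L[ℂ] K)}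
  {q : Γ → SpecialLinearGroup D k} {T : Γ → C(Y, Y)} {pt : Y → ℙ k (D → k)}
  {NA : ℝ → ℝ → Set Y → Set Γ} {σ : k →+* k} {J J' : Matrix D D k} {bt : ℝ} {ι : Type}
  {E : ι → (C(Y, ℂ) →ₗ[ℂ] (K →L[ℂ] K))} {g : ι → G} {tr : ι → ℕ → ι → ι}

omit [CompactSpace Y] [CompleteSpace K] in
theorem wl_append (L M : List (ι × C(Y, ℂ))) : wl E (L ++ M) = wl E L * wl E M := by
  unfold wl
  rw [List.map_append, List.prod_append]

omit [CompactSpace Y] [CompleteSpace K] in
theorem wl_single (p : ι × C(Y, ℂ)) : wl E [p] = E p.1 p.2 := by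
  unfold wl
  rw [List.map_singleton, List.prod_singleton]

/-- stars -/
noncomputable def st (p : ι × C(Y, ℂ)) : ι × C(Y, ℂ) := (p.1, star p.2)

section wd

variable (h : WG μ b n π lam W Ω m q T pt NA σ J J' bt E g tr)
include h

theorem WG.adj_wl (L : List (ι × C(Y, ℂ))) :
    adjoint (wl E L) = wl E (L.reverse.map st) := by
  induction L with
  | nil =>
    change adjoint (1 : K →L[ℂ] K) = 1
    exact star_one _
  | cons p L ih =>
    rw [wl_cons, List.reverse_cons, List.map_append, wl_append, ← ih, List.map_singleton,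
      wl_single]
    change adjoint (E p.1 p.2 ∘L wl E L) = _
    rw [adjoint_comp, h.str]
    rfl

theorem WG.wl_lam (γ : Γ) (L : List (ι × C(Y, ℂ))) :
    wl E L * lam γ = lam γ * wl E (tw (T γ) L) := by
  induction L with
  | nil =>
    change 1 * lam γ = lam γ * 1
    rw [one_mul, mul_one]
  | cons p L ih =>
    have e1 : tw (T γ) (p :: L) = (p.1, p.2.comp (T γ)) :: tw (T γ) L := rfl
    rw [wl_cons, mul_assoc, ih, ← mul_assoc, h.cov γ p.1 p.2, mul_assoc, e1, wl_cons]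

theorem WG.bn_wl (i : ι) (t : ℕ) (L : List (ι × C(Y, ℂ))) :
    Bn π (g i) b (wl E L) t = wl E (L.map fun p => (tr i t p.1, p.2)) := by
  induction L with
  | nil =>
    change π (hh (g i) b t) * 1 * π (hh (g i) b t)⁻¹ = 1
    rw [mul_one, pi_mul_inv]
  | cons p L ih =>
    have e : ∀ A B : K →L[ℂ] K, Bn π (g i) b (A * B) t = Bn π (g i) b A t * Bn π (g i) b B t := by
      intro A B
      unfold Bn
      calc π (hh (g i) b t) * (A * B) * π (hh (g i) b t)⁻¹ =
          π (hh (g i) b t) * A * 1 * (B * π (hh (g i) b t)⁻¹) := by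
            simp only [mul_assoc, one_mul]
        _ = _ := by rw [← pi_inv_mul π (hh (g i) b t)]; simp only [mul_assoc]
    rw [wl_cons, e, ih, List.map_cons, wl_cons]
    congr 1
    exact h.mov i t p.1 p.2

theorem WG.cm_wl (L : List (ι × C(Y, ℂ))) : Cm W (wl E L) := by
  induction L with
  | nil =>
    intro w _
    change 1 * w = w * 1
    rw [one_mul, mul_one]
  | cons p L ih =>
    intro w hw
    rw [wl_cons, mul_assoc, ih w hw, ← mul_assoc, h.cm _ _ w hw, mul_assoc]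

theorem WG.fix_wl (i : ι) (s : V) (L : List (ι × C(Y, ℂ))) :
    Commute (wl E L) (π (g i * n s * (g i)⁻¹)) := by
  induction L with
  | nil => exact Commute.one_left _
  | cons p L ih =>
    rw [wl_cons]
    exact (h.fix i p.1 p.2 s).mul_left ih

/-- from the attracting vector to the support of `f` -/
theorem WG.far {u : D → k} {A : Set Y} {f : C(Y, ℂ)} {δ : ℝ}
    (hAf : ∀ x ∈ A, ∀ y, f y ≠ 0 → δ ≤ ‖om σ J (nv (pt x)) (nv (pt y))‖)
    {a : Y} (ha : a ∈ A) {w : D → k} {hw : w ≠ 0} (e : Projectivization.mk k w hw = pt a)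
    (hw1 : ‖w‖ = 1) {η : ℝ} (hη : bt * η < δ) (huw : ‖u - w‖ ≤ η) (y : Y) (hy : f y ≠ 0) :
    δ ≤ ‖om σ J u (nv (pt y))‖ := by
  have hb : 0 ≤ bt := zero_le_one.trans h.frm.b1
  obtain ⟨c, hc, e'⟩ := nv_smul e
  have h3 : ‖om σ J w (nv (pt y))‖ = ‖om σ J (nv (pt a)) (nv (pt y))‖ := by
    rw [e', om_smul_left, norm_mul, hc, hw1, one_mul]
  have h4 := hAf _ ha y hy
  rw [← h3] at h4
  have h5 : ‖om σ J u (nv (pt y))‖ = ‖om σ J w (nv (pt y))‖ := by
    refine norm_eq_of_close ?_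
    rw [← om_sub_left]
    refine lt_of_le_of_lt (h.frm.om_le _ _) ?_
    rw [norm_nv, mul_one, norm_sub_rev]
    exact ((mul_le_mul_of_nonneg_left huw hb).trans_lt hη).trans_le h4
  rw [h5]
  exact h4

end wd

variable [ProperSpace k] [Nonempty Y] [IsTopologicalGroup G] [ProperSpace V] [BorelSpace V]
  [IsFiniteMeasureOnCompacts μ] [μ.IsOpenPosMeasure]

omit [Nonempty Y] [ProperSpace k] [CompactSpace Y] in
theorem nmm_pos (x : SpecialLinearGroup D k) : 0 < nmm x := by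
  by_contra hc
  rw [not_lt] at hc
  have h1 : (fun i j => x.1 i j : D → D → k) = 0 := by
    rw [← norm_le_zero_iff]
    exact hc
  have h2 : x.1 = 0 := by
    ext a b
    exact congrFun (congrFun h1 a) b
  have h4 := x.2
  rw [h2, Matrix.det_zero] at h4
  exact zero_ne_one h4

/-- the step of the induction -/
theorem WG.step (h : WG μ b n π lam W Ω m q T pt NA σ J J' bt E g tr) {i j : ι}
    {L : List (ι × C(Y, ℂ))}
    (hL : ∀ p ∈ L, IsLocallyConstant p.2) {u f : C(Y, ℂ)} (hu : IsLocallyConstant u)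
    (hf : IsLocallyConstant f) (hO : Opp σ J pt u f) (hW : Wn σ J pt E L.length) :
    E i u * wl E L * E j f = 0 := by
  classical
  obtain ⟨ρ, hρ, hρ1, hORB⟩ := h.orb
  have hb := h.frm.b1
  have hb0 : 0 < bt := by linarith
  have eB : wl E L * E j f = wl E (L ++ [(j, f)]) := by
    rw [wl_append, wl_single]
  rw [mul_assoc, eB]
  -- supports
  have clu : IsClopen {x | u x ≠ 0} := (hu.isClopen_fiber 0).compl
  have clf : IsClopen {x | f x ≠ 0} := (hf.isClopen_fiber 0).compl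
  have tsu : tsupport u ⊆ {x | u x ≠ 0} := closure_minimal (fun x hx => hx) clu.isClosed
  obtain ⟨δ, hδ, hδ1, hδO⟩ := opp_delta h.frm h.ind.continuous clu.isClosed clf.isClosed
    (fun x hx y hy => hO x y hx hy)
  obtain ⟨η, hη, hpoly⟩ := of_poly (lam := lam) (Ω := Ω) (sz := fun γ => nmm (q γ)) hρ hρ1
    (fun γ => nmm_pos (q γ)) (2 * L.length + 1)
  refine WL2.mul_zero_of_dom (μ := μ) (n := n) h.pic h.ms h.uc hρ.le h.nc hORB
    (sz := fun γ => nmm (q γ)) h.sub h.size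
    (g := g i) (fun t => ?_) (fun t s => ?_) (c := ‖u‖) fun ζ ε hε => ?_
  · rw [h.bn_wl]
    exact h.cm_wl _
  · rw [h.bn_wl]
    exact h.fix_wl i s _
  obtain ⟨R, hR⟩ := h.dom i u {x | u x ≠ 0} clu.isOpen tsu ζ ε hε
  obtain ⟨R', hR'1, hR'⟩ := h.nw R
  obtain ⟨t₀, ht₀, hnw⟩ := hR' (δ / (2 * bt)) (by positivity)
  refine ⟨NA R t₀ {x | u x ≠ 0}, ⟨η, hη, ?_⟩, hR _ ht₀⟩
  -- the list of functions
  obtain ⟨Fl, hFl⟩ : ∃ Fl : List C(Y, ℂ), Fl = (L.map Prod.snd).reverse.map star := ⟨_, rfl⟩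
  have hlen : Fl.length = L.length := by
    rw [hFl, List.length_map, List.length_reverse, List.length_map]
  have hstar : ∀ {f : C(Y, ℂ)}, IsLocallyConstant f → IsLocallyConstant (star f : C(Y, ℂ)) :=
    fun hf => hf.comp star
  obtain ⟨C, hC⟩ := big_count (R := R') h.frm h.ind h.iso0 hδ hδ1 hR'1 (q := q) h.hT
    (𝒢 := NA R t₀ {x | u x ≠ 0}) (f₀ := star f) (hstar hf)
    (fun γ hγ => by
      obtain ⟨u', y, xu, M, h1, a, ha, w, hw, e1, e2, e3⟩ := hnw _ γ hγ
      refine ⟨u', y, xu, M, h1, fun y' hy' => ?_⟩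
      refine h.far (f := star f) (fun x hx y hy => hδO x hx y (fun h0 => hy (by
          change star (f y) = 0
          rw [h0, star_zero]))) ha e1 e2 ?_ e3 y' hy'
      have e : bt * (δ / (2 * bt)) = δ / 2 := by field_simp
      rw [e]
      exact half_lt_self hδ)
    (fun C => by
      obtain ⟨Mc, hMc⟩ := h.ud C
      exact ⟨Mc, fun S _ => hMc S⟩)
    (E := E) h.bes Fl (fun f' hf' => by
      rw [hFl] at hf'
      obtain ⟨f'', h1, rfl⟩ := List.mem_map.1 hf'
      obtain ⟨p, h2, rfl⟩ := List.mem_map.1 (List.mem_reverse.1 h1)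
      exact hstar (hL p h2)) (by rw [hlen]; exact hW)
  refine hpoly _ _ (C * ‖Ω‖ ^ 2) fun t s hs S hS => ?_
  obtain ⟨L', hL'⟩ : ∃ L' : List (ι × C(Y, ℂ)),
      L' = ((L.map fun p => (tr i t p.1, p.2)).reverse).map st := ⟨_, rfl⟩
  have hL'F : L'.map Prod.snd = Fl := by
    rw [hL', hFl, List.map_map, ← List.map_reverse, List.map_map, ← List.map_reverse,
      List.map_map]
    rfl
  have e1 : ∀ γ, ‖adjoint (Bn π (g i) b (wl E (L ++ [(j, f)])) t) (lam γ Ω)‖ =
      ‖(E (tr i t j) ((star f).comp (T γ)) * wl E (tw (T γ) L')) Ω‖ := by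
    intro γ
    rw [h.bn_wl, h.adj_wl, List.map_append, List.reverse_append, List.map_append]
    have e2 : List.map st (List.map (fun p : ι × C(Y, ℂ) => (tr i t p.1, p.2)) [(j, f)]).reverse ++
        List.map st (List.map (fun p : ι × C(Y, ℂ) => (tr i t p.1, p.2)) L).reverse =
        (tr i t j, star f) :: L' := by
      rw [hL']
      rfl
    rw [e2]
    have e3 : wl E ((tr i t j, star f) :: L') (lam γ Ω) =
        lam γ (wl E (tw (T γ) ((tr i t j, star f) :: L')) Ω) :=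
      congrArg (fun A : K →L[ℂ] K => A Ω) (h.wl_lam γ ((tr i t j, star f) :: L'))
    rw [e3, lam_norm h.pic]
    rfl
  have e4 := hC L' hL'F (tr i t j) s hs S hS Ω
  rw [hlen] at e4
  simp only [e1]
  refine e4.trans (le_of_eq ?_)
  ring

/-- **The word lemma for locally constant functions.** -/
theorem WG.wn (h : WG μ b n π lam W Ω m q T pt NA σ J J' bt E g tr) (t : ℕ) :
    Wn σ J pt E t := by
  induction t with
  | zero => exact fun i j L hL => absurd hL (Nat.not_lt_zero _)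
  | succ t ih =>
    intro i j L hL hlc u f hu hf hO
    exact h.step hlc hu hf hO fun i' j' L' hL' => ih i' j' L' (by omega)

omit [ProperSpace k] [IsTopologicalGroup G] [ProperSpace V] [BorelSpace V]
  [IsFiniteMeasureOnCompacts μ] [μ.IsOpenPosMeasure] in
theorem WG.cont (h : WG μ b n π lam W Ω m q T pt NA σ J J' bt E g tr) (j : ι) :
    Continuous (E j) := by
  refine AddMonoidHomClass.continuous_of_bound (E j) 1 fun f => ?_
  rw [one_mul]
  refine ContinuousLinearMap.opNorm_le_bound _ (norm_nonneg _) fun ξ => ?_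
  have h1 := (h.bes j).one f (M := ‖f‖ ^ 2)
    (fun y => pow_le_pow_left₀ (norm_nonneg _) (f.norm_coe_le_norm y) 2) ξ
  rw [← mul_pow] at h1
  exact (pow_le_pow_iff_left₀ (norm_nonneg _) (by positivity) two_ne_zero).1 h1

omit [ProperSpace k] [IsTopologicalGroup G] [ProperSpace V] [BorelSpace V]
  [IsFiniteMeasureOnCompacts μ] [μ.IsOpenPosMeasure] in
theorem WG.dense_wl (h : WG μ b n π lam W Ω m q T pt NA σ J J' bt E g tr)
    (L : List (ι × C(Y, ℂ))) :
    wl E L ∈ closure {X | ∃ L' : List (ι × C(Y, ℂ)), (∀ p ∈ L', IsLocallyConstant p.2) ∧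
      X = wl E L'} := by
  induction L with
  | nil => exact subset_closure ⟨[], fun p hp => by simp at hp, rfl⟩
  | cons p L ih =>
    rw [wl_cons]
    have h1 : E p.1 p.2 ∈ closure {X | ∃ f : C(Y, ℂ), IsLocallyConstant f ∧ X = E p.1 f} := by
      have h2 := lc_dense (umY h.ind.continuous) (basY h.ind) p.2 (U := Set.univ)
        (IsLocallyConstant.const True) fun x _ => trivial
      refine map_mem_closure (h.cont p.1) h2 fun f hf => ⟨f, hf.1, rfl⟩
    refine map_mem_closure₂ continuous_mul h1 ih ?_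
    rintro _ ⟨f, hf, rfl⟩ _ ⟨L', hL', rfl⟩
    refine ⟨(p.1, f) :: L', fun p' hp' => ?_, (wl_cons E (p.1, f) L').symm⟩
    rcases List.mem_cons.1 hp' with rfl | hp'
    · exact hf
    · exact hL' p' hp'

/-- **THE WORD LEMMA.** -/
theorem WG.word (h : WG μ b n π lam W Ω m q T pt NA σ J J' bt E g tr) (i j : ι)
    (L : List (ι × C(Y, ℂ))) (u f : C(Y, ℂ))
    (hO : ∀ x ∈ tsupport u, ∀ y ∈ tsupport f, om σ J (nv (pt x)) (nv (pt y)) ≠ 0) :
    E i u * wl E L * E j f = 0 := by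
  have hb := h.frm.b1
  have hb0 : 0 < bt := by linarith
  have umy := umY h.ind.continuous
  have bsy := basY h.ind
  obtain ⟨δ, hδ, hδ1, hδO⟩ := opp_delta h.frm h.ind.continuous (isClosed_tsupport u)
    (isClosed_tsupport f) hO
  obtain ⟨δ2, hδ2e⟩ : ∃ δ2, δ2 = δ / (2 * bt) := ⟨_, rfl⟩
  have hδ2 : 0 < δ2 := by rw [hδ2e]; positivity
  have hbδ : bt * δ2 < δ := by
    have e : bt * δ2 = δ / 2 := by
      rw [hδ2e]
      field_simp
    rw [e]
    exact half_lt_self hδ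
  let U : Set Y := {x | ∃ a ∈ tsupport u, dY pt x a ≤ δ2}
  let U' : Set Y := {x | ∃ a ∈ tsupport f, dY pt x a ≤ δ2}
  have hU : IsLocallyConstant fun x => x ∈ U := nbhd_lc umy hδ2 _
  have hU' : IsLocallyConstant fun x => x ∈ U' := nbhd_lc umy hδ2 _
  have hUU : ∀ x ∈ U, ∀ y ∈ U', om σ J (nv (pt x)) (nv (pt y)) ≠ 0 := by
    rintro x ⟨a, ha, hxa⟩ y ⟨c, hc, hyc⟩
    have h1 := hδO a ha c hc
    have h2 : bt * dst (pt x) (pt a) < ‖om σ J (nv (pt a)) (nv (pt c))‖ :=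
      ((mul_le_mul_of_nonneg_left hxa hb0.le).trans_lt hbδ).trans_le h1
    have h3 := om_close1 h.frm h2
    have h4 : bt * dst (pt y) (pt c) < ‖om σ J (nv (pt x)) (nv (pt c))‖ := by
      rw [h3]
      exact ((mul_le_mul_of_nonneg_left hyc hb0.le).trans_lt hbδ).trans_le h1
    have h5 := om_close2 h.frm h4
    rw [← norm_pos_iff, h5, h3]
    linarith
  have mem : ∀ {f : C(Y, ℂ)} {x : Y}, f x ≠ 0 →
      x ∈ {x | ∃ a ∈ tsupport f, dY pt x a ≤ δ2} := fun {f x} hx =>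
    ⟨x, subset_closure hx, by
      rw [umy.self]
      exact hδ2.le⟩
  have hdu := lc_dense umy bsy u hU fun x hx => mem hx
  have hdf := lc_dense umy bsy f hU' fun x hx => mem hx
  -- locally constant outer functions
  have key : ∀ u' : C(Y, ℂ), IsLocallyConstant u' ∧ (∀ x, u' x ≠ 0 → x ∈ U) →
      ∀ f' : C(Y, ℂ), IsLocallyConstant f' ∧ (∀ x, f' x ≠ 0 → x ∈ U') →
      E i u' * wl E L * E j f' = 0 := by
    rintro u' ⟨hu1, hu2⟩ f' ⟨hf1, hf2⟩
    have hcl : IsClosed {X : K →L[ℂ] K | E i u' * X * E j f' = 0} :=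
      isClosed_eq ((continuous_const.mul continuous_id).mul continuous_const) continuous_const
    refine hcl.closure_subset_iff.2 ?_ (h.dense_wl L)
    rintro _ ⟨L', hL', rfl⟩
    exact h.wn (L'.length + 1) i j L' (Nat.lt_succ_self _) hL' u' f' hu1 hf1
      fun x y hx hy => hUU x (hu2 x hx) y (hf2 y hy)
  have key2 : ∀ u' : C(Y, ℂ), IsLocallyConstant u' ∧ (∀ x, u' x ≠ 0 → x ∈ U) →
      E i u' * wl E L * E j f = 0 := by
    intro u' hu'
    have hcl : IsClosed {f' : C(Y, ℂ) | E i u' * wl E L * E j f' = 0} :=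
      isClosed_eq (continuous_const.mul (h.cont j)) continuous_const
    exact hcl.closure_subset_iff.2 (fun f' hf' => key u' hu' f' hf') hdf
  have hcl : IsClosed {u' : C(Y, ℂ) | E i u' * wl E L * E j f = 0} :=
    isClosed_eq (((h.cont i).mul continuous_const).mul continuous_const) continuous_const
  exact hcl.closure_subset_iff.2 (fun u' hu' => key2 u' hu') hdu

omit [CompactSpace Y] [CompleteSpace K] [Nonempty Y] [ProperSpace k] in
/-- every element of the monoid generated by the letters is a word -/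
theorem exists_wl {X : K →L[ℂ] K} (hX : X ∈ Submonoid.closure {X | ∃ j f, X = E j f}) :
    ∃ L : List (ι × C(Y, ℂ)), X = wl E L := by
  induction hX using Submonoid.closure_induction with
  | mem X hX =>
    obtain ⟨j, f, rfl⟩ := hX
    exact ⟨[(j, f)], (wl_single (E := E) (j, f)).symm⟩
  | one => exact ⟨[], rfl⟩
  | mul A B _ _ hA hB =>
    obtain ⟨L, rfl⟩ := hA
    obtain ⟨L', rfl⟩ := hB
    exact ⟨L ++ L', (wl_append _ _).symm⟩

/-- **The word lemma**, in the form of the field `w0` of `H766.P2.PkData`. -/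
theorem WG.w0 (h : WG μ b n π lam W Ω m q T pt NA σ J J' bt E g tr) {X : K →L[ℂ] K}
    (hX : X ∈ Submonoid.closure {X | ∃ j f, X = E j f}) (i j : ι) (u f : C(Y, ℂ))
    (hO : ∀ x ∈ tsupport u, ∀ y ∈ tsupport f, om σ J (nv (pt x)) (nv (pt y)) ≠ 0) :
    E i u * X * E j f = 0 := by
  obtain ⟨L, rfl⟩ := exists_wl hX
  exact h.word i j L u f hO

end main

end Vale.Agent.P092.H145.G8
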