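import Vale.Agent.P092.H145.G8
import Vale.Agent.P092.CL.Defs
import Vale.Agent.P092.H416.CLpt

/-!
P092 (helper145), team P, row [P2-WL]: the word lemma in the letters of `CL/Defs`, for the targets
`P = SGr σ J 1` (isotropic points) and any family of letters moved by a wall element and fixed by a
root group: the adapter.
-/

set_option linter.all false

open scoped InnerProductSpace ENNReal LinearAlgebra.Projectivization Matrix
open Filter Topology ContinuousLinearMap MeasureTheory TopologicalSpace Matrix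

namespace Vale.Agent.P092.H145.G9

open Vale.Agent.P092.SD (Ms UC)
open Vale.Agent.P092.RC (Cm TRN)
open Vale.Agent.P092.H790.CT (PicL)
open Vale.Agent.P092.H790.CTA (ORBG SIZEG)
open Vale.Agent.P092.H145.WL (Bes)
open Vale.Agent.P092.H145.WL2 (hh)
open Vale.Agent.P092.H145.WL3 (norm_eq_of_close mulVec_le)
open Vale.Agent.P092.H145.WL5 (nv norm_nv nv_ne mk_nv nv_smul pv pv_ne)
open Vale.Agent.P092.H145.WL8 (nmm)
open Vale.Agent.P092.H145.G3 (Fr NWD nwd_of om_smul_left om_smul_right)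
open Vale.Agent.P092.H145.G6 (wl)
open Vale.Agent.P092.H145.G8
open Vale.Agent.P092.SP (UL)
open Vale.Agent.P092.H303 (FormGroup)
open Vale.Agent.P092.H714.Cl (hf Frm)
open Vale.Agent.P092.H370.Po (SGr Inc Col)
open Vale.Agent.P092.H416.CL (cor cor_ne roc rho Je hf_cor cor_roc pt pt_eq pt_smul pt_cont pt_inj
  col_pt)
open Matrix (SpecialLinearGroup)

/-! ### Bessel -/

theorem bes_of_ul {Y K : Type*} [TopologicalSpace Y] [Nonempty Y] [NormedAddCommGroup K]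
    [InnerProductSpace ℂ K] [CompleteSpace K] {E : C(Y, ℂ) →ₗ[ℂ] (K →L[ℂ] K)} {p : ℝ}
    (h : UL E p) (hp : p ≤ 1) : Bes fun f => E f := by
  intro n v M hM ξ
  have hM0 : 0 ≤ M := by
    obtain ⟨y⟩ := ‹Nonempty Y›
    exact (Finset.sum_nonneg fun i _ => sq_nonneg _).trans (hM y)
  have hc : Continuous fun y => ((Real.sqrt (M - ∑ i, ‖v i y‖ ^ 2) : ℝ) : ℂ) := by fun_prop
  obtain ⟨w, hw⟩ : ∃ w : Fin (n + 1) → C(Y, ℂ), w = Fin.cons ⟨_, hc⟩ v := ⟨_, rfl⟩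
  have h1 := h.bes (n + 1) w ξ
  have e1 : ∑ i, Star.star (w i) * w i = (M : ℂ) • (1 : C(Y, ℂ)) := by
    refine ContinuousMap.ext fun y => ?_
    rw [ContinuousMap.sum_apply, Fin.sum_univ_succ, hw]
    change star ((Real.sqrt (M - ∑ i, ‖v i y‖ ^ 2) : ℝ) : ℂ) *
      ((Real.sqrt (M - ∑ i, ‖v i y‖ ^ 2) : ℝ) : ℂ) + ∑ i, star (v i y) * v i y = (M : ℂ) * 1
    have e2 : ∀ z : ℂ, star z * z = ((‖z‖ ^ 2 : ℝ) : ℂ) := fun z => by
      have := Complex.conj_mul' z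
      simpa using this
    rw [e2]
    simp only [e2]
    rw [Complex.norm_real, Real.norm_eq_abs, sq_abs, Real.sq_sqrt (sub_nonneg.2 (hM y)), mul_one]
    push_cast
    ring
  rw [e1, map_smul, h.one, Fin.sum_univ_succ] at h1
  have e3 : ∀ i : Fin n, w i.succ = v i := fun i => by rw [hw, Fin.cons_succ]
  simp only [e3] at h1
  have e4 : (⟪ξ, ((M : ℂ) • (p : ℂ) • (1 : K →L[ℂ] K)) ξ⟫_ℂ).re = M * p * ‖ξ‖ ^ 2 := by
    change (⟪ξ, (M : ℂ) • (p : ℂ) • ξ⟫_ℂ).re = _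
    have e5 : ⟪ξ, ξ⟫_ℂ = ((‖ξ‖ ^ 2 : ℝ) : ℂ) := by
      rw [inner_self_eq_norm_sq_to_K]
      norm_cast
    rw [inner_smul_right, inner_smul_right, e5, ← mul_assoc,
      ← Complex.ofReal_mul, ← Complex.ofReal_mul, Complex.ofReal_re]
  rw [e4] at h1
  have h2 : ∑ i, ‖E (v i) ξ‖ ^ 2 ≤ M * p * ‖ξ‖ ^ 2 := by
    have := sq_nonneg ‖E (w 0) ξ‖
    linarith
  refine h2.trans ?_
  refine mul_le_mul_of_nonneg_right ?_ (sq_nonneg _)
  calc M * p ≤ M * 1 := mul_le_mul_of_nonneg_left hp hM0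
    _ = M := mul_one M

/-! ### The form -/

section form

variable {k : Type*} [NontriviallyNormedField k] [IsUltrametricDist k] {D : Type*} [Fintype D]
  [DecidableEq D]

theorem fr_of {σ : k →+* k} {ε : k} {J : Matrix D D k} (inv : ∀ x, σ (σ x) = x) (hε : ‖ε‖ = 1)
    (herm : ∀ x y, G3.om σ J y x = ε * σ (G3.om σ J x y))
    (nondeg : ∀ x, x ≠ 0 → ∃ y, G3.om σ J x y ≠ 0) (hσ : ∀ x, ‖σ x‖ = ‖x‖) :
    ∃ J' β, Fr σ J J' β := by
  have hdet : J.det ≠ 0 := by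
    intro h0
    obtain ⟨v, hv, hv0⟩ := Matrix.exists_vecMul_eq_zero_iff.2 h0
    obtain ⟨y, hy⟩ := nondeg v hv
    apply hy
    unfold G3.om
    rw [Matrix.dotProduct_mulVec, hv0, zero_dotProduct]
  obtain ⟨a, ha⟩ : ∃ a : ℝ, a = ‖(fun i j => J i j : D → D → k)‖ := ⟨_, rfl⟩
  obtain ⟨a', ha'⟩ : ∃ a' : ℝ, a' = ‖(fun i j => J⁻¹ i j : D → D → k)‖ := ⟨_, rfl⟩
  have h0 : 0 ≤ a := by rw [ha]; exact norm_nonneg _
  have h0' : 0 ≤ a' := by rw [ha']; exact norm_nonneg _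
  refine ⟨J⁻¹, 1 + a + a', inv, hσ, Matrix.mul_nonsing_inv J (isUnit_iff_ne_zero.2 hdet),
    by linarith, fun i j => ?_, fun i j => ?_, fun x y => ?_⟩
  · have : ‖J i j‖ ≤ a := by
      rw [ha]
      exact (norm_le_pi_norm (fun j => J i j) j).trans
        (norm_le_pi_norm (fun i j => J i j : D → D → k) i)
    linarith
  · have : ‖J⁻¹ i j‖ ≤ a' := by
      rw [ha']
      exact (norm_le_pi_norm (fun j => J⁻¹ i j) j).trans
        (norm_le_pi_norm (fun i j => J⁻¹ i j : D → D → k) i)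
    linarith
  · rw [herm x y, norm_mul, hε, hσ, one_mul]

/-- the norm of a matrix of determinant one is at least one -/
theorem one_le_of_det {A : Matrix D D k} [Nonempty D] (hA : A.det = 1) {c : ℝ}
    (hc : ∀ i j, ‖A i j‖ ≤ c) : 1 ≤ c := by
  have hc0 : 0 ≤ c := by
    obtain ⟨i⟩ := ‹Nonempty D›
    exact (norm_nonneg _).trans (hc i i)
  by_contra hlt
  rw [not_le] at hlt
  have h1 : ‖A.det‖ ≤ c ^ Fintype.card D := by
    rw [Matrix.det_apply]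
    refine IsUltrametricDist.norm_sum_le_of_forall_le_of_nonneg (by positivity) fun p _ => ?_
    have e : ‖Equiv.Perm.sign p • ∏ i, A (p i) i‖ = ‖∏ i, A (p i) i‖ := by
      rcases Int.units_eq_one_or (Equiv.Perm.sign p) with h | h <;> rw [h] <;> simp
    rw [e, norm_prod]
    calc ∏ i, ‖A (p i) i‖ ≤ ∏ _i : D, c :=
          Finset.prod_le_prod (fun i _ => norm_nonneg _) fun i _ => hc _ _
      _ = c ^ Fintype.card D := by rw [Finset.prod_const, Finset.card_univ]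
  rw [hA, norm_one] at h1
  have h2 : c ^ Fintype.card D < 1 := pow_lt_one₀ hc0 hlt Fintype.card_ne_zero
  linarith

end form

/-! ### The target -/

section target

variable {k : Type} [NontriviallyNormedField k] [IsUltrametricDist k] {n : Type} [Fintype n]
  [DecidableEq n] {σ : k →+* k} {ε : k} {J : Matrix n n k} {N : ℕ}

theorem nmm_rho (e : n ≃ Fin (N + 1)) (g : FormGroup σ J) :
    nmm (rho e σ J g) = ‖(fun i j => (g.1⁻¹).1ᵀ i j : n → n → k)‖ := by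
  have h0 : ∀ i j : Fin (N + 1), (rho e σ J g).1 i j = (g.1⁻¹).1ᵀ (e.symm i) (e.symm j) :=
    fun _ _ => rfl
  unfold nmm
  refine le_antisymm ?_ ?_
  · refine (pi_norm_le_iff_of_nonneg (norm_nonneg _)).2 fun i => ?_
    refine (pi_norm_le_iff_of_nonneg (norm_nonneg _)).2 fun j => ?_
    rw [h0]
    exact (norm_le_pi_norm (fun j => (g.1⁻¹).1ᵀ (e.symm i) j) (e.symm j)).trans
      (norm_le_pi_norm (fun i j => (g.1⁻¹).1ᵀ i j : n → n → k) (e.symm i))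
  · refine (pi_norm_le_iff_of_nonneg (norm_nonneg _)).2 fun i => ?_
    refine (pi_norm_le_iff_of_nonneg (norm_nonneg _)).2 fun j => ?_
    have h1 := h0 (e i) (e j)
    rw [e.symm_apply_apply, e.symm_apply_apply] at h1
    rw [← h1]
    exact (norm_le_pi_norm (fun j => (rho e σ J g).1 (e i) j) (e j)).trans
      (norm_le_pi_norm (fun i j => (rho e σ J g).1 i j : Fin (N + 1) → Fin (N + 1) → k) (e i))

theorem iso_rho (e : n ≃ Fin (N + 1)) (g : FormGroup σ J) :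
    (rho e σ J g).1ᵀ * Je e J * (rho e σ J g).1.map σ = Je e J := by
  have h1 : (g.1⁻¹).1 * J * ((g.1⁻¹).1.map σ)ᵀ = J := inv_mem g.2
  have e1 : (rho e σ J g).1ᵀ = (g.1⁻¹).1.submatrix e.symm e.symm := rfl
  have e2 : (rho e σ J g).1.map σ = (((g.1⁻¹).1.map σ)ᵀ).submatrix e.symm e.symm := rfl
  have e3 : Je e J = J.submatrix e.symm e.symm := rfl
  rw [e1, e2, e3, Matrix.submatrix_mul_equiv, Matrix.submatrix_mul_equiv, h1]

theorem fr_cl (hF : Frm σ ε J) (hσ : ∀ x, ‖σ x‖ = ‖x‖) (e : n ≃ Fin (N + 1)) :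
    ∃ J' β, Fr σ (Je e J) J' β := by
  have hε : ‖ε‖ = 1 := by
    have h1 : ‖ε‖ * ‖ε‖ = 1 := by rw [← norm_mul, hF.eps, norm_one]
    nlinarith [norm_nonneg ε]
  have key : ∀ x y, G3.om σ (Je e J) x y = hf σ J (roc e x) (roc e y) := fun x y => by
    have := hf_cor e σ J (roc e x) (roc e y)
    rw [cor_roc, cor_roc] at this
    exact this
  refine fr_of hF.inv hε (fun x y => ?_) (fun x hx => ?_) hσ
  · rw [key, key]
    exact hF.herm _ _
  · have hx' : roc e x ≠ 0 := Vale.Agent.P092.H416.CL.roc_ne hx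
    obtain ⟨y, hy⟩ := hF.nondeg _ hx'
    refine ⟨cor e y, ?_⟩
    rw [key, Vale.Agent.P092.H416.CL.roc_cor]
    exact hy

/-- near-wall data and the attracting point -/
theorem nw_cl (hF : Frm σ ε J) (hσ : ∀ x, ‖σ x‖ = ‖x‖) (e : n ≃ Fin (N + 1))
    {J' : Matrix (Fin (N + 1)) (Fin (N + 1)) k} {β : ℝ} (hJ : Fr σ (Je e J) J' β) (R : ℝ) :
    ∃ R', 1 ≤ R' ∧ ∀ η > 0, ∃ t > 0, ∀ (A : Set (SGr σ J 1)) (g : FormGroup σ J),
      (∀ i i' j j', ‖(g.1⁻¹).1ᵀ i j * (g.1⁻¹).1ᵀ i' j' - (g.1⁻¹).1ᵀ i' j * (g.1⁻¹).1ᵀ i j'‖ ≤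
        R * ‖(fun i j => (g.1⁻¹).1ᵀ i j : n → n → k)‖) →
      (∃ X ∈ A, ∃ D : Matrix n n k, (∀ v, D *ᵥ v ∈ X.S) ∧ ∀ i i',
        ‖(g.1⁻¹).1ᵀ i i' - D i i'‖ ≤ ‖(fun i j => (g.1⁻¹).1ᵀ i j : n → n → k)‖ / t) →
      ∃ u y xu M, NWD σ (Je e J) R' (nmm (rho e σ J g)) (rho e σ J g).1 u y xu M ∧
        ∃ a ∈ A, ∃ (w : Fin (N + 1) → k) (hw : w ≠ 0), Projectivization.mk k w hw = pt e a ∧
          ‖w‖ = 1 ∧ ‖u - w‖ ≤ η := by
  have hβ := hJ.b1
  have hβ0 : 0 < β := by linarith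
  obtain ⟨R', hR'⟩ : ∃ R', R' = β ^ 2 * max R 1 := ⟨_, rfl⟩
  have hm1 : 1 ≤ max R 1 := le_max_right _ _
  have hβ2 : β ^ 2 ≤ R' := by
    rw [hR']
    nlinarith [sq_nonneg β]
  have hR1 : 1 ≤ R' := (one_le_pow₀ hβ).trans hβ2
  refine ⟨R', hR1, fun η hη => ⟨max (1 / η) 2, by positivity, fun A g hnw hat => ?_⟩⟩
  obtain ⟨t, ht⟩ : ∃ t : ℝ, t = max (1 / η) 2 := ⟨_, rfl⟩
  rw [← ht] at hat
  have ht2 : 2 ≤ t := by rw [ht]; exact le_max_right _ _
  have ht0 : 0 < t := by linarith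
  have htη : 1 / t ≤ η := by
    rw [div_le_iff₀ ht0]
    have h1 : 1 / η ≤ t := by rw [ht]; exact le_max_left _ _
    rw [div_le_iff₀ hη] at h1
    linarith
  have ht1 : 1 / t < 1 := by
    rw [div_lt_iff₀ ht0]
    linarith
  rw [← nmm_rho e g] at hnw
  obtain ⟨X, hX, D, hD, hD'⟩ := hat
  rw [← nmm_rho e g] at hD'
  obtain ⟨h, hh⟩ : ∃ h, h = (rho e σ J g).1 := ⟨_, rfl⟩
  have hent : ∀ i j, h i j = (g.1⁻¹).1ᵀ (e.symm i) (e.symm j) := fun i j => by rw [hh]; rfl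
  obtain ⟨m, hm⟩ : ∃ m, m = nmm (rho e σ J g) := ⟨_, rfl⟩
  rw [← hm] at hnw hD'
  have hle : ∀ i j, ‖h i j‖ ≤ m := fun i j => by
    rw [hh, hm]
    exact (norm_le_pi_norm (fun j => (rho e σ J g).1 i j) j).trans
      (norm_le_pi_norm (fun i j => (rho e σ J g).1 i j : Fin (N + 1) → Fin (N + 1) → k) i)
  obtain ⟨p, hp⟩ := Finite.exists_max fun p : Fin (N + 1) × Fin (N + 1) => ‖h p.1 p.2‖
  obtain ⟨i0, j0⟩ := p
  have hp' : ∀ i j, ‖h i j‖ ≤ ‖h i0 j0‖ := fun i j => hp (i, j)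
  have hpm : ‖h i0 j0‖ = m := by
    refine le_antisymm (hle _ _) ?_
    rw [hm]
    unfold nmm
    rw [hh] at hp' ⊢
    refine (pi_norm_le_iff_of_nonneg (norm_nonneg _)).2 fun i => ?_
    exact (pi_norm_le_iff_of_nonneg (norm_nonneg _)).2 fun j => hp' i j
  have h1n : 1 ≤ ‖h i0 j0‖ := by
    refine one_le_of_det (A := h) ?_ hp'
    rw [hh]
    exact (rho e σ J g).2
  have hi : hᵀ * Je e J * h.map σ = Je e J := by
    rw [hh]
    exact iso_rho e g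
  have hn0 : 0 < m := by
    rw [← hpm]
    linarith
  obtain ⟨y, xu, M, hN⟩ := nwd_of hJ hi hβ2 i0 j0 h1n hp' (fun i j i' j' => by
    have h3 := hnw (e.symm i) (e.symm i') (e.symm j) (e.symm j')
    rw [hpm]
    have e1 : h i j * h i' j' - h i j' * h i' j =
        (g.1⁻¹).1ᵀ (e.symm i) (e.symm j) * (g.1⁻¹).1ᵀ (e.symm i') (e.symm j') -
          (g.1⁻¹).1ᵀ (e.symm i') (e.symm j) * (g.1⁻¹).1ᵀ (e.symm i) (e.symm j') := by
      rw [hent, hent, hent, hent]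
      ring
    rw [e1, hR']
    calc β ^ 2 * _ ≤ β ^ 2 * (R * m) := mul_le_mul_of_nonneg_left h3 (by positivity)
      _ ≤ β ^ 2 * (max R 1 * m) := mul_le_mul_of_nonneg_left
          (mul_le_mul_of_nonneg_right (le_max_left _ _) hn0.le) (by positivity)
      _ = _ := by ring)
  rw [hpm] at hN
  have hne : h i0 j0 ≠ 0 := norm_pos_iff.1 (by linarith)
  obtain ⟨x, hx⟩ : ∃ x : n → k, x = (h i0 j0)⁻¹ • (D *ᵥ Pi.single (e.symm j0) 1) := ⟨_, rfl⟩
  have hxX : x ∈ X.S := by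
    rw [hx]
    exact X.S.smul_mem _ (hD _)
  have hclose : ‖((h i0 j0)⁻¹ • (fun i => h i j0)) - cor e x‖ ≤ 1 / t := by
    refine (pi_norm_le_iff_of_nonneg (by positivity)).2 fun i => ?_
    have e1 : (((h i0 j0)⁻¹ • (fun i => h i j0)) - cor e x) i =
        ((g.1⁻¹).1ᵀ (e.symm i) (e.symm j0) - D (e.symm i) (e.symm j0)) / h i0 j0 := by
      rw [hx, Matrix.mulVec_single_one]
      change (h i0 j0)⁻¹ * h i j0 - (h i0 j0)⁻¹ * D (e.symm i) (e.symm j0) = _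
      rw [hent i j0]
      field_simp
    rw [e1, norm_div, hpm, div_le_div_iff₀ hn0 ht0]
    have h2 := hD' (e.symm i) (e.symm j0)
    rw [le_div_iff₀ ht0] at h2
    linarith
  have hu1 : ‖(h i0 j0)⁻¹ • (fun i => h i j0)‖ = 1 := hN.nu
  have hw1 : ‖cor e x‖ = 1 := by
    rw [← hu1]
    refine norm_eq_of_close ?_
    rw [hu1]
    exact hclose.trans_lt ht1
  have hw0 : cor e x ≠ 0 := by
    rw [← norm_pos_iff, hw1]
    exact one_pos
  have hx0 : x ≠ 0 := by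
    intro h0
    apply hw0
    rw [h0]
    rfl
  refine ⟨_, y, xu, M, ?_, X, hX, cor e x, hw0, (pt_eq e hx0 hxX).symm, hw1, hclose.trans htη⟩
  rw [← hm, ← hh]
  exact hN

end target

end Vale.Agent.P092.H145.G9
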