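import Vale.Agent.P092.H145.G9

/-!
P092 (helper145), team P, row [P2-WL]: the word lemma in the letters of `CL/Defs` for any group `S`
acting through `φ : S →* FormGroup σ J` (unitary, symplectic and orthogonal groups), any form.
-/

set_option linter.all false

open scoped InnerProductSpace ENNReal LinearAlgebra.Projectivization Matrix
open Filter Topology ContinuousLinearMap MeasureTheory TopologicalSpace Matrix

namespace Vale.Agent.P092.H145.GP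

open Vale.Agent.P092.SD (Ms UC)
open Vale.Agent.P092.RC (Cm TRN)
open Vale.Agent.P092.H790.CT (PicL)
open Vale.Agent.P092.H790.CTA (ORBG SIZEG)
open Vale.Agent.P092.H145.WL (Bes)
open Vale.Agent.P092.H145.WL2 (hh pi_inv_mul pi_mul_inv)
open Vale.Agent.P092.H145.WL3 (norm_eq_of_close mulVec_le)
open Vale.Agent.P092.H145.WL5 (nv norm_nv nv_ne mk_nv nv_smul pv pv_ne)
open Vale.Agent.P092.H145.WL8 (nmm)
open Vale.Agent.P092.H145.G3 (Fr NWD nwd_of om_smul_left om_smul_right)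
open Vale.Agent.P092.H145.G6 (wl)
open Vale.Agent.P092.H145.G8 Vale.Agent.P092.H145.G9
open Vale.Agent.P092.SP (UL)
open Vale.Agent.P092.CL (Lt Geo PB UFam ORB)
open Vale.Agent.P092.H303 (FormGroup)
open Vale.Agent.P092.H714.Cl (hf Frm)
open Vale.Agent.P092.H370.Po (SGr Inc Col)
open Vale.Agent.P092.H416.CL (cor cor_ne roc rho Je hf_cor cor_roc pt pt_eq pt_smul pt_cont pt_inj
  col_pt)
open Matrix (SpecialLinearGroup)

/-- what is used of the form -/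
structure FrH {k : Type} [NontriviallyNormedField k] {n : Type} [Fintype n] [DecidableEq n]
    (σ : k →+* k) (ε : k) (J : Matrix n n k) : Prop where
  inv : ∀ x, σ (σ x) = x
  eps : ε * ε = 1
  herm : ∀ x y, hf σ J y x = ε * σ (hf σ J x y)
  nondeg : ∀ x, x ≠ 0 → ∃ y, hf σ J x y ≠ 0

section target

variable {k : Type} [NontriviallyNormedField k] [IsUltrametricDist k] {n : Type} [Fintype n]
  [DecidableEq n] {σ : k →+* k} {ε : k} {J : Matrix n n k} {N : ℕ}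

theorem FrH.of_frm (hF : Frm σ ε J) : FrH σ ε J := ⟨hF.inv, hF.eps, hF.herm, hF.nondeg⟩

theorem fr_p (hF : FrH σ ε J) (hσ : ∀ x, ‖σ x‖ = ‖x‖) (e : n ≃ Fin (N + 1)) :
    ∃ J' β, Fr σ (Je e J) J' β := by
  have hε : ‖ε‖ = 1 := by
    have h1 : ‖ε‖ * ‖ε‖ = 1 := by rw [← norm_mul, hF.eps, norm_one]
    nlinarith [norm_nonneg ε]
  have key : ∀ x y, G3.om σ (Je e J) x y = hf σ J (roc e x) (roc e y) := fun x y => by
    have := hf_cor e σ J (roc e x) (roc e y)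
    rw [cor_roc, cor_roc] at this
    exact this
  refine fr_of hF.inv hε (fun x y => ?_) (fun x hx => ?_) hσ
  · rw [key, key]
    exact hF.herm _ _
  · have hx' : roc e x ≠ 0 := Vale.Agent.P092.H416.CL.roc_ne hx
    obtain ⟨y, hy⟩ := hF.nondeg _ hx'
    refine ⟨cor e y, ?_⟩
    rw [key, Vale.Agent.P092.H416.CL.roc_cor]
    exact hy

/-- near-wall data and the attracting point -/
theorem nw_p (e : n ≃ Fin (N + 1))
    {J' : Matrix (Fin (N + 1)) (Fin (N + 1)) k} {β : ℝ} (hJ : Fr σ (Je e J) J' β) (R : ℝ) :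
    ∃ R', 1 ≤ R' ∧ ∀ η > 0, ∃ t > 0, ∀ (A : Set (SGr σ J 1)) (g : FormGroup σ J),
      (∀ i i' j j', ‖(g.1⁻¹).1ᵀ i j * (g.1⁻¹).1ᵀ i' j' - (g.1⁻¹).1ᵀ i' j * (g.1⁻¹).1ᵀ i j'‖ ≤
        R * ‖(fun i j => (g.1⁻¹).1ᵀ i j : n → n → k)‖) →
      (∃ X ∈ A, ∃ D : Matrix n n k, (∀ v, D *ᵥ v ∈ X.S) ∧ ∀ i i',
        ‖(g.1⁻¹).1ᵀ i i' - D i i'‖ ≤ ‖(fun i j => (g.1⁻¹).1ᵀ i j : n → n → k)‖ / t) →
      ∃ u y xu M, NWD σ (Je e J) R' (nmm (rho e σ J g)) (rho e σ J g).1 u y xu M ∧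
        ∃ a ∈ A, ∃ (w : Fin (N + 1) → k) (hw : w ≠ 0), Projectivization.mk k w hw = pt e a ∧
          ‖w‖ = 1 ∧ ‖u - w‖ ≤ η := by
  have hβ := hJ.b1
  have hβ0 : 0 < β := by linarith
  obtain ⟨R', hR'⟩ : ∃ R', R' = β ^ 2 * max R 1 := ⟨_, rfl⟩
  have hm1 : 1 ≤ max R 1 := le_max_right _ _
  have hβ2 : β ^ 2 ≤ R' := by
    rw [hR']
    nlinarith [sq_nonneg β]
  have hR1 : 1 ≤ R' := (one_le_pow₀ hβ).trans hβ2
  refine ⟨R', hR1, fun η hη => ⟨max (1 / η) 2, by positivity, fun A g hnw hat => ?_⟩⟩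
  obtain ⟨t, ht⟩ : ∃ t : ℝ, t = max (1 / η) 2 := ⟨_, rfl⟩
  rw [← ht] at hat
  have ht2 : 2 ≤ t := by rw [ht]; exact le_max_right _ _
  have ht0 : 0 < t := by linarith
  have htη : 1 / t ≤ η := by
    rw [div_le_iff₀ ht0]
    have h1 : 1 / η ≤ t := by rw [ht]; exact le_max_left _ _
    rw [div_le_iff₀ hη] at h1
    linarith
  have ht1 : 1 / t < 1 := by
    rw [div_lt_iff₀ ht0]
    linarith
  rw [← nmm_rho e g] at hnw
  obtain ⟨X, hX, D, hD, hD'⟩ := hat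
  rw [← nmm_rho e g] at hD'
  obtain ⟨h, hh⟩ : ∃ h, h = (rho e σ J g).1 := ⟨_, rfl⟩
  have hent : ∀ i j, h i j = (g.1⁻¹).1ᵀ (e.symm i) (e.symm j) := fun i j => by rw [hh]; rfl
  obtain ⟨m, hm⟩ : ∃ m, m = nmm (rho e σ J g) := ⟨_, rfl⟩
  rw [← hm] at hnw hD'
  have hle : ∀ i j, ‖h i j‖ ≤ m := fun i j => by
    rw [hh, hm]
    exact (norm_le_pi_norm (fun j => (rho e σ J g).1 i j) j).trans
      (norm_le_pi_norm (fun i j => (rho e σ J g).1 i j : Fin (N + 1) → Fin (N + 1) → k) i)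
  obtain ⟨p, hp⟩ := Finite.exists_max fun p : Fin (N + 1) × Fin (N + 1) => ‖h p.1 p.2‖
  obtain ⟨i0, j0⟩ := p
  have hp' : ∀ i j, ‖h i j‖ ≤ ‖h i0 j0‖ := fun i j => hp (i, j)
  have hpm : ‖h i0 j0‖ = m := by
    refine le_antisymm (hle _ _) ?_
    rw [hm]
    unfold nmm
    rw [hh] at hp' ⊢
    refine (pi_norm_le_iff_of_nonneg (norm_nonneg _)).2 fun i => ?_
    exact (pi_norm_le_iff_of_nonneg (norm_nonneg _)).2 fun j => hp' i j
  have h1n : 1 ≤ ‖h i0 j0‖ := by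
    refine one_le_of_det (A := h) ?_ hp'
    rw [hh]
    exact (rho e σ J g).2
  have hi : hᵀ * Je e J * h.map σ = Je e J := by
    rw [hh]
    exact iso_rho e g
  have hn0 : 0 < m := by
    rw [← hpm]
    linarith
  obtain ⟨y, xu, M, hN⟩ := nwd_of hJ hi hβ2 i0 j0 h1n hp' (fun i j i' j' => by
    have h3 := hnw (e.symm i) (e.symm i') (e.symm j) (e.symm j')
    rw [hpm]
    have e1 : h i j * h i' j' - h i j' * h i' j =
        (g.1⁻¹).1ᵀ (e.symm i) (e.symm j) * (g.1⁻¹).1ᵀ (e.symm i') (e.symm j') -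
          (g.1⁻¹).1ᵀ (e.symm i') (e.symm j) * (g.1⁻¹).1ᵀ (e.symm i) (e.symm j') := by
      rw [hent, hent, hent, hent]
      ring
    rw [e1, hR']
    calc β ^ 2 * _ ≤ β ^ 2 * (R * m) := mul_le_mul_of_nonneg_left h3 (by positivity)
      _ ≤ β ^ 2 * (max R 1 * m) := mul_le_mul_of_nonneg_left
          (mul_le_mul_of_nonneg_right (le_max_left _ _) hn0.le) (by positivity)
      _ = _ := by ring)
  rw [hpm] at hN
  have hne : h i0 j0 ≠ 0 := norm_pos_iff.1 (by linarith)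
  obtain ⟨x, hx⟩ : ∃ x : n → k, x = (h i0 j0)⁻¹ • (D *ᵥ Pi.single (e.symm j0) 1) := ⟨_, rfl⟩
  have hxX : x ∈ X.S := by
    rw [hx]
    exact X.S.smul_mem _ (hD _)
  have hclose : ‖((h i0 j0)⁻¹ • (fun i => h i j0)) - cor e x‖ ≤ 1 / t := by
    refine (pi_norm_le_iff_of_nonneg (by positivity)).2 fun i => ?_
    have e1 : (((h i0 j0)⁻¹ • (fun i => h i j0)) - cor e x) i =
        ((g.1⁻¹).1ᵀ (e.symm i) (e.symm j0) - D (e.symm i) (e.symm j0)) / h i0 j0 := by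
      rw [hx, Matrix.mulVec_single_one]
      change (h i0 j0)⁻¹ * h i j0 - (h i0 j0)⁻¹ * D (e.symm i) (e.symm j0) = _
      rw [hent i j0]
      field_simp
    rw [e1, norm_div, hpm, div_le_div_iff₀ hn0 ht0]
    have h2 := hD' (e.symm i) (e.symm j0)
    rw [le_div_iff₀ ht0] at h2
    linarith
  have hu1 : ‖(h i0 j0)⁻¹ • (fun i => h i j0)‖ = 1 := hN.nu
  have hw1 : ‖cor e x‖ = 1 := by
    rw [← hu1]
    refine norm_eq_of_close ?_
    rw [hu1]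
    exact hclose.trans_lt ht1
  have hw0 : cor e x ≠ 0 := by
    rw [← norm_pos_iff, hw1]
    exact one_pos
  have hx0 : x ≠ 0 := by
    intro h0
    apply hw0
    rw [h0]
    rfl
  refine ⟨_, y, xu, M, ?_, X, hX, cor e x, hw0, (pt_eq e hx0 hxX).symm, hw1, hclose.trans htη⟩
  rw [← hm, ← hh]
  exact hN

end target

section

variable {k : Type} [NontriviallyNormedField k] [IsUltrametricDist k] [ProperSpace k]
  {n : Type} [Fintype n] [DecidableEq n] {σ : k →+* k} {ε : k} {J : Matrix n n k}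
  [Fact (Continuous σ)] {N : ℕ}
  {S M V₁ V₂ : Type} [Group S] [TopologicalSpace S] [MulAction S (SGr σ J 1)]
  [ContinuousConstSMul S (SGr σ J 1)] [MeasurableSpace V₁] [MeasurableSpace V₂]
  [MulAction S M] [TopologicalSpace M] [CompactSpace M]
  [ContinuousConstSMul S M] [NormedAddCommGroup V₁] [NormedAddCommGroup V₂]
  {φ : S →* FormGroup σ J} {L : Lt S (SGr σ J 1) M V₁ V₂}
  {E Γ K : Type} [Group E] [TopologicalSpace E] [Group Γ] [NormedAddCommGroup K]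
  [InnerProductSpace ℂ K] [CompleteSpace K]
  {𝒰 : Ultrafilter ℕ} {ι : S →* E} {π : E →* (K →L[ℂ] K)} {lam : Γ →* (K →L[ℂ] K)}
  {W : Set (K →L[ℂ] K)} {Ω : K} {m : Set Γ → (K →L[ℂ] K)} {q : Γ → S}

/-- the conditions on the letters `nm`, `NA1` of the record -/
structure LtOk (φ : S →* FormGroup σ J) (L : Lt S (SGr σ J 1) M V₁ V₂) : Prop where
  act : ∀ (g : S) (x : SGr σ J 1), g • x = φ g • x
  nm : ∀ g, L.nm g = ‖(fun i j => ((φ g).1⁻¹).1ᵀ i j : n → n → k)‖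
  nw : ∀ R T B g, g ∈ L.NA1 R T B → ∀ i i' j j',
    ‖((φ g).1⁻¹).1ᵀ i j * ((φ g).1⁻¹).1ᵀ i' j' - ((φ g).1⁻¹).1ᵀ i' j * ((φ g).1⁻¹).1ᵀ i j'‖ ≤
      R * ‖(fun i j => ((φ g).1⁻¹).1ᵀ i j : n → n → k)‖
  att : ∀ R T B g, g ∈ L.NA1 R T B → ∃ X ∈ B, ∃ D : Matrix n n k, (∀ v, D *ᵥ v ∈ X.S) ∧ ∀ i i',
    ‖((φ g).1⁻¹).1ᵀ i i' - D i i'‖ ≤ ‖(fun i j => ((φ g).1⁻¹).1ᵀ i j : n → n → k)‖ / T

/-- the action of `q γ` on the points -/
noncomputable def Tq (q : Γ → S) (γ : Γ) : C(SGr σ J 1, SGr σ J 1) :=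
  ⟨fun y => q γ • y, continuous_const_smul (q γ)⟩

theorem hh_iota (ι : S →* E) (g b : S) (t : ℕ) :
    hh (ι g) (ι b) t = ι (g * b ^ t * g⁻¹)⁻¹ := by
  unfold hh
  rw [map_inv, map_mul, map_mul, map_pow, map_inv]

variable {X V : Type} [MulAction S X] [NormedAddCommGroup V] [MeasurableSpace V]
  {μ : Measure V} {b : S} {v0 : X} {nn : V → S}
  {U : X → (C(SGr σ J 1, ℂ) →ₗ[ℂ] (K →L[ℂ] K))} {Q : X → Prop}

theorem exists_wg (hF : FrH σ ε J) (hσ : ∀ x, ‖σ x‖ = ‖x‖) (e : n ≃ Fin (N + 1))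
    [Nonempty (SGr σ J 1)]
    (hL : LtOk φ L) (hG : Geo L) (hB : PB L 𝒰 ι π lam W Ω m q)
    (hU : UFam 𝒰 b v0 ι π lam W m q (L.na1 q) U 1) (horb : ORB μ ι π lam W Ω b nn)
    (hsize : SIZEG (ι b) π Ω m fun γ => L.nm (q γ)) (hnc : Continuous nn) (hn0 : nn 0 = 1)
    (hQ : ∀ x, Q x → ∃ g : S, g • v0 = x ∧
      (∀ (t : ℕ) y, Q y → Q ((g * b ^ t * g⁻¹)⁻¹ • y)) ∧
      ∀ s y, Q y → (g * nn s * g⁻¹) • y = y) :
    ∃ (J' : Matrix (Fin (N + 1)) (Fin (N + 1)) k) (bt : ℝ) (g : {x // Q x} → E)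
      (tr : {x // Q x} → ℕ → {x // Q x} → {x // Q x}),
      WG μ (ι b) (fun s => ι (nn s)) π lam W Ω m (fun γ => rho e σ J (φ (q γ))) (Tq q) (pt e)
        (L.na1 q) σ (Je e J) J' bt (fun x : {x // Q x} => U x.1) g tr := by
  classical
  obtain ⟨J', bt, hJ⟩ := fr_p hF hσ e
  choose g hg1 hg2 hg3 using hQ
  have hnm : ∀ g, nmm (rho e σ J (φ g)) = L.nm g := fun g => by rw [nmm_rho, hL.nm]
  haveI : IsTopologicalGroup E := hB.adm.tg
  refine ⟨J', bt, fun x => ι (g x.1 x.2),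
    fun i t j => ⟨((g i.1 i.2) * b ^ t * (g i.1 i.2)⁻¹)⁻¹ • j.1, hg2 _ i.2 t _ j.2⟩, ?_⟩
  have hpcov : ∀ (x : S) v f, π (ι x) * U v f = U (x • v) f * π (ι x) := by
    intro x v f
    rw [← hU.pcov x v f, mul_assoc, pi_inv_mul, mul_one]
  constructor
  case frm => exact hJ
  case ind =>
    exact ((pt_cont e).isClosedEmbedding (pt_inj e)).isInducing
  case iso0 =>
    intro y
    have h1 : Col y y := y.sing
    rw [col_pt e] at h1
    change hf σ (Je e J) (nv (pt e y)) (nv (pt e y)) = 0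
    unfold nv
    rw [H714.Cl.hf_smul_left, H714.Cl.hf_smul_right, h1, mul_zero, mul_zero]
  case hT =>
    intro γ y
    change pt e (q γ • y) = _
    rw [hL.act]
    exact pt_smul e (φ (q γ)) y
  case pic =>
    exact ⟨hB.pic.adjP, hB.pic.adjL, hB.pic.comm, hB.pic.Wadj, hB.pic.WP, hB.pic.WL,
      hB.pic.tr_adj⟩
  case ms => exact hB.ms
  case uc => exact hB.uc
  case orb => exact horb
  case nc =>
    have h1 : Continuous fun s => ι (nn s) := hB.adm.cι.comp hnc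
    have h2 := h1.tendsto 0
    rwa [hn0, map_one] at h2
  case sub =>
    intro γ
    obtain ⟨C, hC, hmul⟩ := hG.nm_mul
    refine ⟨max 1 (C * L.nm (q γ)), le_max_left _ _, fun y => ?_⟩
    rw [hnm, hnm]
    obtain ⟨z, hz, e1⟩ := hB.ph γ y
    rw [e1, hG.z_nm z hz]
    calc L.nm (q γ * q y) ≤ C * (L.nm (q γ) * L.nm (q y)) := hmul _ _
      _ = (C * L.nm (q γ)) * L.nm (q y) := by ring
      _ ≤ _ := mul_le_mul_of_nonneg_right (le_max_right _ _) (hG.nm_pos _).le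
  case nw =>
    intro R
    obtain ⟨R', hR', h1⟩ := nw_p e hJ R
    refine ⟨R', hR', fun η hη => ?_⟩
    obtain ⟨t, ht, h2⟩ := h1 η hη
    exact ⟨t, ht, fun A γ hγ => h2 A (φ (q γ)) (hL.nw _ _ _ _ hγ) (hL.att _ _ _ _ hγ)⟩
  case ud =>
    intro C
    obtain ⟨Mc, hMc⟩ := hB.ud (max C 0)
    refine ⟨Mc, fun S' hS => hMc S' fun γ hγ γ' hγ' => ?_⟩
    rw [← hnm]
    have e2 : rho e σ J (φ (q γ' * (q γ)⁻¹)) = rho e σ J (φ (q γ')) * (rho e σ J (φ (q γ)))⁻¹ := by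
      rw [map_mul, map_mul, map_inv, map_inv]
    rw [e2]
    unfold nmm
    refine (pi_norm_le_iff_of_nonneg (le_max_right _ _)).2 fun i => ?_
    refine (pi_norm_le_iff_of_nonneg (le_max_right _ _)).2 fun j => ?_
    have h1 := hS γ hγ γ' hγ' (((rho e σ J (φ (q γ)))⁻¹).1 *ᵥ Pi.single j 1)
    have e1 : (rho e σ J (φ (q γ))).1 * ((rho e σ J (φ (q γ)))⁻¹).1 = 1 :=
      congrArg Subtype.val (mul_inv_cancel (rho e σ J (φ (q γ))))
    rw [Matrix.mulVec_mulVec, Matrix.mulVec_mulVec, e1, Matrix.one_mulVec] at h1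
    have h2 : ‖(Pi.single j (1 : k) : Fin (N + 1) → k)‖ ≤ 1 := G3.norm_single_le j
    have h3 : ((rho e σ J (φ (q γ'))).1 * ((rho e σ J (φ (q γ)))⁻¹).1) *ᵥ Pi.single j 1 =
        fun i => ((rho e σ J (φ (q γ'))).1 * ((rho e σ J (φ (q γ)))⁻¹).1) i j := by
      rw [Matrix.mulVec_single_one]
      rfl
    rw [h3] at h1
    have h4 : ‖(rho e σ J (φ (q γ')) * (rho e σ J (φ (q γ)))⁻¹).1 i j‖ ≤
        C * ‖(Pi.single j (1 : k) : Fin (N + 1) → k)‖ :=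
      (norm_le_pi_norm
        (fun i => ((rho e σ J (φ (q γ'))).1 * ((rho e σ J (φ (q γ)))⁻¹).1) i j) i).trans h1
    refine h4.trans ?_
    calc C * ‖(Pi.single j (1 : k) : Fin (N + 1) → k)‖
        ≤ max C 0 * ‖(Pi.single j (1 : k) : Fin (N + 1) → k)‖ :=
          mul_le_mul_of_nonneg_right (le_max_left _ _) (norm_nonneg _)
      _ ≤ max C 0 * 1 := mul_le_mul_of_nonneg_left h2 (le_max_right _ _)
      _ = max C 0 := mul_one _
  case size =>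
    simp only [hnm]
    exact hsize
  case cm => exact fun j f => hU.cm j.1 f
  case str => exact fun j f => ((hU.ul j.1).star f).symm
  case cov =>
    intro γ j f
    have h1 := hU.cov γ j.1 (f.comp (Tq q γ))
    have e1 : CL.act (q γ) (f.comp (Tq q γ)) = f := by
      refine ContinuousMap.ext fun y => ?_
      change f (q γ • (q γ)⁻¹ • y) = f y
      rw [smul_inv_smul]
    rw [e1] at h1
    have e2 : lam γ⁻¹ * lam γ = 1 := by rw [← map_mul, inv_mul_cancel, map_one]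
    change U j.1 f * lam γ = lam γ * U j.1 (f.comp (Tq q γ))
    rw [← h1, mul_assoc, e2, mul_one]
  case bes => exact fun j => bes_of_ul (hU.ul j.1) le_rfl
  case mov =>
    intro i t j f
    rw [hh_iota, ← map_inv ι]
    have h1 := hU.pcov (g i.1 i.2 * b ^ t * (g i.1 i.2)⁻¹)⁻¹ j.1 f
    rw [← map_inv ι] at h1
    exact h1
  case fix =>
    intro i j f s
    have e1 : ι (g i.1 i.2) * ι (nn s) * (ι (g i.1 i.2))⁻¹ =
        ι (g i.1 i.2 * nn s * (g i.1 i.2)⁻¹) := by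
      rw [map_mul, map_mul, map_inv]
    rw [e1]
    have h1 := hpcov (g i.1 i.2 * nn s * (g i.1 i.2)⁻¹) j.1 f
    rw [hg3 i.1 i.2 s j.1 j.2] at h1
    exact h1.symm
  case dom =>
    intro i u A hA hu ζ δ hδ
    obtain ⟨R, hR⟩ := hU.dom (g i.1 i.2) u A hA hu ζ δ hδ
    refine ⟨R, fun t ht => ?_⟩
    have h1 := (hR t ht).frequently.filter_mono hB.h𝒰
    refine h1.mono fun N hN => ?_
    rw [hg1 i.1 i.2] at hN
    rw [hh_iota, map_inv]
    exact hN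

/-- **The word lemma in the letters of `CL/Defs`.** -/
theorem word_cl [ProperSpace V] [BorelSpace V] [IsFiniteMeasureOnCompacts μ] [μ.IsOpenPosMeasure]
    (hF : FrH σ ε J) (hσ : ∀ x, ‖σ x‖ = ‖x‖) (e : n ≃ Fin (N + 1))
    (hL : LtOk φ L) (hG : Geo L) (hB : PB L 𝒰 ι π lam W Ω m q)
    (hU : UFam 𝒰 b v0 ι π lam W m q (L.na1 q) U 1) (horb : ORB μ ι π lam W Ω b nn)
    (hsize : SIZEG (ι b) π Ω m fun γ => L.nm (q γ)) (hnc : Continuous nn) (hn0 : nn 0 = 1)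
    (hQ : ∀ x, Q x → ∃ g : S, g • v0 = x ∧
      (∀ (t : ℕ) y, Q y → Q ((g * b ^ t * g⁻¹)⁻¹ • y)) ∧
      ∀ s y, Q y → (g * nn s * g⁻¹) • y = y)
    {T : K →L[ℂ] K} (hT : T ∈ Submonoid.closure {T | ∃ x f, Q x ∧ T = U x f}) {x x' : X}
    (hx : Q x) (hx' : Q x') (u h : C(SGr σ J 1, ℂ))
    (hO : ∀ a ∈ tsupport u, ∀ c ∈ tsupport h, ¬ Col a c) : U x u * T * U x' h = 0 := by
  haveI : Nonempty (SGr σ J 1) := ⟨L.p0⟩
  obtain ⟨J', bt, g, tr, hWG⟩ := exists_wg hF hσ e hL hG hB hU horb hsize hnc hn0 hQ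
  haveI : IsTopologicalGroup E := hB.adm.tg
  have hT' : T ∈ Submonoid.closure {T | ∃ (j : {x // Q x}) (f : C(SGr σ J 1, ℂ)),
      T = (fun x : {x // Q x} => U x.1) j f} := by
    refine Submonoid.closure_mono ?_ hT
    rintro _ ⟨x, f, hx, rfl⟩
    exact ⟨⟨x, hx⟩, f, rfl⟩
  refine hWG.w0 (μ := μ) hT' ⟨x, hx⟩ ⟨x', hx'⟩ u h fun a ha c hc => ?_
  have h1 := hO a ha c hc
  rw [col_pt e] at h1
  change hf σ (Je e J) (nv (pt e a)) (nv (pt e c)) ≠ 0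
  unfold nv
  rw [H714.Cl.hf_smul_left, H714.Cl.hf_smul_right]
  refine mul_ne_zero (inv_ne_zero (pv_ne _)) (mul_ne_zero ?_ h1)
  rw [ne_eq, map_eq_zero]
  exact inv_ne_zero (pv_ne _)

/-! ### The two instances -/

/-- **(w0s)**: the letters `U11 x`, `x` a point of the maximal subspace `X`; wall `b1`, root group
`u1` (it fixes every point of `m0`). -/
theorem w0s [ProperSpace V₁] [BorelSpace V₁] [IsFiniteMeasureOnCompacts L.μ₁]
    [L.μ₁.IsOpenPosMeasure] (hF : FrH σ ε J) (hσ : ∀ x, ‖σ x‖ = ‖x‖) (e : n ≃ Fin (N + 1))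
    (hL : LtOk φ L) (hG : Geo L) (hu1 : ∀ s x, L.In x L.m0 → L.u1 s • x = x)
    (hB : PB L 𝒰 ι π lam W Ω m q) {U11 : SGr σ J 1 → (C(SGr σ J 1, ℂ) →ₗ[ℂ] (K →L[ℂ] K))}
    (hU : UFam 𝒰 L.b1 L.p0 ι π lam W m q (L.na1 q) U11 1) (X : M)
    {T : K →L[ℂ] K} (hT : T ∈ Submonoid.closure {T | ∃ x f, L.In x X ∧ T = U11 x f})
    {x x' : SGr σ J 1} (hx : L.In x X) (hx' : L.In x' X) (u h : C(SGr σ J 1, ℂ))
    (hO : ∀ a ∈ tsupport u, ∀ c ∈ tsupport h, ¬ Col a c) : U11 x u * T * U11 x' h = 0 := by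
  refine word_cl (Q := fun x => L.In x X) hF hσ e hL hG hB hU hB.orb1 hB.size1 hG.u1c hG.u10
    (fun x hx => ?_) hT hx hx' u h hO
  obtain ⟨g, hg1, hg2⟩ := hG.flag x X hx
  have hb : ∀ t : ℕ, (g * L.b1 ^ t * g⁻¹)⁻¹ • X = X := by
    intro t
    have h1 : L.b1 ^ t • L.m0 = L.m0 := by
      induction t with
      | zero => rw [pow_zero, one_smul]
      | succ t ih => rw [pow_succ, mul_smul, hG.b1m, ih]
    rw [inv_smul_eq_iff, ← hg2, mul_smul, inv_smul_smul, mul_smul, h1]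
  refine ⟨g, hg1, fun t y hy => ?_, fun s y hy => ?_⟩
  · rw [← hb t]
    exact (hG.in_smul _ _ _).2 hy
  · have h1 : L.In (g⁻¹ • y) L.m0 := by
      have h2 : L.In (g⁻¹ • y) (g⁻¹ • X) := (hG.in_smul _ _ _).2 hy
      rwa [← hg2, inv_smul_smul] at h2
    rw [mul_smul, mul_smul, hu1 s _ h1, smul_inv_smul]

/-- **(w0f)**: the letters `U21 w`, `w` a maximal subspace through the point `c`, values = points;
wall `b2`, root group `u2` (it fixes every maximal subspace through the point `p1` of `m0`). -/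
theorem w0f [ProperSpace V₂] [BorelSpace V₂] [IsFiniteMeasureOnCompacts L.μ₂]
    [L.μ₂.IsOpenPosMeasure] (hF : FrH σ ε J) (hσ : ∀ x, ‖σ x‖ = ‖x‖) (e : n ≃ Fin (N + 1))
    (hL : LtOk φ L) (hG : Geo L) {p1 : SGr σ J 1} (hp1 : L.In p1 L.m0) (hb2 : L.b2 • p1 = p1)
    (hu2 : ∀ s w, L.In p1 w → L.u2 s • w = w)
    (hB : PB L 𝒰 ι π lam W Ω m q) {U21 : M → (C(SGr σ J 1, ℂ) →ₗ[ℂ] (K →L[ℂ] K))}
    (hU : UFam 𝒰 L.b2 L.m0 ι π lam W m q (L.na1 q) U21 1) (c : SGr σ J 1)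
    {T : K →L[ℂ] K} (hT : T ∈ Submonoid.closure {T | ∃ w f, L.In c w ∧ T = U21 w f})
    {w w' : M} (hw : L.In c w) (hw' : L.In c w') (u h : C(SGr σ J 1, ℂ))
    (hO : ∀ a ∈ tsupport u, ∀ c ∈ tsupport h, ¬ Col a c) : U21 w u * T * U21 w' h = 0 := by
  refine word_cl (Q := fun w => L.In c w) hF hσ e hL hG hB hU hB.orb2 hB.size2 hG.u2c hG.u20
    (fun w hw => ?_) hT hw hw' u h hO
  obtain ⟨g₀, hg1, hg2⟩ := hG.flag c w hw
  obtain ⟨g₁, hg3, hg4⟩ := hG.flag p1 L.m0 hp1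
  obtain ⟨g, hg⟩ : ∃ g, g = g₀ * g₁⁻¹ := ⟨_, rfl⟩
  have e1 : g • p1 = c := by
    rw [hg, mul_smul, inv_smul_eq_iff.2 hg3.symm, hg1]
  have e2 : g • L.m0 = w := by
    rw [hg, mul_smul, inv_smul_eq_iff.2 hg4.symm, hg2]
  have hb : ∀ t : ℕ, (g * L.b2 ^ t * g⁻¹)⁻¹ • c = c := by
    intro t
    have h1 : L.b2 ^ t • p1 = p1 := by
      induction t with
      | zero => rw [pow_zero, one_smul]
      | succ t ih => rw [pow_succ, mul_smul, hb2, ih]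
    rw [inv_smul_eq_iff, ← e1, mul_smul, inv_smul_smul, mul_smul, h1]
  refine ⟨g, e2, fun t y hy => ?_, fun s y hy => ?_⟩
  · have h1 := (hG.in_smul (g * L.b2 ^ t * g⁻¹)⁻¹ c y).2 hy
    rwa [hb t] at h1
  · have h1 : L.In p1 (g⁻¹ • y) := by
      have h2 : L.In (g⁻¹ • c) (g⁻¹ • y) := (hG.in_smul _ _ _).2 hy
      rwa [← e1, inv_smul_smul] at h2
    rw [mul_smul, mul_smul, hu2 s _ h1, smul_inv_smul]

end

end Vale.Agent.P092.H145.GP
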