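import Mathlib.Analysis.InnerProductSpace.Adjoint
import Mathlib.Topology.ContinuousMap.Star
import Mathlib.Topology.ContinuousMap.Compact
import Mathlib.Algebra.Order.Chebyshev

/-!
P092 (helper145), team P, row [P2-WL]: the abstract count of words in completely positive letters.
-/

set_option linter.all false

open scoped InnerProductSpace

namespace Vale.Agent.P092.H145.WL

variable {Y K : Type*} [TopologicalSpace Y] [NormedAddCommGroup K] [InnerProductSpace ℂ K]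

/-- the inequality of Bessel / Kadison, with an upper bound for the sum of squares -/
def Bes (E : C(Y, ℂ) → (K →L[ℂ] K)) : Prop :=
  ∀ (n : ℕ) (v : Fin n → C(Y, ℂ)) (M : ℝ), (∀ y, ∑ i, ‖v i y‖ ^ 2 ≤ M) → ∀ ξ : K,
    ∑ i, ‖E (v i) ξ‖ ^ 2 ≤ M * ‖ξ‖ ^ 2

theorem Bes.fin {E : C(Y, ℂ) → (K →L[ℂ] K)} (h : Bes E) {ι : Type*} (S : Finset ι)
    (v : ι → C(Y, ℂ)) {M : ℝ} (hM : ∀ y, ∑ i ∈ S, ‖v i y‖ ^ 2 ≤ M) (ξ : K) :
    ∑ i ∈ S, ‖E (v i) ξ‖ ^ 2 ≤ M * ‖ξ‖ ^ 2 := by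
  have e := S.equivFin
  have key : ∀ F : ι → ℝ, ∑ i ∈ S, F i = ∑ n : Fin S.card, F (e.symm n).1 := by
    intro F
    rw [← Finset.sum_coe_sort S F]
    exact (Equiv.sum_comp e.symm fun x : S => F x.1).symm
  rw [key]
  refine h S.card (fun n => v (e.symm n).1) M (fun y => ?_) ξ
  have := hM y
  rwa [key] at this

theorem Bes.one {E : C(Y, ℂ) → (K →L[ℂ] K)} (h : Bes E) (v : C(Y, ℂ)) {M : ℝ}
    (hM : ∀ y, ‖v y‖ ^ 2 ≤ M) (ξ : K) : ‖E v ξ‖ ^ 2 ≤ M * ‖ξ‖ ^ 2 := by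
  have := h.fin (Finset.univ : Finset Unit) (fun _ => v) (M := M) (by simpa using hM) ξ
  simpa using this

/-- a letter of a word: a calculus, functions indexed by `Γ`, the relation of being in the same cell -/
structure Lt (Y K Γ : Type*) [TopologicalSpace Y] [NormedAddCommGroup K]
    [InnerProductSpace ℂ K] where
  E : C(Y, ℂ) → (K →L[ℂ] K)
  G : Γ → C(Y, ℂ)
  r : Γ → Γ → Prop

variable {Γ : Type*}

/-- the word -/
noncomputable def wd : List (Lt Y K Γ) → Γ → (K →L[ℂ] K)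
  | [], _ => 1
  | l :: L, γ => l.E (l.G γ) * wd L γ

/-- a letter of capacity `M` -/
structure Ok (M : ℝ) (l : Lt Y K Γ) : Prop where
  bes : Bes l.E
  eqv : Equivalence l.r
  cst : ∀ γ γ', l.r γ γ' → l.G γ = l.G γ'
  cap : ∀ S : Finset Γ, (∀ γ ∈ S, ∀ γ' ∈ S, l.r γ γ' → γ = γ') → ∀ y,
    ∑ γ ∈ S, ‖l.G γ y‖ ^ 2 ≤ M

theorem wd_cst {M : ℝ} {L : List (Lt Y K Γ)} (hL : ∀ l ∈ L, Ok M l) {γ γ' : Γ}
    (h : ∀ l ∈ L, l.r γ γ') : wd L γ = wd L γ' := by
  induction L with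
  | nil => rfl
  | cons l L ih =>
    have h1 := (hL l List.mem_cons_self).cst γ γ' (h l List.mem_cons_self)
    have h2 := ih (fun l' hl' => hL l' (List.mem_cons_of_mem _ hl'))
      (fun l' hl' => h l' (List.mem_cons_of_mem _ hl'))
    change l.E (l.G γ) * wd L γ = l.E (l.G γ') * wd L γ'
    rw [h1, h2]

/-- **The abstract count.** -/
theorem count {M : ℝ} (hM : 0 ≤ M) : ∀ (L : List (Lt Y K Γ)), (∀ l ∈ L, Ok M l) →
    (∀ l ∈ L, ∀ l' ∈ L, (∀ γ γ', l.r γ γ' → l'.r γ γ') ∨ (∀ γ γ', l'.r γ γ' → l.r γ γ')) →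
    ∀ (S : Finset Γ), (∀ γ ∈ S, ∀ γ' ∈ S, (∀ l ∈ L, l.r γ γ') → γ = γ') → ∀ η : K,
    ∑ γ ∈ S, ‖wd L γ η‖ ^ 2 ≤ M ^ L.length * ‖η‖ ^ 2 := by
  classical
  intro L
  induction L with
  | nil =>
    intro _ _ S hS η
    have h1 : S.card ≤ 1 := by
      rw [Finset.card_le_one]
      intro a ha b hb
      exact hS a ha b hb (fun l hl => by simp at hl)
    change ∑ γ ∈ S, ‖(1 : K →L[ℂ] K) η‖ ^ 2 ≤ _
    rw [Finset.sum_const, nsmul_eq_mul]
    have h2 : (S.card : ℝ) ≤ 1 := by exact_mod_cast h1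
    simp only [List.length_nil, pow_zero, one_mul, ContinuousLinearMap.one_apply]
    nlinarith [sq_nonneg ‖η‖]
  | cons l L ih =>
    intro hL hc S hS η
    have hl := hL l List.mem_cons_self
    have hL' : ∀ l' ∈ L, Ok M l' := fun l' hl' => hL l' (List.mem_cons_of_mem _ hl')
    have hc' : ∀ l' ∈ L, ∀ l'' ∈ L,
        (∀ γ γ', l'.r γ γ' → l''.r γ γ') ∨ (∀ γ γ', l''.r γ γ' → l'.r γ γ') :=
      fun l' h1 l'' h2 => hc l' (List.mem_cons_of_mem _ h1) l'' (List.mem_cons_of_mem _ h2)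
    by_cases hB : ∃ l' ∈ L, ∀ γ γ', l'.r γ γ' → l.r γ γ'
    · obtain ⟨l', hl', hf⟩ := hB
      have hS' : ∀ γ ∈ S, ∀ γ' ∈ S, (∀ l ∈ L, l.r γ γ') → γ = γ' := by
        intro γ hγ γ' hγ' h
        refine hS γ hγ γ' hγ' fun l'' hl'' => ?_
        rcases List.mem_cons.1 hl'' with rfl | h2
        · exact hf _ _ (h l' hl')
        · exact h l'' h2
      have h1 : ∀ γ, ‖wd (l :: L) γ η‖ ^ 2 ≤ M * ‖wd L γ η‖ ^ 2 := by
        intro γ
        change ‖l.E (l.G γ) (wd L γ η)‖ ^ 2 ≤ _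
        refine hl.bes.one _ (fun y => ?_) _
        have := hl.cap {γ} (by
          intro a ha b hb _
          rw [Finset.mem_singleton.1 ha, Finset.mem_singleton.1 hb]) y
        simpa using this
      calc ∑ γ ∈ S, ‖wd (l :: L) γ η‖ ^ 2 ≤ ∑ γ ∈ S, M * ‖wd L γ η‖ ^ 2 :=
            Finset.sum_le_sum fun γ _ => h1 γ
        _ = M * ∑ γ ∈ S, ‖wd L γ η‖ ^ 2 := by rw [Finset.mul_sum]
        _ ≤ M * (M ^ L.length * ‖η‖ ^ 2) :=
            mul_le_mul_of_nonneg_left (ih hL' hc' S hS' η) hM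
        _ = M ^ (l :: L).length * ‖η‖ ^ 2 := by
            rw [List.length_cons, pow_succ]
            ring
    · have hA : ∀ l' ∈ L, ∀ γ γ', l.r γ γ' → l'.r γ γ' := by
        intro l' hl'
        rcases hc l List.mem_cons_self l' (List.mem_cons_of_mem _ hl') with h | h
        · exact h
        · exact absurd ⟨l', hl', h⟩ hB
      -- the joint relation of the other letters
      let st : Setoid Γ :=
        { r := fun γ γ' => ∀ l' ∈ L, l'.r γ γ'
          iseqv :=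
            { refl := fun γ l' hl' => (hL' l' hl').eqv.refl γ
              symm := fun h l' hl' => (hL' l' hl').eqv.symm (h l' hl')
              trans := fun h h' l' hl' => (hL' l' hl').eqv.trans (h l' hl') (h' l' hl') } }
      let ρ : Γ → Γ := fun γ => (Quotient.mk st γ).out
      have hρ : ∀ γ, ∀ l' ∈ L, l'.r (ρ γ) γ := by
        intro γ
        have h : Quotient.mk st (Quotient.mk st γ).out = Quotient.mk st γ := Quotient.out_eq _
        exact (Quotient.exact h : st.r _ _)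
      have hρ2 : ∀ γ γ', (∀ l' ∈ L, l'.r γ γ') → ρ γ = ρ γ' := by
        intro γ γ' h
        change (Quotient.mk st γ).out = (Quotient.mk st γ').out
        rw [Quotient.sound (s := st) (show st.r γ γ' from h)]
      have hinj : ∀ γ ∈ S, ∀ γ' ∈ S, l.r γ γ' → γ = γ' := by
        intro γ hγ γ' hγ' h
        refine hS γ hγ γ' hγ' fun l'' hl'' => ?_
        rcases List.mem_cons.1 hl'' with rfl | h2
        · exact h
        · exact hA l'' h2 _ _ h
      have h1 : ∀ γ, wd L γ = wd L (ρ γ) := fun γ =>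
        (wd_cst hL' (hρ γ)).symm
      have h2 : ∑ γ ∈ S, ‖wd (l :: L) γ η‖ ^ 2 =
          ∑ V ∈ S.image ρ, ∑ γ ∈ S.filter (fun γ => ρ γ = V), ‖wd (l :: L) γ η‖ ^ 2 :=
        (Finset.sum_fiberwise_of_maps_to (fun γ hγ => Finset.mem_image_of_mem ρ hγ) _).symm
      rw [h2]
      have h3 : ∀ V ∈ S.image ρ, ∑ γ ∈ S.filter (fun γ => ρ γ = V), ‖wd (l :: L) γ η‖ ^ 2 ≤
          M * ‖wd L V η‖ ^ 2 := by
        intro V _
        have e1 : ∑ γ ∈ S.filter (fun γ => ρ γ = V), ‖wd (l :: L) γ η‖ ^ 2 =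
            ∑ γ ∈ S.filter (fun γ => ρ γ = V), ‖l.E (l.G γ) (wd L V η)‖ ^ 2 := by
          refine Finset.sum_congr rfl fun γ hγ => ?_
          have e2 := (Finset.mem_filter.1 hγ).2
          change ‖l.E (l.G γ) (wd L γ η)‖ ^ 2 = _
          rw [h1 γ, e2]
        rw [e1]
        refine hl.bes.fin _ _ (fun y => hl.cap _ ?_ y) _
        intro γ hγ γ' hγ' h
        exact hinj γ (Finset.mem_filter.1 hγ).1 γ' (Finset.mem_filter.1 hγ').1 h
      refine (Finset.sum_le_sum h3).trans ?_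
      rw [← Finset.mul_sum]
      have h4 := ih hL' hc' (S.image ρ) (by
        intro V hV V' hV' h
        obtain ⟨γ, _, rfl⟩ := Finset.mem_image.1 hV
        obtain ⟨γ', _, rfl⟩ := Finset.mem_image.1 hV'
        have h5 : ρ (ρ γ) = ρ (ρ γ') := hρ2 _ _ h
        have h6 : ∀ γ, ρ (ρ γ) = ρ γ := fun γ => hρ2 _ _ (hρ γ)
        rwa [h6, h6] at h5) η
      calc M * ∑ V ∈ S.image ρ, ‖wd L V η‖ ^ 2 ≤ M * (M ^ L.length * ‖η‖ ^ 2) :=
            mul_le_mul_of_nonneg_left h4 hM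
        _ = M ^ (l :: L).length * ‖η‖ ^ 2 := by
            rw [List.length_cons, pow_succ]
            ring

theorem wd_append (L L' : List (Lt Y K Γ)) (γ : Γ) : wd (L ++ L') γ = wd L γ * wd L' γ := by
  induction L with
  | nil => exact (one_mul _).symm
  | cons l L ih =>
    change l.E (l.G γ) * wd (L ++ L') γ = l.E (l.G γ) * wd L γ * wd L' γ
    rw [ih, mul_assoc]

/-- a letter to be expanded: `H γ = ∑ z α γ • G α γ + rest` -/
structure Hl (Y K Γ A : Type*) [TopologicalSpace Y] [NormedAddCommGroup K]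
    [InnerProductSpace ℂ K] where
  E : C(Y, ℂ) →ₗ[ℂ] (K →L[ℂ] K)
  H : Γ → C(Y, ℂ)
  z : A → Γ → ℂ
  G : A → Γ → C(Y, ℂ)
  r : A → Γ → Γ → Prop

/-- one piece of the expansion -/
noncomputable def Hl.pc {A : Type*} (h : Hl Y K Γ A) (α : A) : Lt Y K Γ := ⟨fun f => h.E f, h.G α, h.r α⟩

/-- the word before the expansion -/
noncomputable def wh {A : Type*} : List (Hl Y K Γ A) → Γ → (K →L[ℂ] K)
  | [], _ => 1
  | l :: L, γ => l.E (l.H γ) * wh L γ

theorem sq_sum_le {A : Type*} [Fintype A] (x : A → K) :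
    ‖∑ α, x α‖ ^ 2 ≤ Fintype.card A * ∑ α, ‖x α‖ ^ 2 := by
  have h1 : ‖∑ α, x α‖ ≤ ∑ α, ‖x α‖ := norm_sum_le _ _
  have h2 : (∑ α, ‖x α‖) ^ 2 ≤ Fintype.card A * ∑ α, ‖x α‖ ^ 2 :=
    sq_sum_le_card_mul_sum_sq (s := (Finset.univ : Finset A)) (f := fun α => ‖x α‖)
  calc ‖∑ α, x α‖ ^ 2 ≤ (∑ α, ‖x α‖) ^ 2 := pow_le_pow_left₀ (norm_nonneg _) h1 2
    _ ≤ _ := h2

/-- **The expanded count.** -/
theorem expand {A : Type*} [Fintype A] {M Z : ℝ} (hM : 0 ≤ M) (hZ : 0 ≤ Z)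
    (P : Lt Y K Γ → Prop) (hP : ∀ l, P l → Ok M l)
    (hPc : ∀ l, P l → ∀ l', P l' → (∀ γ γ', l.r γ γ' → l'.r γ γ') ∨ (∀ γ γ', l'.r γ γ' → l.r γ γ'))
    (l0 : Lt Y K Γ) (h0 : P l0) (h0r : ∀ γ γ', l0.r γ γ' → γ = γ') (n : ℕ) :
    ∀ (rest : List (Hl Y K Γ A)) (pre : List (Lt Y K Γ)), pre.length + rest.length = n →
      (∀ l ∈ pre, P l) →
      (∀ h ∈ rest, (∀ α, P (h.pc α)) ∧ (∀ α γ, ‖h.z α γ‖ ≤ Z) ∧
        ∀ pre' : List (Lt Y K Γ), (∀ l ∈ pre', P l) → pre'.length < n → ∀ γ,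
          wd (l0 :: pre') γ * h.E (h.H γ - ∑ α, h.z α γ • h.G α γ) = 0) →
      ∀ (S : Finset Γ) (η : K), ∑ γ ∈ S, ‖(wd (l0 :: pre) γ * wh rest γ) η‖ ^ 2 ≤
        ((Fintype.card A : ℝ) ^ 2 * Z ^ 2) ^ rest.length * M ^ (n + 1) * ‖η‖ ^ 2 := by
  classical
  intro rest
  induction rest with
  | nil =>
    intro pre hn hpre _ S η
    have e0 : pre.length = n := by simpa using hn
    have h1 := count hM (l0 :: pre) (fun l hl => by
      rcases List.mem_cons.1 hl with rfl | h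
      · exact hP _ h0
      · exact hP _ (hpre l h)) (fun l hl l' hl' => by
      refine hPc l ?_ l' ?_
      · rcases List.mem_cons.1 hl with rfl | h
        · exact h0
        · exact hpre l h
      · rcases List.mem_cons.1 hl' with rfl | h
        · exact h0
        · exact hpre l' h) S (fun γ _ γ' _ h => h0r _ _ (h l0 List.mem_cons_self)) η
    have e1 : ∀ γ, (wd (l0 :: pre) γ * wh ([] : List (Hl Y K Γ A)) γ) η = wd (l0 :: pre) γ η := by
      intro γ
      rfl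
    simp only [e1]
    rw [List.length_cons, e0] at h1
    simpa using h1
  | cons h rest ih =>
    intro pre hn hpre hr S η
    obtain ⟨hp, hz, hk⟩ := hr h List.mem_cons_self
    have hn' : ∀ α, (pre ++ [h.pc α]).length + rest.length = n := by
      intro α
      rw [List.length_append, List.length_singleton]
      rw [List.length_cons] at hn
      omega
    have hlt : pre.length < n := by
      rw [List.length_cons] at hn
      omega
    have e1 : ∀ γ, wd (l0 :: pre) γ * h.E (h.H γ) =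
        ∑ α, h.z α γ • wd (l0 :: (pre ++ [h.pc α])) γ := by
      intro γ
      have h1 := hk pre hpre hlt γ
      rw [map_sub, mul_sub, sub_eq_zero] at h1
      rw [h1, map_sum, Finset.mul_sum]
      refine Finset.sum_congr rfl fun α _ => ?_
      have e2 : wd (l0 :: (pre ++ [h.pc α])) γ = wd (l0 :: pre) γ * h.E (h.G α γ) := by
        rw [← List.cons_append, wd_append]
        congr 1
      rw [e2, map_smul, mul_smul_comm]
    have e3 : ∀ γ, (wd (l0 :: pre) γ * wh (h :: rest) γ) η =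
        ∑ α, h.z α γ • (wd (l0 :: (pre ++ [h.pc α])) γ * wh rest γ) η := by
      intro γ
      change (wd (l0 :: pre) γ * (h.E (h.H γ) * wh rest γ)) η = _
      rw [← mul_assoc, e1, Finset.sum_mul]
      rw [ContinuousLinearMap.sum_apply]
      refine Finset.sum_congr rfl fun α _ => ?_
      rw [smul_mul_assoc]
      rfl
    have h4 : ∀ γ, ‖(wd (l0 :: pre) γ * wh (h :: rest) γ) η‖ ^ 2 ≤
        Fintype.card A * Z ^ 2 * ∑ α, ‖(wd (l0 :: (pre ++ [h.pc α])) γ * wh rest γ) η‖ ^ 2 := by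
      intro γ
      rw [e3]
      refine (sq_sum_le _).trans ?_
      rw [mul_assoc, Finset.mul_sum (a := Z ^ 2)]
      refine mul_le_mul_of_nonneg_left (Finset.sum_le_sum fun α _ => ?_) (Nat.cast_nonneg _)
      rw [norm_smul, mul_pow]
      exact mul_le_mul_of_nonneg_right (pow_le_pow_left₀ (norm_nonneg _) (hz α γ) 2) (sq_nonneg _)
    refine (Finset.sum_le_sum fun γ _ => h4 γ).trans ?_
    rw [← Finset.mul_sum, Finset.sum_comm]
    have h5 : ∀ α : A, ∑ γ ∈ S, ‖(wd (l0 :: (pre ++ [h.pc α])) γ * wh rest γ) η‖ ^ 2 ≤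
        ((Fintype.card A : ℝ) ^ 2 * Z ^ 2) ^ rest.length * M ^ (n + 1) * ‖η‖ ^ 2 := by
      intro α
      refine ih (pre ++ [h.pc α]) (hn' α) (fun l hl => ?_)
        (fun h' hh' => hr h' (List.mem_cons_of_mem _ hh')) S η
      rcases List.mem_append.1 hl with h6 | h6
      · exact hpre l h6
      · rw [List.mem_singleton.1 h6]
        exact hp α
    have h7 : ∑ α : A, ∑ γ ∈ S, ‖(wd (l0 :: (pre ++ [h.pc α])) γ * wh rest γ) η‖ ^ 2 ≤
        Fintype.card A * (((Fintype.card A : ℝ) ^ 2 * Z ^ 2) ^ rest.length * M ^ (n + 1) *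
          ‖η‖ ^ 2) := by
      refine (Finset.sum_le_sum fun α _ => h5 α).trans ?_
      rw [Finset.sum_const, nsmul_eq_mul]
      exact le_rfl
    refine (mul_le_mul_of_nonneg_left h7 (by positivity)).trans (le_of_eq ?_)
    rw [List.length_cons, pow_succ]
    ring

end Vale.Agent.P092.H145.WL
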