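import Vale.Agent.P092.H145.WL9

/-!
P092 (helper145), team P, stage 2, row [P2-WL]: the word lemma for all continuous functions.
-/

set_option linter.all false

open scoped InnerProductSpace ENNReal LinearAlgebra.Projectivization Matrix
open Filter Topology ContinuousLinearMap MeasureTheory TopologicalSpace

namespace Vale.Agent.P092.H145

open Vale.Agent.P092.SD (Ms UC)
open Vale.Agent.P092.RC (Cm TRN Pic GG YY)
open Vale.Agent.P092.SN (CY nm PH UD Att act)
open Vale.Agent.P092.H790.CT (PicL lam_norm)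
open Vale.Agent.P092.H790.CTA (ORBG SIZEG csm)
open Vale.Agent.P092.H145.WL Vale.Agent.P092.H145.WL2 Vale.Agent.P092.H145.WL3
open Vale.Agent.P092.H145.WL4 Vale.Agent.P092.H145.WL5 Vale.Agent.P092.H145.WL6
open Vale.Agent.P092.H145.WL7 Vale.Agent.P092.H145.WL8

section dense

variable {k : Type*} [NontriviallyNormedField k] [IsUltrametricDist k] [ProperSpace k]
  {D : Type*} [Fintype D] [DecidableEq D] [Nonempty D] {J J' : Matrix D D k}

theorem uc_unif (f : C(ℙ k (D → k), ℂ)) {ε : ℝ} (hε : 0 < ε) :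
    ∃ ρ > 0, ∀ x y, dst x y ≤ ρ → ‖f x - f y‖ ≤ ε := by
  classical
  have h1 : ∀ x, ∃ ρ > 0, ∀ z, dst z x ≤ ρ → z ∈ f ⁻¹' (Metric.ball (f x) (ε / 2)) := fun x =>
    ball_sub x (Metric.isOpen_ball.preimage f.continuous) (Metric.mem_ball_self (half_pos hε))
  choose ρ hρ h2 using h1
  obtain ⟨t, ht⟩ := CompactSpace.elim_nhds_subcover (fun x : ℙ k (D → k) => {z | dst z x ≤ ρ x})
    (fun x => (um.clo x _ (hρ x)).isOpen.mem_nhds (by
      change dst x x ≤ ρ x
      rw [um.self]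
      exact (hρ x).le))
  have h3 : ∃ r > 0, ∀ x ∈ t, r ≤ ρ x := by
    rcases t.eq_empty_or_nonempty with rfl | hne
    · exact ⟨1, one_pos, fun x hx => by simp at hx⟩
    · obtain ⟨x0, _, h4⟩ := t.exists_min_image ρ hne
      exact ⟨ρ x0, hρ x0, h4⟩
  obtain ⟨r, hr, h4⟩ := h3
  refine ⟨r, hr, fun x y hxy => ?_⟩
  have hx : x ∈ ⋃ x ∈ t, {z | dst z x ≤ ρ x} := by
    rw [ht]
    trivial
  simp only [Set.mem_iUnion] at hx
  obtain ⟨a, ha, hxa⟩ := hx
  have hxa' : dst x a ≤ ρ a := hxa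
  have hya : dst y a ≤ ρ a := (um.ultra y x a).trans
    (max_le ((by rw [um.symm]; exact hxy : dst y x ≤ r).trans (h4 a ha)) hxa')
  have h5 := mem_ball_iff_norm.1 (h2 a x hxa')
  have h6 := mem_ball_iff_norm.1 (h2 a y hya)
  have e : f x - f y = (f x - f a) - (f y - f a) := by ring
  rw [e]
  refine (norm_sub_le _ _).trans ?_
  linarith

/-- locally constant functions are dense, with control of the supports -/
theorem lc_dense (f : C(ℙ k (D → k), ℂ)) {U : Set (ℙ k (D → k))}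
    (hU : IsLocallyConstant fun x => x ∈ U) (hf : ∀ x, f x ≠ 0 → x ∈ U) :
    f ∈ closure {f' : C(ℙ k (D → k), ℂ) | IsLocallyConstant f' ∧ ∀ x, f' x ≠ 0 → x ∈ U} := by
  haveI : Nonempty (ℙ k (D → k)) := by
    obtain ⟨i⟩ := ‹Nonempty D›
    exact ⟨Projectivization.mk k (Pi.single i 1) (by
      intro h
      have := congrFun h i
      simp at this)⟩
  rw [Metric.mem_closure_iff]
  intro ε hε
  obtain ⟨ρ, hρ, h1⟩ := uc_unif f (half_pos hε)
  have hlc : IsLocallyConstant fun y => f (pk (bl dst ρ y)) :=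
    (um.bl_lc hρ).comp fun S => f (pk S)
  let f' : C(ℙ k (D → k), ℂ) := (⟨_, hlc.continuous⟩ : C(ℙ k (D → k), ℂ)) * chc U hU
  have hv : ∀ y, f' y = f (pk (bl dst ρ y)) * chi U y := fun y => rfl
  refine ⟨f', ⟨hlc.comp₂ (chi_lc hU) fun a b => a * b, fun x hx => ?_⟩, ?_⟩
  · by_contra hc
    apply hx
    rw [hv, chi_of_not hc, mul_zero]
  · refine lt_of_le_of_lt ?_ (half_lt_self hε)
    rw [dist_eq_norm]
    refine (ContinuousMap.norm_le _ (half_pos hε).le).2 fun y => ?_
    change ‖f y - f' y‖ ≤ _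
    rw [hv]
    by_cases hy : y ∈ U
    · rw [chi_of_mem hy, mul_one]
      refine h1 _ _ ?_
      have h2 : pk (bl dst ρ y) ∈ bl dst ρ y := pk_mem ⟨y, by
        change dst y y ≤ ρ
        rw [um.self]
        exact hρ.le⟩
      rw [um.symm]
      exact h2
    · have h3 : f y = 0 := by
        by_contra hc
        exact hy (hf y hc)
      rw [chi_of_not hy, h3, mul_zero, sub_zero, norm_zero]
      exact (half_pos hε).le

/-- clopen neighbourhoods of a set -/
theorem nbhd_lc {ρ : ℝ} (hρ : 0 < ρ) (A : Set (ℙ k (D → k))) :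
    IsLocallyConstant fun x => x ∈ {x | ∃ a ∈ A, dst x a ≤ ρ} := by
  have h1 : (fun x => x ∈ {x | ∃ a ∈ A, dst x a ≤ ρ}) =
      fun x => ∃ a ∈ A, bl dst ρ x = bl dst ρ a := by
    funext x
    rw [eq_iff_iff]
    change (∃ a ∈ A, dst x a ≤ ρ) ↔ _
    simp only [um.bl_iff hρ.le]
  rw [h1]
  exact (um.bl_lc hρ).comp fun S => ∃ a ∈ A, S = bl dst ρ a

end dense

section main

variable {k : Type} [NontriviallyNormedField k] [IsUltrametricDist k] [ProperSpace k] {N : ℕ}
  {G Γ K V : Type} [Group G] [TopologicalSpace G] [Group Γ]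
  [NormedAddCommGroup K] [InnerProductSpace ℂ K] [CompleteSpace K] [NormedAddCommGroup V]
  [MeasurableSpace V] {μ : Measure V} {b : G} {n : V → G} {π : G →* (K →L[ℂ] K)}
  {lam : Γ →* (K →L[ℂ] K)} {W : Set (K →L[ℂ] K)} {Ω : K} {m : Set Γ → (K →L[ℂ] K)}
  {q : Γ → GG k N} {Z : ℝ → Set Γ} {J J' : Matrix (Fin (N + 1)) (Fin (N + 1)) k} {ι : Type}
  {E : ι → (CY k N →ₗ[ℂ] (K →L[ℂ] K))} {g : ι → G} {tr : ι → ℕ → ι → ι}

theorem WD.cont (h : WD μ b n π lam W Ω m q Z J J' E g tr) (j : ι) : Continuous (E j) := by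
  refine AddMonoidHomClass.continuous_of_bound (E j) 1 fun f => ?_
  rw [one_mul]
  refine ContinuousLinearMap.opNorm_le_bound _ (norm_nonneg _) fun ξ => ?_
  have h1 := (h.bes j).one f (M := ‖f‖ ^ 2)
    (fun y => pow_le_pow_left₀ (norm_nonneg _) (f.norm_coe_le_norm y) 2) ξ
  rw [← mul_pow] at h1
  exact (pow_le_pow_iff_left₀ (norm_nonneg _) (by positivity) two_ne_zero).1 h1

theorem WD.dense_wl (h : WD μ b n π lam W Ω m q Z J J' E g tr) (L : List (ι × CY k N)) :
    wl E L ∈ closure {T | ∃ L' : List (ι × CY k N), (∀ p ∈ L', IsLocallyConstant p.2) ∧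
      T = wl E L'} := by
  induction L with
  | nil => exact subset_closure ⟨[], fun p hp => by simp at hp, rfl⟩
  | cons p L ih =>
    rw [wl_cons]
    have h1 : E p.1 p.2 ∈ closure {T | ∃ f : CY k N, IsLocallyConstant f ∧ T = E p.1 f} := by
      have h2 := lc_dense p.2 (U := Set.univ) (IsLocallyConstant.const True) fun x _ => trivial
      refine map_mem_closure (h.cont p.1) h2 fun f hf => ⟨f, hf.1, rfl⟩
    refine map_mem_closure₂ continuous_mul h1 ih ?_
    rintro _ ⟨f, hf, rfl⟩ _ ⟨L', hL', rfl⟩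
    refine ⟨(p.1, f) :: L', fun p' hp' => ?_, (wl_cons E (p.1, f) L').symm⟩
    rcases List.mem_cons.1 hp' with rfl | hp'
    · exact hf
    · exact hL' p' hp'

variable [IsTopologicalGroup G] [ProperSpace V] [BorelSpace V] [IsFiniteMeasureOnCompacts μ]
  [μ.IsOpenPosMeasure]

theorem om_nv_ne {x y : YY k N} (h : om J x.rep y.rep ≠ 0) : om J (nv x) (nv y) ≠ 0 := by
  unfold nv
  rw [om_smul_left, om_smul_right]
  exact mul_ne_zero (inv_ne_zero (pv_ne x)) (mul_ne_zero (inv_ne_zero (pv_ne y)) h)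

/-- **THE WORD LEMMA.** -/
theorem WD.word (h : WD μ b n π lam W Ω m q Z J J' E g tr) (i j : ι) (L : List (ι × CY k N))
    (u f : CY k N) (hO : ∀ x ∈ tsupport u, ∀ y ∈ tsupport f, om J x.rep y.rep ≠ 0) :
    E i u * wl E L * E j f = 0 := by
  obtain ⟨δ, hδ, hδ1, hδO⟩ := opp_delta h.frm (isClosed_tsupport u) (isClosed_tsupport f)
    (fun x hx y hy => om_nv_ne (hO x hx y hy))
  have hδ2 := half_pos hδ
  let U : Set (YY k N) := {x | ∃ a ∈ tsupport u, dst x a ≤ δ / 2}
  let U' : Set (YY k N) := {x | ∃ a ∈ tsupport f, dst x a ≤ δ / 2}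
  have hU : IsLocallyConstant fun x => x ∈ U := nbhd_lc hδ2 _
  have hU' : IsLocallyConstant fun x => x ∈ U' := nbhd_lc hδ2 _
  have hUU : ∀ x ∈ U, ∀ y ∈ U', om J (nv x) (nv y) ≠ 0 := by
    rintro x ⟨a, ha, hxa⟩ y ⟨c, hc, hyc⟩
    have h1 := hδO a ha c hc
    have h2 : dst x a < ‖om J (nv a) (nv c)‖ := by linarith
    have h3 := om_close1 h.frm h2
    have h4 : dst y c < ‖om J (nv x) (nv c)‖ := by
      rw [h3]
      linarith
    have h5 := om_close2 h.frm h4
    rw [← norm_pos_iff, h5, h3]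
    linarith
  have mem : ∀ {f : CY k N} {x : YY k N}, f x ≠ 0 →
      x ∈ {x | ∃ a ∈ tsupport f, dst x a ≤ δ / 2} := fun {f x} hx =>
    ⟨x, subset_closure hx, by
      rw [um.self]
      exact hδ2.le⟩
  have hdu := lc_dense u hU fun x hx => mem hx
  have hdf := lc_dense f hU' fun x hx => mem hx
  -- locally constant outer functions
  have key : ∀ u' : CY k N, IsLocallyConstant u' ∧ (∀ x, u' x ≠ 0 → x ∈ U) →
      ∀ f' : CY k N, IsLocallyConstant f' ∧ (∀ x, f' x ≠ 0 → x ∈ U') →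
      E i u' * wl E L * E j f' = 0 := by
    rintro u' ⟨hu1, hu2⟩ f' ⟨hf1, hf2⟩
    have hcl : IsClosed {T : K →L[ℂ] K | E i u' * T * E j f' = 0} :=
      isClosed_eq ((continuous_const.mul continuous_id).mul continuous_const) continuous_const
    refine hcl.closure_subset_iff.2 ?_ (h.dense_wl L)
    rintro _ ⟨L', hL', rfl⟩
    exact h.wn (L'.length + 1) i j L' (Nat.lt_succ_self _) hL' u' f' hu1 hf1
      fun x y hx hy => hUU x (hu2 x hx) y (hf2 y hy)
  have key2 : ∀ u' : CY k N, IsLocallyConstant u' ∧ (∀ x, u' x ≠ 0 → x ∈ U) →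
      E i u' * wl E L * E j f = 0 := by
    intro u' hu'
    have hcl : IsClosed {f' : CY k N | E i u' * wl E L * E j f' = 0} :=
      isClosed_eq (continuous_const.mul (h.cont j)) continuous_const
    exact hcl.closure_subset_iff.2 (fun f' hf' => key u' hu' f' hf') hdf
  have hcl : IsClosed {u' : CY k N | E i u' * wl E L * E j f = 0} :=
    isClosed_eq (((h.cont i).mul continuous_const).mul continuous_const) continuous_const
  exact hcl.closure_subset_iff.2 (fun u' hu' => key2 u' hu') hdu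

/-- every element of the monoid generated by the letters is a word -/
theorem exists_wl {T : K →L[ℂ] K} (hT : T ∈ Submonoid.closure {T | ∃ j f, T = E j f}) :
    ∃ L : List (ι × CY k N), T = wl E L := by
  induction hT using Submonoid.closure_induction with
  | mem T hT =>
    obtain ⟨j, f, rfl⟩ := hT
    exact ⟨[(j, f)], (wl_single (E := E) (j, f)).symm⟩
  | one => exact ⟨[], rfl⟩
  | mul A B _ _ hA hB =>
    obtain ⟨L, rfl⟩ := hA
    obtain ⟨L', rfl⟩ := hB
    exact ⟨L ++ L', (wl_append _ _).symm⟩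

/-- **The word lemma**, in the form of the field `w0` of `H766.P2.PkData`. -/
theorem WD.w0 (h : WD μ b n π lam W Ω m q Z J J' E g tr) {T : K →L[ℂ] K}
    (hT : T ∈ Submonoid.closure {T | ∃ j f, T = E j f}) (i j : ι) (u f : CY k N)
    (hO : ∀ x ∈ tsupport u, ∀ y ∈ tsupport f, ¬ om J x.rep y.rep = 0) :
    E i u * T * E j f = 0 := by
  obtain ⟨L, rfl⟩ := exists_wl hT
  exact h.word i j L u f hO

end main

end Vale.Agent.P092.H145
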