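import Mathlib.Analysis.Normed.Group.Ultra
import Mathlib.Analysis.Normed.Field.Basic
import Mathlib.Analysis.Normed.Field.Ultra
import Mathlib.Topology.MetricSpace.Ultra.Pi
import Mathlib.LinearAlgebra.Matrix.NonsingularInverse
import Mathlib.LinearAlgebra.Matrix.SpecialLinearGroup
import Mathlib.Tactic

/-!
P092 (helper145), team P, row [P2-WL]: linear algebra of an isometry of an alternating form over an
ultrametric field, near the first wall.
-/

set_option linter.all false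

open scoped Matrix

namespace Vale.Agent.P092.H145.WL3

variable {k : Type*} [NontriviallyNormedField k] [IsUltrametricDist k] {D : Type*} [Fintype D]
  [DecidableEq D]

theorem add_le {E : Type*} [SeminormedAddCommGroup E] [IsUltrametricDist E] {x y : E} {C : ℝ}
    (hx : ‖x‖ ≤ C) (hy : ‖y‖ ≤ C) : ‖x + y‖ ≤ C :=
  (IsUltrametricDist.norm_add_le_max x y).trans (max_le hx hy)

theorem sub_le {E : Type*} [SeminormedAddCommGroup E] [IsUltrametricDist E] {x y : E} {C : ℝ}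
    (hx : ‖x‖ ≤ C) (hy : ‖y‖ ≤ C) : ‖x - y‖ ≤ C := by
  rw [sub_eq_add_neg]
  exact add_le hx (by rwa [norm_neg])

/-- if `x` is close to `y`, the norms agree -/
theorem norm_eq_of_close {E : Type*} [SeminormedAddCommGroup E] [IsUltrametricDist E] {x y : E}
    (h : ‖x - y‖ < ‖x‖) : ‖y‖ = ‖x‖ := by
  refine le_antisymm ?_ ?_
  · have e : y = x - (x - y) := by abel
    rw [e]
    exact sub_le le_rfl h.le
  · by_contra hc
    rw [not_le] at hc
    have e : x = (x - y) + y := by abel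
    have h1 : ‖x‖ ≤ max ‖x - y‖ ‖y‖ := by
      conv_lhs => rw [e]
      exact IsUltrametricDist.norm_add_le_max _ _
    exact absurd h1 (not_le.2 (max_lt h hc))

theorem dot_le (x y : D → k) : ‖x ⬝ᵥ y‖ ≤ ‖x‖ * ‖y‖ := by
  refine IsUltrametricDist.norm_sum_le_of_forall_le_of_nonneg (by positivity) fun i _ => ?_
  rw [norm_mul]
  exact mul_le_mul (norm_le_pi_norm x i) (norm_le_pi_norm y i) (norm_nonneg _) (norm_nonneg _)

theorem mulVec_le {A : Matrix D D k} {a : ℝ} (ha : 0 ≤ a) (hA : ∀ i j, ‖A i j‖ ≤ a) (x : D → k) :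
    ‖A *ᵥ x‖ ≤ a * ‖x‖ := by
  refine (pi_norm_le_iff_of_nonneg (by positivity)).2 fun i => ?_
  refine IsUltrametricDist.norm_sum_le_of_forall_le_of_nonneg (by positivity) fun j _ => ?_
  rw [norm_mul]
  exact mul_le_mul (hA i j) (norm_le_pi_norm x j) (norm_nonneg _) ha

theorem exists_pivot [Nonempty D] (x : D → k) : ∃ i, ‖x i‖ = ‖x‖ := by
  obtain ⟨i, hi⟩ := Finite.exists_max fun i => ‖x i‖
  exact ⟨i, le_antisymm (norm_le_pi_norm x i)
    ((pi_norm_le_iff_of_nonneg (norm_nonneg _)).2 hi)⟩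

/-- the form -/
def om (J : Matrix D D k) (x y : D → k) : k := x ⬝ᵥ (J *ᵥ y)

/-- a unimodular alternating form -/
structure Frm (J J' : Matrix D D k) : Prop where
  alt : ∀ x, om J x x = 0
  inv : J * J' = 1
  le : ∀ i j, ‖J i j‖ ≤ 1
  le' : ∀ i j, ‖J' i j‖ ≤ 1

section om

variable {J J' : Matrix D D k}

theorem om_add_left (x y z : D → k) : om J (x + y) z = om J x z + om J y z := add_dotProduct _ _ _
theorem om_add_right (x y z : D → k) : om J x (y + z) = om J x y + om J x z := by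
  unfold om
  rw [Matrix.mulVec_add, dotProduct_add]
theorem om_sub_left (x y z : D → k) : om J (x - y) z = om J x z - om J y z := sub_dotProduct _ _ _
theorem om_sub_right (x y z : D → k) : om J x (y - z) = om J x y - om J x z := by
  unfold om
  rw [Matrix.mulVec_sub, dotProduct_sub]
theorem om_smul_left (c : k) (x y : D → k) : om J (c • x) y = c * om J x y := by
  unfold om
  rw [smul_dotProduct, smul_eq_mul]
theorem om_smul_right (c : k) (x y : D → k) : om J x (c • y) = c * om J x y := by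
  unfold om
  rw [Matrix.mulVec_smul, dotProduct_smul, smul_eq_mul]

theorem Frm.neg (h : Frm J J') (x y : D → k) : om J x y = - om J y x := by
  have h1 := h.alt (x + y)
  rw [om_add_left, om_add_right, om_add_right, h.alt, h.alt, zero_add, add_zero] at h1
  exact eq_neg_of_add_eq_zero_left h1

theorem Frm.om_le (h : Frm J J') (x y : D → k) : ‖om J x y‖ ≤ ‖x‖ * ‖y‖ := by
  refine (dot_le _ _).trans ?_
  have := mulVec_le zero_le_one h.le y
  rw [one_mul] at this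
  exact mul_le_mul_of_nonneg_left this (norm_nonneg _)

theorem Frm.inv' (h : Frm J J') : J' * J = 1 := mul_eq_one_comm.1 h.inv

theorem Frm.norm_J (h : Frm J J') (x : D → k) : ‖J *ᵥ x‖ = ‖x‖ := by
  refine le_antisymm ?_ ?_
  · simpa using mulVec_le zero_le_one h.le x
  · have e : x = J' *ᵥ (J *ᵥ x) := by rw [Matrix.mulVec_mulVec, h.inv', Matrix.one_mulVec]
    conv_lhs => rw [e]
    simpa using mulVec_le zero_le_one h.le' (J *ᵥ x)

theorem Frm.norm_J' (h : Frm J J') (x : D → k) : ‖J' *ᵥ x‖ = ‖x‖ := by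
  have e : J *ᵥ (J' *ᵥ x) = x := by rw [Matrix.mulVec_mulVec, h.inv, Matrix.one_mulVec]
  rw [← h.norm_J, e]

/-- `ω` detects the norm -/
theorem Frm.le_of (h : Frm J J') {x : D → k} {C : ℝ} (hC : 0 ≤ C)
    (hx : ∀ i, ‖om J (Pi.single i 1) x‖ ≤ C) : ‖x‖ ≤ C := by
  rw [← h.norm_J]
  refine (pi_norm_le_iff_of_nonneg hC).2 fun i => ?_
  have := hx i
  unfold om at this
  rwa [single_one_dotProduct] at this

end om

/-- the wedge -/
def wg (x y : D → k) : D × D → k := fun p => x p.1 * y p.2 - x p.2 * y p.1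

theorem wg_le (x y : D → k) : ‖wg x y‖ ≤ ‖x‖ * ‖y‖ := by
  refine (pi_norm_le_iff_of_nonneg (by positivity)).2 fun p => ?_
  have h1 : ∀ i j, ‖x i * y j‖ ≤ ‖x‖ * ‖y‖ := by
    intro i j
    rw [norm_mul]
    exact mul_le_mul (norm_le_pi_norm x i) (norm_le_pi_norm y j) (norm_nonneg _) (norm_nonneg _)
  exact sub_le (h1 _ _) (h1 _ _)

theorem wg_self (x : D → k) : wg x x = 0 := by
  funext p
  change x p.1 * x p.2 - x p.2 * x p.1 = 0
  ring

theorem wg_sub_left (x y z : D → k) : wg (x - y) z = wg x z - wg y z := by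
  funext p
  change (x p.1 - y p.1) * z p.2 - (x p.2 - y p.2) * z p.1 = _ - _
  simp only [wg]
  ring

theorem wg_smul_left (c : k) (y z : D → k) : wg (c • y) z = c • wg y z := by
  funext p
  change c * y p.1 * z p.2 - c * y p.2 * z p.1 = c * (y p.1 * z p.2 - y p.2 * z p.1)
  ring

theorem wg_smul_right (c : k) (y z : D → k) : wg y (c • z) = c • wg y z := by
  funext p
  change y p.1 * (c * z p.2) - y p.2 * (c * z p.1) = c * (y p.1 * z p.2 - y p.2 * z p.1)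
  ring

theorem wg_comm (x y : D → k) : ‖wg x y‖ = ‖wg y x‖ := by
  have e : wg x y = - wg y x := by
    funext p
    change x p.1 * y p.2 - x p.2 * y p.1 = -(y p.1 * x p.2 - y p.2 * x p.1)
    ring
  rw [e, norm_neg]

/-- the component along `y` -/
theorem exists_comp [Nonempty D] {w y : D → k} (hy : y ≠ 0) :
    ∃ μ : k, ‖μ‖ * ‖y‖ ≤ ‖w‖ ∧ ‖w - μ • y‖ * ‖y‖ ≤ ‖wg w y‖ := by
  obtain ⟨i, hi⟩ := exists_pivot y
  have hy0 : 0 < ‖y‖ := norm_pos_iff.2 hy
  have hyi : y i ≠ 0 := by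
    rw [← norm_pos_iff, hi]
    exact hy0
  refine ⟨w i / y i, ?_, ?_⟩
  · rw [norm_div, ← hi, div_mul_cancel₀ _ (norm_ne_zero_iff.2 hyi)]
    exact norm_le_pi_norm w i
  · rw [← le_div_iff₀ hy0]
    refine (pi_norm_le_iff_of_nonneg (by positivity)).2 fun j => ?_
    rw [le_div_iff₀ hy0, ← hi, ← norm_mul]
    have e : (w - (w i / y i) • y) j * y i = w j * y i - w i * y j := by
      change (w j - (w i / y i) * y j) * y i = _
      field_simp
    rw [e]
    exact norm_le_pi_norm (wg w y) (j, i)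

theorem wg_le_sub (w y : D → k) (c : k) : ‖wg w y‖ ≤ ‖w - c • y‖ * ‖y‖ := by
  have e : wg w y = wg (w - c • y) y := by
    rw [wg_sub_left, wg_smul_left, wg_self, smul_zero, sub_zero]
  rw [e]
  exact wg_le _ _

/-- near-wall data of an isometry -/
structure NWD (J : Matrix D D k) (R n : ℝ) (h : Matrix D D k) (u y xu : D → k)
    (M : Matrix D D k) : Prop where
  n0 : 0 < n
  R1 : 1 ≤ R
  iso : hᵀ * J * h = J
  hle : ∀ i j, ‖h i j‖ ≤ n
  nu : ‖u‖ = 1
  ny : ‖y‖ = n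
  nx : ‖xu‖ * n ≤ 1
  hx : h *ᵥ xu = u
  hy : ‖h *ᵥ y‖ ≤ 1
  Mle : ∀ i j, ‖M i j‖ ≤ R
  dec : ∀ x, h *ᵥ x = om J x y • u + M *ᵥ x
  low : ∀ x, ‖x - om J u (h *ᵥ x) • y‖ ≤ R * ‖h *ᵥ x‖

theorem om_iso {J h : Matrix D D k} (hi : hᵀ * J * h = J) (x y : D → k) :
    om J (h *ᵥ x) (h *ᵥ y) = om J x y := by
  unfold om
  rw [Matrix.dotProduct_mulVec, Matrix.vecMul_mulVec, ← Matrix.dotProduct_mulVec,
    Matrix.mulVec_mulVec, hi]

theorem nwd_of [Nonempty D] {J J' h : Matrix D D k} (hJ : Frm J J') (hi : hᵀ * J * h = J)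
    {R : ℝ} (hR : 1 ≤ R) (i0 j0 : D) (hp : ∀ i j, ‖h i j‖ ≤ ‖h i0 j0‖)
    (hm : ∀ i j i' j', ‖h i j * h i' j' - h i j' * h i' j‖ ≤ R * ‖h i0 j0‖) :
    ∃ y xu M, NWD J R ‖h i0 j0‖ h ((h i0 j0)⁻¹ • (fun i => h i j0)) y xu M := by
  have hdet : h * (J' * hᵀ * J) = 1 := by
    refine mul_eq_one_comm.1 ?_
    rw [Matrix.mul_assoc, Matrix.mul_assoc, ← Matrix.mul_assoc hᵀ, hi, hJ.inv']
  have h0 : h i0 j0 ≠ 0 := by
    intro hz
    have hall : ∀ i j, h i j = 0 := by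
      intro i j
      have := hp i j
      rw [hz, norm_zero] at this
      exact norm_le_zero_iff.1 this
    have hz' : h = 0 := by
      ext i j
      exact hall i j
    rw [hz', Matrix.zero_mul] at hdet
    have := congrFun (congrFun hdet i0) i0
    simp at this
  have hn : 0 < ‖h i0 j0‖ := norm_pos_iff.2 h0
  have hJh : h * J' * hᵀ = J' := by
    have e : h * J' * hᵀ = (h * (J' * hᵀ * J)) * J' := by
      simp only [Matrix.mul_assoc, hJ.inv, Matrix.mul_one]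
    rw [e, hdet, Matrix.one_mul]
  let u : D → k := (h i0 j0)⁻¹ • (fun i => h i j0)
  let y : D → k := J' *ᵥ (h i0)
  let xu : D → k := (h i0 j0)⁻¹ • (Pi.single j0 1)
  let M : Matrix D D k := fun i j => h i j - (h i0 j0)⁻¹ * h i j0 * h i0 j
  have hxu : h *ᵥ xu = u := by
    change h *ᵥ ((h i0 j0)⁻¹ • (Pi.single j0 1)) = _
    rw [Matrix.mulVec_smul, Matrix.mulVec_single_one]
    rfl
  have hrow : ∀ x, om J x y = (h *ᵥ x) i0 := by
    intro x
    change x ⬝ᵥ (J *ᵥ (J' *ᵥ (h i0))) = h i0 ⬝ᵥ x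
    rw [Matrix.mulVec_mulVec, hJ.inv, Matrix.one_mulVec, dotProduct_comm]
  have hnr : ‖h i0‖ = ‖h i0 j0‖ :=
    le_antisymm ((pi_norm_le_iff_of_nonneg hn.le).2 fun j => hp i0 j) (norm_le_pi_norm (h i0) j0)
  have hny : ‖y‖ = ‖h i0 j0‖ := by
    change ‖J' *ᵥ (h i0)‖ = _
    rw [hJ.norm_J', hnr]
  have hMle : ∀ i j, ‖M i j‖ ≤ R := by
    intro i j
    have e : M i j * h i0 j0 = h i j * h i0 j0 - h i j0 * h i0 j := by
      change (h i j - (h i0 j0)⁻¹ * h i j0 * h i0 j) * h i0 j0 = _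
      field_simp
    have h1 := hm i j i0 j0
    rw [← e, norm_mul] at h1
    exact le_of_mul_le_mul_right h1 hn
  have hdec : ∀ x, h *ᵥ x = om J x y • u + M *ᵥ x := by
    intro x
    rw [hrow]
    funext i
    change (h *ᵥ x) i = (h *ᵥ x) i0 * ((h i0 j0)⁻¹ * h i j0) +
      ∑ j, (h i j - (h i0 j0)⁻¹ * h i j0 * h i0 j) * x j
    have e1 : ∑ j, (h i j - (h i0 j0)⁻¹ * h i j0 * h i0 j) * x j =
        (h *ᵥ x) i - ((h i0 j0)⁻¹ * h i j0) * (h *ᵥ x) i0 := by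
      change _ = (∑ j, h i j * x j) - ((h i0 j0)⁻¹ * h i j0) * ∑ j, h i0 j * x j
      rw [Finset.mul_sum, ← Finset.sum_sub_distrib]
      refine Finset.sum_congr rfl fun j _ => ?_
      ring
    rw [e1]
    ring
  refine ⟨y, xu, M, hn, hR, hi, hp, ?_, hny, ?_, hxu, ?_, hMle, hdec, ?_⟩
  · change ‖(h i0 j0)⁻¹ • (fun i => h i j0)‖ = 1
    rw [norm_smul, norm_inv]
    have e : ‖fun i => h i j0‖ = ‖h i0 j0‖ :=
      le_antisymm ((pi_norm_le_iff_of_nonneg hn.le).2 fun i => hp i j0)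
        (norm_le_pi_norm (fun i => h i j0) i0)
    rw [e, inv_mul_cancel₀ hn.ne']
  · change ‖(h i0 j0)⁻¹ • (Pi.single j0 (1 : k) : D → k)‖ * _ ≤ 1
    rw [norm_smul, norm_inv]
    have e : ‖(Pi.single j0 (1 : k) : D → k)‖ ≤ 1 := by
      refine (pi_norm_le_iff_of_nonneg zero_le_one).2 fun i => ?_
      by_cases hij : i = j0
      · rw [hij, Pi.single_eq_same, norm_one]
      · rw [Pi.single_eq_of_ne hij, norm_zero]
        exact zero_le_one
    calc ‖h i0 j0‖⁻¹ * ‖(Pi.single j0 (1 : k) : D → k)‖ * ‖h i0 j0‖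
        = ‖(Pi.single j0 (1 : k) : D → k)‖ := by field_simp
      _ ≤ 1 := e
  · have e : h *ᵥ y = J' *ᵥ (Pi.single i0 1) := by
      change h *ᵥ (J' *ᵥ (h i0)) = _
      have e2 : h i0 = hᵀ *ᵥ (Pi.single i0 1) := by
        rw [Matrix.mulVec_single_one]
        rfl
      rw [e2, Matrix.mulVec_mulVec, Matrix.mulVec_mulVec, hJh]
    rw [e, hJ.norm_J']
    refine (pi_norm_le_iff_of_nonneg zero_le_one).2 fun i => ?_
    by_cases hij : i = i0
    · rw [hij, Pi.single_eq_same, norm_one]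
    · rw [Pi.single_eq_of_ne hij, norm_zero]
      exact zero_le_one
  · intro x
    refine hJ.le_of (by positivity) fun i => ?_
    have e1 : om J (Pi.single i 1) (x - om J u (h *ᵥ x) • y) =
        om J (M *ᵥ (Pi.single i 1)) (h *ᵥ x) := by
      rw [om_sub_right, om_smul_right]
      rw [← om_iso hi (Pi.single i 1) x, hdec (Pi.single i 1), om_add_left, om_smul_left]
      ring
    rw [e1]
    refine (hJ.om_le _ _).trans ?_
    refine mul_le_mul_of_nonneg_right ?_ (norm_nonneg _)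
    refine (mulVec_le (by linarith) hMle _).trans ?_
    have e : ‖(Pi.single i (1 : k) : D → k)‖ ≤ 1 := by
      refine (pi_norm_le_iff_of_nonneg zero_le_one).2 fun j => ?_
      by_cases hij : j = i
      · rw [hij, Pi.single_eq_same, norm_one]
      · rw [Pi.single_eq_of_ne hij, norm_zero]
        exact zero_le_one
    have hR0 : 0 ≤ R := by linarith
    calc R * ‖(Pi.single i (1 : k) : D → k)‖ ≤ R * 1 := mul_le_mul_of_nonneg_left e hR0
      _ = R := mul_one R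

theorem smul_le {c : k} {x : D → k} {a b : ℝ} (h1 : ‖c‖ ≤ a) (h2 : ‖x‖ ≤ b) : ‖c • x‖ ≤ a * b := by
  rw [norm_smul]
  exact mul_le_mul h1 h2 (norm_nonneg _) ((norm_nonneg _).trans h1)

section nwd

variable {J J' h M : Matrix D D k} {R n : ℝ} {u y xu : D → k}

theorem NWD.rel (H : NWD J R n h u y xu M) {w b : D → k} (hwb : om J w b = 0)
    (hu : om J u (h *ᵥ b) ≠ 0) :
    h *ᵥ w = M *ᵥ w - (om J (M *ᵥ w) (h *ᵥ b) / om J u (h *ᵥ b)) • u := by
  have h1 := om_iso H.iso w b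
  rw [H.dec w, om_add_left, om_smul_left, hwb] at h1
  have h2 : om J w y = - (om J (M *ᵥ w) (h *ᵥ b) / om J u (h *ᵥ b)) := by
    field_simp
    exact eq_neg_of_add_eq_zero_left h1
  rw [H.dec w, h2, neg_smul]
  abel

theorem NWD.up [Nonempty D] (H : NWD J R n h u y xu M) (hJ : Frm J J') {w : D → k} (hw : ‖w‖ ≤ 1)
    {ρ : ℝ} (hd : ‖wg w y‖ ≤ ρ * n) (hr : 1 ≤ ρ * n) : ‖M *ᵥ w‖ ≤ R * ρ := by
  have hn := H.n0
  have hR := H.R1
  have hρ : 0 < ρ := by
    by_contra hc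
    rw [not_lt] at hc
    nlinarith
  have hy0 : y ≠ 0 := by
    rw [← norm_pos_iff, H.ny]
    exact hn
  obtain ⟨μ, h1, h2⟩ := exists_comp (w := w) hy0
  rw [H.ny] at h1 h2
  have hMy : M *ᵥ y = h *ᵥ y := by
    rw [H.dec y, hJ.alt, zero_smul, zero_add]
  have e : M *ᵥ w = M *ᵥ (w - μ • y) + μ • (h *ᵥ y) := by
    rw [Matrix.mulVec_sub, Matrix.mulVec_smul, hMy]
    abel
  rw [e]
  refine add_le ((mulVec_le (by linarith) H.Mle _).trans ?_) ?_
  · refine mul_le_mul_of_nonneg_left ?_ (by linarith)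
    exact le_of_mul_le_mul_right (h2.trans hd) hn
  · have h3 : ‖μ‖ ≤ ρ := by
      refine le_of_mul_le_mul_right ?_ hn
      linarith
    calc ‖μ • (h *ᵥ y)‖ ≤ ρ * 1 := smul_le h3 H.hy
      _ ≤ R * ρ := by nlinarith

theorem NWD.lo (H : NWD J R n h u y xu M) (w : D → k) : ‖wg w y‖ ≤ R * ‖h *ᵥ w‖ * n := by
  refine (wg_le_sub w y (om J u (h *ᵥ w))).trans ?_
  rw [H.ny]
  exact mul_le_mul_of_nonneg_right (H.low w) H.n0.le

theorem NWD.om_u (H : NWD J R n h u y xu M) (hJ : Frm J J') (b : D → k) :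
    ‖om J u (h *ᵥ b)‖ * n ≤ ‖b‖ := by
  have h1 : om J u (h *ᵥ b) = om J xu b := by
    conv_lhs => rw [← H.hx]
    exact om_iso H.iso xu b
  rw [h1]
  have h2 := hJ.om_le xu b
  have h3 := H.nx
  have hn := H.n0
  calc ‖om J xu b‖ * n ≤ ‖xu‖ * ‖b‖ * n := mul_le_mul_of_nonneg_right h2 hn.le
    _ = (‖xu‖ * n) * ‖b‖ := by ring
    _ ≤ 1 * ‖b‖ := mul_le_mul_of_nonneg_right h3 (norm_nonneg _)
    _ = ‖b‖ := one_mul _

theorem NWD.bB (H : NWD J R n h u y xu M) (hJ : Frm J J') {b : D → k} {δ : ℝ}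
    (hop : δ * ‖h *ᵥ b‖ ≤ ‖om J u (h *ᵥ b)‖) : δ * (‖h *ᵥ b‖ * n) ≤ ‖b‖ := by
  have hn := H.n0
  calc δ * (‖h *ᵥ b‖ * n) = (δ * ‖h *ᵥ b‖) * n := by ring
    _ ≤ ‖om J u (h *ᵥ b)‖ * n := mul_le_mul_of_nonneg_right hop hn.le
    _ ≤ ‖b‖ := H.om_u hJ b

theorem quot_le {a b : k} {A δ : ℝ} (hδ : 0 < δ) (h1 : ‖a‖ ≤ A) (h2 : δ ≤ ‖b‖) :
    ‖a / b‖ ≤ A / δ := by
  rw [norm_div]
  exact div_le_div₀ ((norm_nonneg _).trans h1) h1 hδ h2

/-- relevant vectors near `y` are contracted -/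
theorem NWD.relUp [Nonempty D] (H : NWD J R n h u y xu M) (hJ : Frm J J') {w b : D → k} {δ : ℝ}
    (hδ : 0 < δ) (hδ1 : δ ≤ 1) (hw : ‖w‖ ≤ 1) (hwb : om J w b = 0) (hb : ‖h *ᵥ b‖ = 1)
    (hop : δ ≤ ‖om J u (h *ᵥ b)‖) {ρ : ℝ} (hd : ‖wg w y‖ ≤ ρ * n) (hr : 1 ≤ ρ * n) :
    ‖h *ᵥ w‖ ≤ R * ρ / δ := by
  have hu : om J u (h *ᵥ b) ≠ 0 := norm_pos_iff.1 (hδ.trans_le hop)
  have h1 := H.up hJ hw hd hr
  have h0 : 0 ≤ R * ρ := (norm_nonneg _).trans h1
  rw [H.rel hwb hu]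
  refine sub_le (h1.trans ?_) ?_
  · rw [le_div_iff₀ hδ]
    nlinarith
  · have h2 : ‖om J (M *ᵥ w) (h *ᵥ b)‖ ≤ R * ρ := by
      refine (hJ.om_le _ _).trans ?_
      rw [hb, mul_one]
      exact h1
    have h3 := smul_le (quot_le hδ h2 hop) (le_of_eq H.nu)
    rwa [mul_one] at h3

/-- **Isotropy**: at distance `ρ` from the contracted point, the images of relevant points which
are close at scale `ρ` are close. -/
theorem NWD.isot [Nonempty D] (H : NWD J R n h u y xu M) (hJ : Frm J J') {w w' b b' : D → k}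
    {δ : ℝ} (hδ : 0 < δ) (hδ1 : δ ≤ 1) (hw : ‖w‖ ≤ 1) (hw' : ‖w'‖ ≤ 1) (hwb : om J w b = 0)
    (hwb' : om J w' b' = 0) (hb : ‖h *ᵥ b‖ = 1) (hb' : ‖h *ᵥ b'‖ = 1)
    (hop : δ ≤ ‖om J u (h *ᵥ b)‖) (hop' : δ ≤ ‖om J u (h *ᵥ b')‖) {κ c ρ ρ' ε : ℝ}
    (hκ : ‖h *ᵥ b - h *ᵥ b'‖ ≤ κ) (hc : ‖w - w'‖ ≤ c)
    (hd : ‖wg w' y‖ ≤ ρ * n) (hr : 1 ≤ ρ * n) (hρ' : 0 < ρ') (hlo : ρ' * n ≤ ‖wg w y‖)
    (h1 : R ^ 2 * c ≤ ε * ρ' * δ) (h2 : R ^ 2 * ρ * κ ≤ ε * ρ' * δ ^ 2) :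
    ‖wg (h *ᵥ w) (h *ᵥ w')‖ ≤ ε * (‖h *ᵥ w‖ * ‖h *ᵥ w'‖) := by
  have hn := H.n0
  have hR := H.R1
  have hR0 : 0 < R := by linarith
  have hu : om J u (h *ᵥ b) ≠ 0 := norm_pos_iff.1 (hδ.trans_le hop)
  have hu' : om J u (h *ᵥ b') ≠ 0 := norm_pos_iff.1 (hδ.trans_le hop')
  have hup := H.up hJ hw' hd hr
  have hRρ : 0 ≤ R * ρ := (norm_nonneg _).trans hup
  have hκ0 : 0 ≤ κ := (norm_nonneg _).trans hκ
  have hc0 : 0 ≤ c := (norm_nonneg _).trans hc
  have hM1 : ‖M *ᵥ (w - w')‖ ≤ R * c :=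
    (mulVec_le hR0.le H.Mle _).trans (mul_le_mul_of_nonneg_left hc hR0.le)
  have hdiff : ‖h *ᵥ w - h *ᵥ w'‖ ≤ ε * ρ' / R := by
    have e : h *ᵥ w - h *ᵥ w' = (M *ᵥ (w - w') -
        (om J (M *ᵥ (w - w')) (h *ᵥ b) / om J u (h *ᵥ b)) • u) -
        ((om J (M *ᵥ w') (h *ᵥ b - h *ᵥ b') * om J u (h *ᵥ b') -
          om J (M *ᵥ w') (h *ᵥ b') * om J u (h *ᵥ b - h *ᵥ b')) /
          (om J u (h *ᵥ b) * om J u (h *ᵥ b'))) • u := by
      rw [H.rel hwb hu, H.rel hwb' hu', Matrix.mulVec_sub, om_sub_left, om_sub_right,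
        om_sub_right]
      have e2 : (om J (M *ᵥ w) (h *ᵥ b) / om J u (h *ᵥ b)) =
          ((om J (M *ᵥ w) (h *ᵥ b) - om J (M *ᵥ w') (h *ᵥ b)) / om J u (h *ᵥ b)) +
          (((om J (M *ᵥ w') (h *ᵥ b) - om J (M *ᵥ w') (h *ᵥ b')) * om J u (h *ᵥ b') -
            om J (M *ᵥ w') (h *ᵥ b') * (om J u (h *ᵥ b) - om J u (h *ᵥ b'))) /
            (om J u (h *ᵥ b) * om J u (h *ᵥ b'))) +
          om J (M *ᵥ w') (h *ᵥ b') / om J u (h *ᵥ b') := by
        field_simp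
        ring
      rw [e2, add_smul, add_smul]
      abel
    rw [e]
    have hεR : ∀ z : ℝ, z * R ≤ ε * ρ' → z ≤ ε * ρ' / R := fun z hz => by
      rwa [le_div_iff₀ hR0]
    refine sub_le (sub_le ?_ ?_) ?_
    · refine hM1.trans (hεR _ ?_)
      have h3 : (R * c * R) * δ ≤ R ^ 2 * c * 1 := by
        have : R * c * R = R ^ 2 * c := by ring
        rw [this]
        exact mul_le_mul_of_nonneg_left hδ1 (by positivity)
      have h4 : 0 ≤ ε * ρ' := by
        have : 0 ≤ ε * ρ' * δ := le_trans (by positivity) h1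
        exact nonneg_of_mul_nonneg_left this hδ
      have h5 : R * c * R * δ ≤ ε * ρ' * δ := by
        have : R * c * R * δ = R ^ 2 * c * δ := by ring
        rw [this]
        calc R ^ 2 * c * δ ≤ R ^ 2 * c * 1 := mul_le_mul_of_nonneg_left hδ1 (by positivity)
          _ = R ^ 2 * c := mul_one _
          _ ≤ ε * ρ' * δ := h1
      exact le_of_mul_le_mul_right h5 hδ
    · have h3 : ‖om J (M *ᵥ (w - w')) (h *ᵥ b)‖ ≤ R * c := by
        refine (hJ.om_le _ _).trans ?_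
        rw [hb, mul_one]
        exact hM1
      refine (smul_le (quot_le hδ h3 hop) (le_of_eq H.nu)).trans (hεR _ ?_)
      rw [mul_one, div_mul_eq_mul_div, div_le_iff₀ hδ]
      calc R * c * R = R ^ 2 * c := by ring
        _ ≤ _ := h1
    · have h3 : ‖om J (M *ᵥ w') (h *ᵥ b - h *ᵥ b') * om J u (h *ᵥ b') -
          om J (M *ᵥ w') (h *ᵥ b') * om J u (h *ᵥ b - h *ᵥ b')‖ ≤ R * ρ * κ := by
        refine sub_le ?_ ?_
        · rw [norm_mul]
          have e1 : ‖om J (M *ᵥ w') (h *ᵥ b - h *ᵥ b')‖ ≤ R * ρ * κ :=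
            (hJ.om_le _ _).trans (mul_le_mul hup hκ (norm_nonneg _) hRρ)
          have e2 : ‖om J u (h *ᵥ b')‖ ≤ 1 := by
            refine (hJ.om_le _ _).trans ?_
            rw [H.nu, hb', mul_one]
          calc _ ≤ R * ρ * κ * 1 := mul_le_mul e1 e2 (norm_nonneg _) (by positivity)
            _ = _ := mul_one _
        · rw [norm_mul]
          have e1 : ‖om J (M *ᵥ w') (h *ᵥ b')‖ ≤ R * ρ := by
            refine (hJ.om_le _ _).trans ?_
            rw [hb', mul_one]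
            exact hup
          have e2 : ‖om J u (h *ᵥ b - h *ᵥ b')‖ ≤ κ := by
            refine (hJ.om_le _ _).trans ?_
            rw [H.nu, one_mul]
            exact hκ
          exact mul_le_mul e1 e2 (norm_nonneg _) hRρ
      have h4 : δ * δ ≤ ‖om J u (h *ᵥ b) * om J u (h *ᵥ b')‖ := by
        rw [norm_mul]
        exact mul_le_mul hop hop' hδ.le (norm_nonneg _)
      refine (smul_le (quot_le (mul_pos hδ hδ) h3 h4) (le_of_eq H.nu)).trans (hεR _ ?_)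
      rw [mul_one, div_mul_eq_mul_div, div_le_iff₀ (mul_pos hδ hδ)]
      calc R * ρ * κ * R = R ^ 2 * ρ * κ := by ring
        _ ≤ _ := h2
        _ = _ := by ring
  have h5 : ‖wg (h *ᵥ w) (h *ᵥ w')‖ ≤ ‖h *ᵥ w - h *ᵥ w'‖ * ‖h *ᵥ w'‖ := by
    have := wg_le_sub (h *ᵥ w) (h *ᵥ w') 1
    rwa [one_smul] at this
  have h6 : ρ' / R ≤ ‖h *ᵥ w‖ := by
    rw [div_le_iff₀ hR0]
    have h7 := hlo.trans (H.lo w)
    have h8 : ρ' * n ≤ (‖h *ᵥ w‖ * R) * n := by
      calc ρ' * n ≤ R * ‖h *ᵥ w‖ * n := h7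
        _ = _ := by ring
    exact le_of_mul_le_mul_right h8 hn
  have hε : 0 ≤ ε := by
    have h9 : 0 ≤ ε * (ρ' * δ) := by
      calc 0 ≤ R ^ 2 * c := by positivity
        _ ≤ ε * ρ' * δ := h1
        _ = _ := by ring
    exact nonneg_of_mul_nonneg_left h9 (by positivity)
  calc ‖wg (h *ᵥ w) (h *ᵥ w')‖ ≤ ‖h *ᵥ w - h *ᵥ w'‖ * ‖h *ᵥ w'‖ := h5
    _ ≤ (ε * ρ' / R) * ‖h *ᵥ w'‖ := mul_le_mul_of_nonneg_right hdiff (norm_nonneg _)
    _ = ε * ((ρ' / R) * ‖h *ᵥ w'‖) := by ring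
    _ ≤ ε * (‖h *ᵥ w‖ * ‖h *ᵥ w'‖) :=
        mul_le_mul_of_nonneg_left (mul_le_mul_of_nonneg_right h6 (norm_nonneg _)) hε

theorem NWD.le_inv (H : NWD J R n h u y xu M) (hJ : Frm J J') (x : D → k) :
    ‖x‖ ≤ n * ‖h *ᵥ x‖ := by
  have hn := H.n0
  refine hJ.le_of (by positivity) fun i => ?_
  rw [← om_iso H.iso]
  refine (hJ.om_le _ _).trans (mul_le_mul_of_nonneg_right ?_ (norm_nonneg _))
  refine (mulVec_le hn.le H.hle _).trans ?_
  have e : ‖(Pi.single i (1 : k) : D → k)‖ ≤ 1 := by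
    refine (pi_norm_le_iff_of_nonneg zero_le_one).2 fun j => ?_
    by_cases hij : j = i
    · rw [hij, Pi.single_eq_same, norm_one]
    · rw [Pi.single_eq_of_ne hij, norm_zero]
      exact zero_le_one
  calc n * ‖(Pi.single i (1 : k) : D → k)‖ ≤ n * 1 := mul_le_mul_of_nonneg_left e hn.le
    _ = n := mul_one n

/-- a contracted vector is almost `y` -/
theorem NWD.ctr (H : NWD J R n h u y xu M) {w : D → k} (hw : ‖w‖ = 1) {C : ℝ}
    (h1 : ‖h *ᵥ w‖ * n ≤ C) (hbig : R * C < n) : ‖om J u (h *ᵥ w)‖ * n = 1 := by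
  have hn := H.n0
  have hR := H.R1
  have h2 : ‖w - om J u (h *ᵥ w) • y‖ < 1 := by
    refine (H.low w).trans_lt ?_
    have h3 : R * ‖h *ᵥ w‖ * n < 1 * n := by
      calc R * ‖h *ᵥ w‖ * n = R * (‖h *ᵥ w‖ * n) := by ring
        _ ≤ R * C := mul_le_mul_of_nonneg_left h1 (by linarith)
        _ < n := hbig
        _ = 1 * n := (one_mul n).symm
    exact lt_of_mul_lt_mul_right h3 hn.le
  rw [← hw] at h2
  have h4 := norm_eq_of_close h2
  rw [norm_smul, H.ny, hw] at h4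
  exact h4

theorem NWD.cap {h' M' : Matrix D D k} {n' : ℝ} {u' y' xu' : D → k}
    (H : NWD J R n h u y xu M) (H' : NWD J R n' h' u' y' xu' M') (hJ : Frm J J') {w : D → k}
    (hw : ‖w‖ = 1) {C e : ℝ} (hC : 1 ≤ C) (he : 1 ≤ e) (hn : n' ≤ e * n) (hn' : n ≤ e * n')
    (h1 : ‖h *ᵥ w‖ * n ≤ C) (h2 : ‖h' *ᵥ w‖ * n' ≤ C) (x : D → k) :
    ‖h' *ᵥ x‖ ≤ (e ^ 2 * R ^ 2 * C ^ 2) * ‖h *ᵥ x‖ := by
  have n0 := H.n0
  have n0' := H'.n0
  have hR := H.R1
  have hz0 := norm_nonneg (h *ᵥ x)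
  have hRC : 1 ≤ R * C := by nlinarith
  by_cases hb : n ≤ R * C ∨ n' ≤ R * C
  · have hnn : n ≤ e * (R * C) ∧ n' ≤ e * (R * C) := by
      rcases hb with hb | hb
      · exact ⟨hb.trans (le_mul_of_one_le_left (by linarith) he),
          hn.trans (mul_le_mul_of_nonneg_left hb (by linarith))⟩
      · exact ⟨hn'.trans (mul_le_mul_of_nonneg_left hb (by linarith)),
          hb.trans (le_mul_of_one_le_left (by linarith) he)⟩
    calc ‖h' *ᵥ x‖ ≤ n' * ‖x‖ := mulVec_le n0'.le H'.hle x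
      _ ≤ n' * (n * ‖h *ᵥ x‖) := mul_le_mul_of_nonneg_left (H.le_inv hJ x) n0'.le
      _ = n' * n * ‖h *ᵥ x‖ := by ring
      _ ≤ ((e * (R * C)) * (e * (R * C))) * ‖h *ᵥ x‖ :=
          mul_le_mul_of_nonneg_right (mul_le_mul hnn.2 hnn.1 n0.le (by positivity)) hz0
      _ = _ := by ring
  · rw [not_or, not_le, not_le] at hb
    obtain ⟨hb1, hb2⟩ := hb
    have c1 := H.ctr hw h1 hb1
    have c2 := H'.ctr hw h2 hb2
    have hv0 : om J u (h *ᵥ w) ≠ 0 := by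
      intro hz
      rw [hz, norm_zero, zero_mul] at c1
      exact zero_ne_one c1
    obtain ⟨Z, hZ⟩ : ∃ Z, Z = ‖h *ᵥ x‖ := ⟨_, rfl⟩
    rw [← hZ] at hz0 ⊢
    -- the components
    obtain ⟨α, hα⟩ : ∃ α : k, α = om J (h *ᵥ x) (h *ᵥ w) / om J u (h *ᵥ w) := ⟨_, rfl⟩
    obtain ⟨β, hβ⟩ : ∃ β : k, β = om J u (h *ᵥ x) / om J u (h *ᵥ w) := ⟨_, rfl⟩
    have hvn : ‖om J u (h *ᵥ w)‖ = 1 / n := by
      rw [eq_div_iff n0.ne']
      exact c1
    have hwn : ‖h *ᵥ w‖ ≤ C / n := by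
      rw [le_div_iff₀ n0]
      exact h1
    have hα1 : ‖α‖ ≤ C * Z := by
      rw [hα, norm_div, hvn, div_div_eq_mul_div, div_one]
      have h3 := hJ.om_le (h *ᵥ x) (h *ᵥ w)
      rw [← hZ] at h3
      calc ‖om J (h *ᵥ x) (h *ᵥ w)‖ * n ≤ (Z * ‖h *ᵥ w‖) * n :=
            mul_le_mul_of_nonneg_right h3 n0.le
        _ = Z * (‖h *ᵥ w‖ * n) := by ring
        _ ≤ Z * C := mul_le_mul_of_nonneg_left h1 hz0
        _ = C * Z := mul_comm _ _
    have hβ1 : ‖β‖ ≤ Z * n := by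
      rw [hβ, norm_div, hvn, div_div_eq_mul_div, div_one]
      have h3 := hJ.om_le u (h *ᵥ x)
      rw [← hZ, H.nu, one_mul] at h3
      exact mul_le_mul_of_nonneg_right h3 n0.le
    obtain ⟨x₀, hx₀⟩ : ∃ x₀ : D → k, x₀ = x - α • xu - β • w := ⟨_, rfl⟩
    have hz₀ : h *ᵥ x₀ = h *ᵥ x - α • u - β • (h *ᵥ w) := by
      rw [hx₀, Matrix.mulVec_sub, Matrix.mulVec_sub, Matrix.mulVec_smul, Matrix.mulVec_smul, H.hx]
    have hou : om J u (h *ᵥ x₀) = 0 := by
      rw [hz₀, om_sub_right, om_sub_right, om_smul_right, om_smul_right, hJ.alt, hβ]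
      field_simp
      ring
    have how : om J x₀ w = 0 := by
      rw [← om_iso H.iso, hz₀, om_sub_left, om_sub_left, om_smul_left, om_smul_left, hJ.alt, hα]
      field_simp
      ring
    have hz₀n : ‖h *ᵥ x₀‖ ≤ C * Z := by
      rw [hz₀]
      refine sub_le (sub_le ?_ ?_) ?_
      · rw [← hZ]
        nlinarith
      · have := smul_le hα1 (le_of_eq H.nu)
        rwa [mul_one] at this
      · refine (smul_le hβ1 hwn).trans (le_of_eq ?_)
        field_simp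
    have hx₀n : ‖x₀‖ ≤ R * (C * Z) := by
      have h3 := H.low x₀
      rw [hou, zero_smul, sub_zero] at h3
      exact h3.trans (mul_le_mul_of_nonneg_left hz₀n (by linarith))
    -- the image of `x₀`
    have hoy : ‖om J x₀ y'‖ ≤ R * C * ‖x₀‖ := by
      have h3 : om J x₀ (w - om J u' (h' *ᵥ w) • y') = - (om J u' (h' *ᵥ w) * om J x₀ y') := by
        rw [om_sub_right, how, om_smul_right, zero_sub]
      have h4 : ‖om J u' (h' *ᵥ w)‖ * ‖om J x₀ y'‖ ≤ ‖x₀‖ * (R * (C / n')) := by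
        rw [← norm_mul, ← norm_neg, ← h3]
        refine (hJ.om_le _ _).trans (mul_le_mul_of_nonneg_left ?_ (norm_nonneg _))
        refine (H'.low w).trans (mul_le_mul_of_nonneg_left ?_ (by linarith))
        rw [le_div_iff₀ n0']
        exact h2
      have h5 : ‖om J u' (h' *ᵥ w)‖ = 1 / n' := by
        rw [eq_div_iff n0'.ne']
        exact c2
      rw [h5] at h4
      have h6 : ‖om J x₀ y'‖ = n' * (1 / n' * ‖om J x₀ y'‖) := by field_simp
      rw [h6]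
      calc n' * (1 / n' * ‖om J x₀ y'‖) ≤ n' * (‖x₀‖ * (R * (C / n'))) :=
            mul_le_mul_of_nonneg_left h4 n0'.le
        _ = R * C * ‖x₀‖ := by field_simp
    have hhx₀ : ‖h' *ᵥ x₀‖ ≤ R ^ 2 * C ^ 2 * Z := by
      rw [H'.dec x₀]
      have h7 : R * C * ‖x₀‖ ≤ R ^ 2 * C ^ 2 * Z := by
        calc R * C * ‖x₀‖ ≤ R * C * (R * (C * Z)) :=
              mul_le_mul_of_nonneg_left hx₀n (by positivity)
          _ = _ := by ring
      refine add_le ?_ ?_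
      · have := smul_le hoy (le_of_eq H'.nu)
        rw [mul_one] at this
        exact this.trans h7
      · refine (mulVec_le (by linarith) H'.Mle x₀).trans (le_trans ?_ h7)
        refine mul_le_mul_of_nonneg_right ?_ (norm_nonneg _)
        nlinarith
    have ex : h' *ᵥ x = h' *ᵥ x₀ + α • (h' *ᵥ xu) + β • (h' *ᵥ w) := by
      rw [hx₀, Matrix.mulVec_sub, Matrix.mulVec_sub, Matrix.mulVec_smul, Matrix.mulVec_smul]
      abel
    have hRR : 1 ≤ R ^ 2 * C := by nlinarith [mul_le_mul hR hRC zero_le_one (by linarith)]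
    rw [ex]
    refine add_le (add_le ?_ ?_) ?_
    · refine hhx₀.trans ?_
      have h8 : R ^ 2 * C ^ 2 * Z * 1 ≤ R ^ 2 * C ^ 2 * Z * e ^ 2 :=
        mul_le_mul_of_nonneg_left (by nlinarith) (by positivity)
      calc R ^ 2 * C ^ 2 * Z = R ^ 2 * C ^ 2 * Z * 1 := (mul_one _).symm
        _ ≤ _ := h8
        _ = _ := by ring
    · have h9 : ‖h' *ᵥ xu‖ ≤ e := by
        have h10 : ‖xu‖ ≤ 1 / n := by
          rw [le_div_iff₀ n0]
          exact H.nx
        calc ‖h' *ᵥ xu‖ ≤ n' * ‖xu‖ := mulVec_le n0'.le H'.hle _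
          _ ≤ (e * n) * (1 / n) := mul_le_mul hn h10 (norm_nonneg _) (by positivity)
          _ = e := by field_simp
      refine (smul_le hα1 h9).trans ?_
      calc C * Z * e = (e * C * Z) * 1 := by ring
        _ ≤ (e * C * Z) * (e * (R ^ 2 * C)) := by
            refine mul_le_mul_of_nonneg_left ?_ (by positivity)
            nlinarith
        _ = _ := by ring
    · have h9 : ‖h' *ᵥ w‖ ≤ C / n' := by
        rw [le_div_iff₀ n0']
        exact h2
      refine (smul_le hβ1 h9).trans ?_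
      calc Z * n * (C / n') = (n / n') * (C * Z) := by ring
        _ ≤ e * (C * Z) := by
            refine mul_le_mul_of_nonneg_right ?_ (by positivity)
            rw [div_le_iff₀ n0']
            exact hn'
        _ = (e * C * Z) * 1 := by ring
        _ ≤ (e * C * Z) * (e * (R ^ 2 * C)) := by
            refine mul_le_mul_of_nonneg_left ?_ (by positivity)
            nlinarith
        _ = _ := by ring

end nwd

end Vale.Agent.P092.H145.WL3
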