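import Vale.Agent.P092.H145.WL1
import Mathlib.Topology.LocallyConstant.Basic
import Mathlib.Topology.LocallyConstant.Algebra
import Mathlib.Tactic

/-!
P092 (helper145), team P, row [P2-WL]: cells and shells of a compact ultrametric space, and the
expansion of the functions `f ∘ h` with respect to them.
-/

set_option linter.all false

open Filter Topology

namespace Vale.Agent.P092.H145.WL4

open Vale.Agent.P092.H145.WL

/-- an ultrametric with clopen balls -/
structure UM {Y : Type*} [TopologicalSpace Y] (dst : Y → Y → ℝ) : Prop where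
  self : ∀ x, dst x x = 0
  symm : ∀ x y, dst x y = dst y x
  ultra : ∀ x y z, dst x z ≤ max (dst x y) (dst y z)
  le1 : ∀ x y, dst x y ≤ 1
  clo : ∀ x, ∀ ρ > 0, IsClopen {z | dst z x ≤ ρ}

section bl

variable {Y : Type*} [TopologicalSpace Y] {dst : Y → Y → ℝ}

/-- the closed ball -/
def bl (dst : Y → Y → ℝ) (ρ : ℝ) (x : Y) : Set Y := {z | dst z x ≤ ρ}

theorem UM.bl_eq (h : UM dst) {ρ : ℝ} {x y : Y} (hxy : dst x y ≤ ρ) : bl dst ρ x = bl dst ρ y := by
  have key : ∀ {x y : Y}, dst x y ≤ ρ → bl dst ρ x ⊆ bl dst ρ y := fun {x y} hxy z hz =>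
    (h.ultra z x y).trans (max_le hz hxy)
  exact Set.Subset.antisymm (key hxy) (key (by rwa [h.symm]))

theorem UM.bl_iff (h : UM dst) {ρ : ℝ} (hρ : 0 ≤ ρ) {x y : Y} :
    bl dst ρ x = bl dst ρ y ↔ dst x y ≤ ρ := by
  constructor
  · intro e
    have h1 : x ∈ bl dst ρ x := by
      change dst x x ≤ ρ
      rw [h.self]
      exact hρ
    rw [e] at h1
    exact h1
  · exact h.bl_eq

theorem UM.bl_lc (h : UM dst) {ρ : ℝ} (hρ : 0 < ρ) : IsLocallyConstant (bl dst ρ) := by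
  rw [IsLocallyConstant.iff_eventually_eq]
  intro x
  have h1 : {z | dst z x ≤ ρ} ∈ 𝓝 x := (h.clo x ρ hρ).isOpen.mem_nhds (by
    change dst x x ≤ ρ
    rw [h.self]
    exact hρ.le)
  filter_upwards [h1] with z hz
  exact h.bl_eq hz

theorem UM.le_lc (h : UM dst) {ρ : ℝ} (hρ : 0 < ρ) (x : Y) :
    IsLocallyConstant fun z => dst z x ≤ ρ := by
  rw [IsLocallyConstant.iff_eventually_eq]
  intro z
  have h1 : {z' | dst z' z ≤ ρ} ∈ 𝓝 z := (h.clo z ρ hρ).isOpen.mem_nhds (by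
    change dst z z ≤ ρ
    rw [h.self]
    exact hρ.le)
  filter_upwards [h1] with z' hz'
  rw [eq_iff_iff]
  exact ⟨fun h2 => (h.ultra z z' x).trans (max_le (by rwa [h.symm]) h2),
    fun h2 => (h.ultra z' z x).trans (max_le hz' h2)⟩

/-- the chosen point of a set -/
noncomputable def pk [Nonempty Y] (S : Set Y) : Y := Classical.epsilon fun x => x ∈ S

theorem pk_mem [Nonempty Y] {S : Set Y} (h : S.Nonempty) : pk S ∈ S :=
  Classical.epsilon_spec h

/-- the radii -/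
noncomputable def rd (j : ℕ) : ℝ := (1 / 2 : ℝ) ^ j

theorem rd_pos (j : ℕ) : 0 < rd j := by unfold rd; positivity

theorem rd_le {i j : ℕ} (h : i ≤ j) : rd j ≤ rd i :=
  pow_le_pow_of_le_one (by norm_num) (by norm_num) h

theorem rd_zero : rd 0 = 1 := pow_zero _

/-- bounded doubling -/
def Dbl (dst : Y → Y → ℝ) (s N₀ : ℕ) : Prop :=
  ∀ (j : ℕ) (x : Y), ∃ F : Finset (Set Y), F.card ≤ N₀ ∧
    ∀ w, dst w x ≤ rd j → bl dst (rd (j + s)) w ∈ F

theorem exists_code {s N₀ : ℕ} (hN : 0 < N₀) (hD : Dbl dst s N₀) :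
    ∃ e : ℕ → Y → Set Y → Fin N₀, ∀ j x w w', dst w x ≤ rd j → dst w' x ≤ rd j →
      e j x (bl dst (rd (j + s)) w) = e j x (bl dst (rd (j + s)) w') →
      bl dst (rd (j + s)) w = bl dst (rd (j + s)) w' := by
  classical
  have key : ∀ j x, ∃ e : Set Y → Fin N₀, ∀ w w', dst w x ≤ rd j → dst w' x ≤ rd j →
      e (bl dst (rd (j + s)) w) = e (bl dst (rd (j + s)) w') →
      bl dst (rd (j + s)) w = bl dst (rd (j + s)) w' := by
    intro j x
    obtain ⟨F, hF, h1⟩ := hD j x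
    refine ⟨fun S => if h : S ∈ F then Fin.castLE hF (F.equivFin ⟨S, h⟩) else ⟨0, hN⟩,
      fun w w' hw hw' he => ?_⟩
    have m1 := h1 w hw
    have m2 := h1 w' hw'
    simp only [m1, m2, dif_pos] at he
    have h3 := F.equivFin.injective (Fin.castLE_injective hF he)
    exact congrArg Subtype.val h3
  choose e he using key
  exact ⟨e, he⟩

end bl

/-- the data of one family of functions `H γ = f ∘ h γ`: centre, depth, relevant set, near set -/
structure Fam {Y Γ : Type*} [TopologicalSpace Y] (dst : Y → Y → ℝ) (s L : ℕ) (Z C : ℝ)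
    (η : Γ → Y) (m : Γ → ℕ) (Rel Nr : Γ → Set Y) (H : Γ → C(Y, ℂ)) : Prop where
  mL : ∀ γ, m γ < L
  lc : ∀ γ, IsLocallyConstant (H γ)
  bd : ∀ γ y, ‖H γ y‖ ≤ Z
  near : ∀ γ, ∀ w ∈ Rel γ, dst w (η γ) ≤ rd (m γ + 1) → w ∈ Nr γ
  nlc : ∀ γ, IsLocallyConstant fun w => w ∈ Nr γ
  ncap : ∀ (S : Finset Γ) (y : Y), (∀ γ ∈ S, y ∈ Nr γ) → (S.card : ℝ) ≤ C
  iso : ∀ γ, ∀ j ≤ m γ, ∀ w ∈ Rel γ, ∀ w' ∈ Rel γ, rd (j + 1) < dst w (η γ) →
    dst w (η γ) ≤ rd j → dst w' (η γ) ≤ rd j → dst w w' ≤ rd (j + s) → H γ w = H γ w'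

section fam

variable {Y Γ : Type*} [TopologicalSpace Y] [Nonempty Y] {dst : Y → Y → ℝ} {s L N₀ : ℕ}

/-- the pieces of the shells -/
def Ds (dst : Y → Y → ℝ) (s : ℕ) (e : ℕ → Y → Set Y → Fin N₀) (η : Γ → Y) (j : ℕ)
    (i : Fin N₀) (γ : Γ) : Set Y :=
  {w | (¬ dst w (η γ) ≤ rd (j + 1) ∧ dst w (η γ) ≤ rd j) ∧
    e j (pk (bl dst (rd (j + s)) (η γ))) (bl dst (rd (j + s)) w) = i}

theorem and_lc {p q : Y → Prop} (hp : IsLocallyConstant p) (hq : IsLocallyConstant q) :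
    IsLocallyConstant fun w => p w ∧ q w := hp.comp₂ hq fun a b => a ∧ b

theorem Ds_lc (h : UM dst) (e : ℕ → Y → Set Y → Fin N₀) (η : Γ → Y) (j : ℕ) (i : Fin N₀)
    (γ : Γ) : IsLocallyConstant fun w => w ∈ Ds dst s e η j i γ := by
  refine and_lc (and_lc ?_ (h.le_lc (rd_pos _) _)) ?_
  · exact (h.le_lc (rd_pos _) _).comp Not
  · exact (h.bl_lc (rd_pos (j + s))).comp fun S =>
      e j (pk (bl dst (rd (j + s)) (η γ))) S = i

theorem Ds_cst (h : UM dst) (hs : 1 ≤ s) (e : ℕ → Y → Set Y → Fin N₀) (η : Γ → Y) (j : ℕ)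
    (i : Fin N₀) {γ γ' : Γ} (hγ : dst (η γ) (η γ') ≤ rd (j + s)) :
    Ds dst s e η j i γ = Ds dst s e η j i γ' := by
  have key : ∀ {γ γ' : Γ}, dst (η γ) (η γ') ≤ rd (j + s) →
      Ds dst s e η j i γ ⊆ Ds dst s e η j i γ' := by
    intro γ γ' hγ w hw
    obtain ⟨⟨h1, h2⟩, h3⟩ := hw
    have hsm : dst (η γ) (η γ') ≤ rd (j + 1) := hγ.trans (rd_le (by omega))
    have hsm' : dst (η γ) (η γ') ≤ rd j := hγ.trans (rd_le (by omega))
    refine ⟨⟨fun h4 => h1 ?_, ?_⟩, ?_⟩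
    · exact (h.ultra w (η γ') (η γ)).trans (max_le h4 (by rwa [h.symm]))
    · exact (h.ultra w (η γ) (η γ')).trans (max_le h2 hsm')
    · rw [← h.bl_eq hγ]
      exact h3
  exact Set.Subset.antisymm (key hγ) (key (by rwa [h.symm]))

open Classical in
/-- the characteristic function -/
noncomputable def chi (S : Set Y) : Y → ℂ := fun w => if w ∈ S then 1 else 0

theorem chi_lc {S : Set Y} (h : IsLocallyConstant fun w => w ∈ S) : IsLocallyConstant (chi S) := by
  classical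
  exact h.comp fun p => if p then (1 : ℂ) else 0

/-- the characteristic function of a clopen set -/
noncomputable def chc (S : Set Y) (h : IsLocallyConstant fun w => w ∈ S) : C(Y, ℂ) :=
  ⟨chi S, (chi_lc h).continuous⟩

theorem chi_of_mem {S : Set Y} {w : Y} (h : w ∈ S) : chi S w = 1 := if_pos h
theorem chi_of_not {S : Set Y} {w : Y} (h : w ∉ S) : chi S w = 0 := if_neg h

theorem chi_sq {S : Set Y} {w : Y} : ‖chi S w‖ ^ 2 ≤ 1 := by
  by_cases h : w ∈ S
  · rw [chi_of_mem h]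
    norm_num
  · rw [chi_of_not h]
    norm_num

/-- **Expansion of one family of functions with respect to shells.** -/
theorem Fam.expand (h : UM dst) {Z C : ℝ} (hZ : 0 ≤ Z) (hs : 1 ≤ s) (hN : 0 < N₀)
    (hD : Dbl dst s N₀) {η : Γ → Y} {m : Γ → ℕ} {Rel Nr : Γ → Set Y}
    {H : Γ → C(Y, ℂ)} (hF : Fam dst s L Z C η m Rel Nr H) :
    ∃ (z : Option (Fin L × Fin N₀) → Γ → ℂ) (G : Option (Fin L × Fin N₀) → Γ → C(Y, ℂ)),
      (∀ α γ, ‖z α γ‖ ≤ max Z 1) ∧ (∀ α γ, IsLocallyConstant (G α γ)) ∧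
      (∀ S : Finset Γ, ∀ y, ∑ γ ∈ S, ‖G none γ y‖ ^ 2 ≤ Z ^ 2 * C) ∧
      (∀ j i γ γ', dst (η γ) (η γ') ≤ rd (j.1 + s) → G (some (j, i)) γ = G (some (j, i)) γ') ∧
      (∀ j i, ∀ S : Finset Γ, (∀ γ ∈ S, ∀ γ' ∈ S, dst (η γ) (η γ') ≤ rd (j.1 + s) → γ = γ') →
        ∀ y, ∑ γ ∈ S, ‖G (some (j, i)) γ y‖ ^ 2 ≤ N₀) ∧
      ∀ γ, ∀ w ∈ Rel γ, (H γ - ∑ α, z α γ • G α γ) w = 0 := by
  classical
  obtain ⟨e, he⟩ := exists_code hN hD
  let near : Γ → Set Y := fun γ => {w | dst w (η γ) ≤ rd (m γ + 1) ∧ w ∈ Nr γ}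
  have nearlc : ∀ γ, IsLocallyConstant fun w => w ∈ near γ := fun γ =>
    and_lc (h.le_lc (rd_pos _) _) (hF.nlc γ)
  let G : Option (Fin L × Fin N₀) → Γ → C(Y, ℂ) := fun α γ =>
    match α with
    | none => H γ * chc (near γ) (nearlc γ)
    | some (j, i) => chc (Ds dst s e η j.1 i γ) (Ds_lc h e η j.1 i γ)
  let z : Option (Fin L × Fin N₀) → Γ → ℂ := fun α γ =>
    match α with
    | none => 1
    | some (j, i) => if hh : j.1 ≤ m γ ∧ ∃ w, w ∈ Ds dst s e η j.1 i γ ∧ w ∈ Rel γ then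
        H γ hh.2.choose else 0
  refine ⟨z, G, ?_, ?_, ?_, ?_, ?_, ?_⟩
  · rintro (_ | ⟨j, i⟩) γ
    · change ‖(1 : ℂ)‖ ≤ _
      rw [norm_one]
      exact le_max_right _ _
    · change ‖(if hh : j.1 ≤ m γ ∧ ∃ w, w ∈ Ds dst s e η j.1 i γ ∧ w ∈ Rel γ then
        H γ hh.2.choose else 0 : ℂ)‖ ≤ _
      split_ifs with hh
      · exact (hF.bd γ _).trans (le_max_left _ _)
      · rw [norm_zero]
        exact hZ.trans (le_max_left _ _)
  · rintro (_ | ⟨j, i⟩) γ
    · exact (hF.lc γ).comp₂ (chi_lc (nearlc γ)) fun a b => a * b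
    · exact chi_lc (Ds_lc h e η j.1 i γ)
  · intro S y
    have h1 : ∀ γ, ‖G none γ y‖ ^ 2 ≤ if y ∈ Nr γ then Z ^ 2 else 0 := by
      intro γ
      change ‖H γ y * chi (near γ) y‖ ^ 2 ≤ _
      split_ifs with hy
      · rw [norm_mul, mul_pow]
        calc ‖H γ y‖ ^ 2 * ‖chi (near γ) y‖ ^ 2 ≤ Z ^ 2 * 1 :=
              mul_le_mul (pow_le_pow_left₀ (norm_nonneg _) (hF.bd γ y) 2) chi_sq
                (by positivity) (by positivity)
          _ = Z ^ 2 := mul_one _
      · have : y ∉ near γ := fun h2 => hy h2.2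
        rw [chi_of_not this, mul_zero, norm_zero]
        norm_num
    refine (Finset.sum_le_sum fun γ _ => h1 γ).trans ?_
    rw [← Finset.sum_filter, Finset.sum_const, nsmul_eq_mul, mul_comm]
    refine mul_le_mul_of_nonneg_left ?_ (by positivity)
    exact hF.ncap _ y fun γ hγ => (Finset.mem_filter.1 hγ).2
  · intro j i γ γ' hγ
    have e1 := Ds_cst h hs e η j.1 i hγ
    refine ContinuousMap.ext fun w => ?_
    change chi (Ds dst s e η j.1 i γ) w = chi (Ds dst s e η j.1 i γ') w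
    rw [e1]
  · intro j i S hS y
    have h1 : ∀ γ, ‖G (some (j, i)) γ y‖ ^ 2 ≤ if dst (η γ) y ≤ rd j.1 then (1 : ℝ) else 0 := by
      intro γ
      change ‖chi (Ds dst s e η j.1 i γ) y‖ ^ 2 ≤ _
      split_ifs with hy
      · exact chi_sq
      · have : y ∉ Ds dst s e η j.1 i γ := fun h2 => hy (by
          rw [h.symm]
          exact h2.1.2)
        rw [chi_of_not this, norm_zero]
        norm_num
    refine (Finset.sum_le_sum fun γ _ => h1 γ).trans ?_
    rw [← Finset.sum_filter, Finset.sum_const, nsmul_eq_mul, mul_one]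
    obtain ⟨F, hF1, hF2⟩ := hD j.1 y
    have h2 : (S.filter fun γ => dst (η γ) y ≤ rd j.1).card ≤ F.card := by
      refine Finset.card_le_card_of_injOn (fun γ => bl dst (rd (j.1 + s)) (η γ)) ?_ ?_
      · intro γ hγ
        exact hF2 _ (Finset.mem_filter.1 hγ).2
      · intro γ hγ γ' hγ' hh
        exact hS γ (Finset.mem_filter.1 hγ).1 γ' (Finset.mem_filter.1 hγ').1
          ((h.bl_iff (rd_pos _).le).1 hh)
    exact_mod_cast h2.trans hF1
  · intro γ w hw
    have e0 : (H γ - ∑ α, z α γ • G α γ) w = H γ w - ∑ α, z α γ * G α γ w := by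
      rw [ContinuousMap.sub_apply, ContinuousMap.sum_apply]
      rfl
    rw [e0, Fintype.sum_option]
    have en : z none γ * G none γ w = H γ w * chi (near γ) w := one_mul _
    have eg : ∀ α : Fin L × Fin N₀, G (some α) γ w = chi (Ds dst s e η α.1.1 α.2 γ) w :=
      fun α => rfl
    rw [en]
    by_cases hnear : dst w (η γ) ≤ rd (m γ + 1)
    · have h1 : w ∈ near γ := ⟨hnear, hF.near γ w hw hnear⟩
      rw [chi_of_mem h1, mul_one]
      have h2 : ∑ α : Fin L × Fin N₀, z (some α) γ * G (some α) γ w = 0 := by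
        refine Finset.sum_eq_zero fun α _ => ?_
        rw [eg]
        by_cases hj : α.1.1 ≤ m γ
        · have h3 : w ∉ Ds dst s e η α.1.1 α.2 γ := fun h4 =>
            h4.1.1 (hnear.trans (rd_le (by omega)))
          rw [chi_of_not h3, mul_zero]
        · have h3 : z (some α) γ = 0 := by
            change (if hh : α.1.1 ≤ m γ ∧ ∃ w, w ∈ Ds dst s e η α.1.1 α.2 γ ∧ w ∈ Rel γ then
              H γ hh.2.choose else 0 : ℂ) = 0
            rw [dif_neg fun hh => hj hh.1]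
          rw [h3, zero_mul]
      rw [h2, add_zero, sub_self]
    · have h1 : w ∉ near γ := fun h2 => hnear h2.1
      rw [chi_of_not h1, mul_zero, zero_add]
      -- the shell of `w`
      have hex : ∃ j, ¬ dst w (η γ) ≤ rd (j + 1) := ⟨m γ, hnear⟩
      obtain ⟨j, hj⟩ : ∃ j, j = Nat.find hex := ⟨_, rfl⟩
      have hj1 : ¬ dst w (η γ) ≤ rd (j + 1) := by
        rw [hj]
        exact Nat.find_spec hex
      have hj2 : dst w (η γ) ≤ rd j := by
        rcases Nat.eq_zero_or_pos j with h0 | h0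
        · rw [h0, rd_zero]
          exact h.le1 _ _
        · have h3 := Nat.find_min hex (m := j - 1) (by omega)
          rw [not_not] at h3
          have h4 : j - 1 + 1 = j := by omega
          rwa [h4] at h3
      have hjm : j ≤ m γ := by
        rw [hj]
        exact Nat.find_min' hex hnear
      have hjL : j < L := hjm.trans_lt (hF.mL γ)
      obtain ⟨i, hi⟩ : ∃ i, i = e j (pk (bl dst (rd (j + s)) (η γ))) (bl dst (rd (j + s)) w) :=
        ⟨_, rfl⟩
      have hwD : w ∈ Ds dst s e η j i γ := ⟨⟨hj1, hj2⟩, hi.symm⟩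
      rw [Finset.sum_eq_single (⟨⟨j, hjL⟩, i⟩ : Fin L × Fin N₀)]
      · change H γ w - z (some (⟨⟨j, hjL⟩, i⟩ : Fin L × Fin N₀)) γ *
          chi (Ds dst s e η j i γ) w = 0
        rw [chi_of_mem hwD, mul_one, sub_eq_zero]
        have hh : j ≤ m γ ∧ ∃ w, w ∈ Ds dst s e η j i γ ∧ w ∈ Rel γ := ⟨hjm, w, hwD, hw⟩
        have ez : z (some (⟨⟨j, hjL⟩, i⟩ : Fin L × Fin N₀)) γ = H γ hh.2.choose := by
          change (if hh : j ≤ m γ ∧ ∃ w, w ∈ Ds dst s e η j i γ ∧ w ∈ Rel γ then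
              H γ hh.2.choose else 0 : ℂ) = _
          rw [dif_pos hh]
        rw [ez]
        obtain ⟨h5, h6⟩ := hh.2.choose_spec
        refine hF.iso γ j hjm w hw _ h6 (not_le.1 hj1) hj2 h5.1.2 ?_
        have hpk : dst (η γ) (pk (bl dst (rd (j + s)) (η γ))) ≤ rd j := by
          have h7 : pk (bl dst (rd (j + s)) (η γ)) ∈ bl dst (rd (j + s)) (η γ) := by
            refine pk_mem ⟨η γ, ?_⟩
            change dst (η γ) (η γ) ≤ _
            rw [h.self]
            exact (rd_pos _).le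
          rw [h.symm]
          exact (show dst _ _ ≤ rd (j + s) from h7).trans (rd_le (by omega))
        have h8 := he j (pk (bl dst (rd (j + s)) (η γ))) w hh.2.choose
          ((h.ultra _ (η γ) _).trans (max_le hj2 hpk))
          ((h.ultra _ (η γ) _).trans (max_le h5.1.2 hpk)) (hi.symm.trans h5.2.symm)
        exact (h.bl_iff (rd_pos _).le).1 h8
      · rintro ⟨j', i'⟩ - hne
        change z (some (j', i')) γ * chi (Ds dst s e η j'.1 i' γ) w = 0
        have h3 : w ∉ Ds dst s e η j'.1 i' γ := by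
          rintro ⟨⟨h4, h5⟩, h6⟩
          have h7 : j'.1 = j := by
            rcases lt_trichotomy j'.1 j with h8 | h8 | h8
            · exact absurd (hj2.trans (rd_le (by omega))) h4
            · exact h8
            · exact absurd (h5.trans (rd_le (by omega))) hj1
          apply hne
          have h9 : j' = ⟨j, hjL⟩ := Fin.ext h7
          subst h9
          have h10 : i' = i := by
            rw [hi]
            exact h6.symm
          rw [h10]
        rw [chi_of_not h3, mul_zero]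
      · intro h3
        exact absurd (Finset.mem_univ _) h3

end fam

end Vale.Agent.P092.H145.WL4
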