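import Vale.Agent.P092.H145.WL3
import Vale.Agent.P092.H145.WL4
import Vale.Agent.P092.H820.Pn

/-!
P092 (helper145), team P, row [P2-WL]: the ultrametric of the projective space over an ultrametric
local field.
-/

set_option linter.all false

open Filter Topology
open scoped LinearAlgebra.Projectivization Matrix

namespace Vale.Agent.P092.H145.WL5

open Vale.Agent.P092.H145.WL3 Vale.Agent.P092.H145.WL4
open Vale.Agent.P092.H820 (pj pj_oq pj_surj pj_continuous)

section pts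

variable {k : Type*} [NontriviallyNormedField k] [IsUltrametricDist k] {D : Type*} [Fintype D]
  [DecidableEq D] [Nonempty D]

/-- the pivot coordinate of the representative -/
noncomputable def pv (y : ℙ k (D → k)) : k := y.rep (exists_pivot y.rep).choose

theorem pv_norm (y : ℙ k (D → k)) : ‖pv y‖ = ‖y.rep‖ := (exists_pivot y.rep).choose_spec

theorem pv_ne (y : ℙ k (D → k)) : pv y ≠ 0 := by
  rw [← norm_pos_iff, pv_norm]
  exact norm_pos_iff.2 y.rep_nonzero

/-- the normalised representative -/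
noncomputable def nv (y : ℙ k (D → k)) : D → k := (pv y)⁻¹ • y.rep

theorem norm_nv (y : ℙ k (D → k)) : ‖nv y‖ = 1 := by
  unfold nv
  rw [norm_smul, norm_inv, pv_norm, inv_mul_cancel₀ (norm_ne_zero_iff.2 y.rep_nonzero)]

theorem nv_ne (y : ℙ k (D → k)) : nv y ≠ 0 := by
  rw [← norm_pos_iff, norm_nv]
  exact one_pos

theorem mk_nv (y : ℙ k (D → k)) : Projectivization.mk k (nv y) (nv_ne y) = y := by
  conv_rhs => rw [← y.mk_rep]
  rw [Projectivization.mk_eq_mk_iff']
  exact ⟨(pv y)⁻¹, rfl⟩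

theorem exists_nv {v : D → k} (hv : v ≠ 0) :
    ∃ c : k, v = c • nv (Projectivization.mk k v hv) := by
  have h := mk_nv (Projectivization.mk k v hv)
  obtain ⟨a, ha⟩ := (Projectivization.mk_eq_mk_iff' k _ _ hv (nv_ne _)).1 h.symm
  exact ⟨a, ha.symm⟩

theorem nv_smul {y : ℙ k (D → k)} {v : D → k} {hv : v ≠ 0} (h : Projectivization.mk k v hv = y) :
    ∃ c : k, ‖c‖ = ‖v‖ ∧ v = c • nv y := by
  subst h
  obtain ⟨c, hc⟩ := exists_nv hv
  refine ⟨c, ?_, hc⟩
  conv_rhs => rw [hc]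
  rw [norm_smul, norm_nv, mul_one]

/-- the ultrametric -/
noncomputable def dst (y z : ℙ k (D → k)) : ℝ := ‖wg (nv y) (nv z)‖

theorem dst_mk {y z : ℙ k (D → k)} {v w : D → k} {hv : v ≠ 0} {hw : w ≠ 0}
    (h1 : Projectivization.mk k v hv = y) (h2 : Projectivization.mk k w hw = z) :
    ‖wg v w‖ = dst y z * (‖v‖ * ‖w‖) := by
  obtain ⟨c, hc, e1⟩ := nv_smul h1
  obtain ⟨c', hc', e2⟩ := nv_smul h2
  have e : wg v w = c • c' • wg (nv y) (nv z) := by
    conv_lhs => rw [e1, e2]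
    rw [wg_smul_left, wg_smul_right]
  rw [e, norm_smul, norm_smul, hc, hc']
  unfold dst
  ring

/-- a representative close to `nv x` -/
theorem rep_near {x z : ℙ k (D → k)} (h : dst z x < 1) :
    ∃ (v : D → k) (hv : v ≠ 0), Projectivization.mk k v hv = z ∧ ‖v‖ = 1 ∧
      ‖v - nv x‖ ≤ dst z x := by
  obtain ⟨μ, h1, h2⟩ := exists_comp (w := nv z) (nv_ne x)
  rw [norm_nv, norm_nv, mul_one] at h1
  rw [norm_nv, mul_one] at h2
  have h3 : ‖μ • nv x‖ = ‖nv z‖ := norm_eq_of_close (by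
    rw [norm_nv]
    exact h2.trans_lt h)
  rw [norm_smul, norm_nv, norm_nv, mul_one] at h3
  have hμ : μ ≠ 0 := by
    rw [← norm_pos_iff, h3]
    exact one_pos
  have hv : μ⁻¹ • nv z ≠ 0 := smul_ne_zero (inv_ne_zero hμ) (nv_ne z)
  refine ⟨μ⁻¹ • nv z, hv, ?_, ?_, ?_⟩
  · conv_rhs => rw [← mk_nv z]
    rw [Projectivization.mk_eq_mk_iff']
    exact ⟨μ⁻¹, rfl⟩
  · rw [norm_smul, norm_inv, h3, norm_nv, inv_one, one_mul]
  · have e : μ⁻¹ • nv z - nv x = μ⁻¹ • (nv z - μ • nv x) := by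
      rw [smul_sub, smul_smul, inv_mul_cancel₀ hμ, one_smul]
    rw [e, norm_smul, norm_inv, h3, inv_one, one_mul]
    exact h2

theorem preimage_nv {E : Type*} [NormedAddCommGroup E] (A : (D → k) → E)
    (hs : ∀ (c : k) v, ‖A (c • v)‖ = ‖c‖ * ‖A v‖) (ρ : ℝ) :
    pj k D ⁻¹' {y | ‖A (nv y)‖ ≤ ρ} = {w | ‖A w.1‖ ≤ ρ * ‖w.1‖} := by
  ext w
  obtain ⟨c, hc, e⟩ := nv_smul (y := pj k D w) (v := w.1) (hv := w.2) rfl
  have hc0 : 0 < ‖c‖ := by
    rw [hc]
    exact norm_pos_iff.2 w.2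
  have e2 : ‖A w.1‖ = ‖c‖ * ‖A (nv (pj k D w))‖ := by
    conv_lhs => rw [e]
    exact hs _ _
  change ‖A (nv (pj k D w))‖ ≤ ρ ↔ ‖A w.1‖ ≤ ρ * ‖w.1‖
  rw [e2, ← hc, mul_comm ρ]
  exact (mul_le_mul_iff_right₀ hc0).symm

theorem clo_gen {E : Type*} [NormedAddCommGroup E] [IsUltrametricDist E] (A : (D → k) → E)
    (hc : Continuous A) (hs : ∀ (c : k) v, ‖A (c • v)‖ = ‖c‖ * ‖A v‖) {ρ : ℝ} (hρ : 0 < ρ) :
    IsClopen {y : ℙ k (D → k) | ‖A (nv y)‖ ≤ ρ} := by
  have hq : IsQuotientMap (pj k D) := pj_oq.isQuotientMap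
  have hc1 : Continuous fun w : {v : D → k // v ≠ 0} => A w.1 := hc.comp continuous_subtype_val
  refine ⟨?_, ?_⟩
  · rw [← hq.isClosed_preimage, preimage_nv A hs]
    exact isClosed_le hc1.norm (continuous_const.mul continuous_subtype_val.norm)
  · rw [← hq.isOpen_preimage, preimage_nv A hs, isOpen_iff_mem_nhds]
    intro w hw
    have hw0 : 0 < ‖w.1‖ := norm_pos_iff.2 w.2
    have h1 : ∀ᶠ z : {v : D → k // v ≠ 0} in nhds w, ‖z.1‖ = ‖w.1‖ := by
      have : (fun z : {v : D → k // v ≠ 0} => z.1) ⁻¹' (Metric.sphere 0 ‖w.1‖) ∈ nhds w :=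
        (IsOpen.preimage continuous_subtype_val
          (IsUltrametricDist.isOpen_sphere _ hw0.ne')).mem_nhds (by simp)
      filter_upwards [this] with z hz
      simpa using hz
    have h2 : ∀ᶠ z : {v : D → k // v ≠ 0} in nhds w, ‖A z.1‖ ≤ ρ * ‖w.1‖ := by
      have : (fun z : {v : D → k // v ≠ 0} => A z.1) ⁻¹' (Metric.closedBall 0 (ρ * ‖w.1‖)) ∈
          nhds w := (IsOpen.preimage hc1
          (IsUltrametricDist.isOpen_closedBall _ (by positivity))).mem_nhds (by simpa using hw)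
      filter_upwards [this] with z hz
      simpa using hz
    filter_upwards [h1, h2] with z hz1 hz2
    simpa [hz1] using hz2

theorem um : UM (dst (k := k) (D := D)) where
  self x := by
    unfold dst
    rw [wg_self, norm_zero]
  symm x y := wg_comm _ _
  ultra x y z := by
    obtain ⟨μ, h1, h2⟩ := exists_comp (w := nv x) (nv_ne y)
    rw [norm_nv, norm_nv, mul_one] at h1
    rw [norm_nv, mul_one] at h2
    have e : wg (nv x) (nv z) = wg (nv x - μ • nv y) (nv z) + μ • wg (nv y) (nv z) := by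
      rw [wg_sub_left, wg_smul_left]
      abel
    change ‖wg (nv x) (nv z)‖ ≤ max (dst x y) (dst y z)
    rw [e]
    refine add_le ?_ ?_
    · refine (wg_le _ _).trans ?_
      rw [norm_nv, mul_one]
      exact h2.trans (le_max_left _ _)
    · rw [norm_smul]
      refine le_trans ?_ (le_max_right _ _)
      calc ‖μ‖ * ‖wg (nv y) (nv z)‖ ≤ 1 * ‖wg (nv y) (nv z)‖ :=
            mul_le_mul_of_nonneg_right h1 (norm_nonneg _)
        _ = dst y z := one_mul _
  le1 x y := by
    refine (wg_le _ _).trans ?_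
    rw [norm_nv, norm_nv, mul_one]
  clo x ρ hρ := by
    have h := clo_gen (k := k) (D := D) (fun v => wg v (nv x)) (by
      unfold wg
      fun_prop) (fun c v => by rw [wg_smul_left, norm_smul]) hρ
    exact h

theorem dst_nonneg (x y : ℙ k (D → k)) : 0 ≤ dst x y := norm_nonneg _

theorem dst_le_of {y z : ℙ k (D → k)} {v w : D → k} {hv : v ≠ 0} {hw : w ≠ 0}
    (h1 : Projectivization.mk k v hv = y) (h2 : Projectivization.mk k w hw = z) {ε : ℝ}
    (h : ‖wg v w‖ ≤ ε * (‖v‖ * ‖w‖)) : dst y z ≤ ε := by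
  rw [dst_mk h1 h2] at h
  have h3 : 0 < ‖v‖ * ‖w‖ := mul_pos (norm_pos_iff.2 hv) (norm_pos_iff.2 hw)
  exact le_of_mul_le_mul_right h h3

/-- balls are small neighbourhoods -/
theorem ball_sub (x : ℙ k (D → k)) {O : Set (ℙ k (D → k))} (hO : IsOpen O) (hx : x ∈ O) :
    ∃ ρ > 0, ∀ z, dst z x ≤ ρ → z ∈ O := by
  have h1 : IsOpen (pj k D ⁻¹' O) := hO.preimage pj_continuous
  have h2 : (⟨nv x, nv_ne x⟩ : {v : D → k // v ≠ 0}) ∈ pj k D ⁻¹' O := by
    change pj k D ⟨nv x, nv_ne x⟩ ∈ O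
    have : pj k D ⟨nv x, nv_ne x⟩ = x := mk_nv x
    rw [this]
    exact hx
  obtain ⟨ε, hε, h3⟩ := Metric.isOpen_iff.1 h1 _ h2
  refine ⟨min (ε / 2) (1 / 2), by positivity, fun z hz => ?_⟩
  obtain ⟨v, hv, e1, e2, e3⟩ := rep_near (x := x) (z := z)
    (hz.trans_lt ((min_le_right _ _).trans_lt (by norm_num)))
  have h4 : (⟨v, hv⟩ : {v : D → k // v ≠ 0}) ∈ Metric.ball (⟨nv x, nv_ne x⟩ : {v : D → k // v ≠ 0}) ε := by
    rw [Metric.mem_ball, Subtype.dist_eq, dist_eq_norm]
    exact (e3.trans (hz.trans (min_le_left _ _))).trans_lt (half_lt_self hε)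
  have h5 : pj k D ⟨v, hv⟩ ∈ O := h3 h4
  have h6 : pj k D ⟨v, hv⟩ = z := e1
  rwa [h6] at h5

end pts

section prop

variable {k : Type*} [NontriviallyNormedField k] [IsUltrametricDist k] [ProperSpace k]
  {D : Type*} [Fintype D] [DecidableEq D] [Nonempty D]

/-- uniform local constancy -/
theorem lc_unif {Z : Type*} {f : ℙ k (D → k) → Z} (hf : IsLocallyConstant f) :
    ∃ ρ > 0, ∀ x y, dst x y ≤ ρ → f x = f y := by
  classical
  have h1 : ∀ x, ∃ ρ > 0, ∀ z, dst z x ≤ ρ → f z = f x := fun x =>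
    ball_sub x (hf.isOpen_fiber (f x)) rfl
  choose ρ hρ h2 using h1
  obtain ⟨t, ht⟩ := CompactSpace.elim_nhds_subcover (fun x : ℙ k (D → k) => {z | dst z x ≤ ρ x})
    (fun x => (um.clo x _ (hρ x)).isOpen.mem_nhds (by
      change dst x x ≤ ρ x
      rw [um.self]
      exact (hρ x).le))
  have h3 : ∃ r > 0, ∀ x ∈ t, r ≤ ρ x := by
    rcases t.eq_empty_or_nonempty with rfl | hne
    · exact ⟨1, one_pos, fun x hx => by simp at hx⟩
    · obtain ⟨x0, _, h4⟩ := t.exists_min_image ρ hne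
      exact ⟨ρ x0, hρ x0, h4⟩
  obtain ⟨r, hr, h4⟩ := h3
  refine ⟨r, hr, fun x y hxy => ?_⟩
  have hx : x ∈ ⋃ x ∈ t, {z | dst z x ≤ ρ x} := by
    rw [ht]
    trivial
  simp only [Set.mem_iUnion] at hx
  obtain ⟨a, ha, hxa⟩ := hx
  have hxa' : dst x a ≤ ρ a := hxa
  have hya : dst y a ≤ ρ a := (um.ultra y x a).trans
    (max_le ((by rw [um.symm]; exact hxy : dst y x ≤ r).trans (h4 a ha)) hxa')
  rw [h2 a x hxa', h2 a y hya]

theorem dbl (s : ℕ) : ∃ N₀, 0 < N₀ ∧ Dbl (dst (k := k) (D := D)) s N₀ := by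
  classical
  obtain ⟨t, ht⟩ := NormedField.exists_one_lt_norm k
  have ht0 : t ≠ 0 := by
    rintro rfl
    rw [norm_zero] at ht
    linarith
  obtain ⟨c, hc⟩ : ∃ c : ℝ, c = rd s / 2 := ⟨_, rfl⟩
  have hc0 : 0 < c := by
    rw [hc]
    exact half_pos (rd_pos s)
  have hrs : rd s ≤ 1 := by
    rw [← rd_zero]
    exact rd_le (Nat.zero_le s)
  have hc1 : c < 1 := by
    rw [hc]
    linarith
  obtain ⟨A, _, hAf, hA⟩ := (isCompact_closedBall (0 : D → k) ‖t‖).finite_cover_balls hc0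
  obtain ⟨B, _, hBf, hB⟩ := (isCompact_closedBall (0 : D → k) 1).finite_cover_balls hc0
  let pt : (D → k) → ℙ k (D → k) → ℙ k (D → k) := fun v x =>
    if h : v ≠ 0 then Projectivization.mk k v h else x
  refine ⟨hAf.toFinset.card + hBf.toFinset.card + 1, by omega, fun j x => ?_⟩
  obtain ⟨n, hn1, hn2⟩ := exists_mem_Ico_zpow (x := rd j) (rd_pos j) ht
  refine ⟨(hAf.toFinset.image fun a => bl dst (rd (j + s)) (pt (nv x + t ^ n • a) x)) ∪
    (hBf.toFinset.image fun a => bl dst (rd (j + s)) (pt a x)), ?_, fun w hw => ?_⟩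
  · have h1 := Finset.card_image_le (s := hAf.toFinset)
      (f := fun a => bl dst (rd (j + s)) (pt (nv x + t ^ n • a) x))
    have h2 := Finset.card_image_le (s := hBf.toFinset)
      (f := fun a => bl dst (rd (j + s)) (pt a x))
    have h3 := Finset.card_union_le
      (hAf.toFinset.image fun a => bl dst (rd (j + s)) (pt (nv x + t ^ n • a) x))
      (hBf.toFinset.image fun a => bl dst (rd (j + s)) (pt a x))
    omega
  · rcases Nat.eq_zero_or_pos j with h0 | h0
    · -- the whole space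
      have h1 : nv w ∈ Metric.closedBall (0 : D → k) 1 := by
        rw [mem_closedBall_zero_iff, norm_nv]
      obtain ⟨a, ha, h2⟩ := Set.mem_iUnion₂.1 (hB h1)
      rw [Metric.mem_ball, dist_eq_norm] at h2
      have h3 : ‖a‖ = 1 := by
        rw [← norm_nv w]
        exact norm_eq_of_close (by
          rw [norm_nv]
          exact h2.trans hc1)
      have ha0 : a ≠ 0 := by
        rw [← norm_pos_iff, h3]
        exact one_pos
      refine Finset.mem_union_right _ (Finset.mem_image.2 ⟨a, hBf.mem_toFinset.2 ha, ?_⟩)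
      have e : pt a x = Projectivization.mk k a ha0 := dif_pos ha0
      rw [e]
      refine (um.bl_eq ?_).symm
      refine dst_le_of (mk_nv w) rfl ?_
      have h4 := wg_le_sub (nv w) a 1
      rw [one_smul] at h4
      refine h4.trans ?_
      rw [h3, norm_nv, h0, zero_add]
      have : ‖nv w - a‖ ≤ rd s := h2.le.trans (by rw [hc]; linarith [rd_pos s])
      linarith
    · have hj1 : rd j < 1 := by
        have := rd_le h0
        have h5 : rd (Nat.succ 0) = 1 / 2 := by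
          unfold rd
          norm_num
        rw [h5] at this
        linarith
      obtain ⟨v, hv, e1, e2, e3⟩ := rep_near (x := x) (z := w) (hw.trans_lt hj1)
      have htn : (0 : ℝ) < ‖t‖ ^ n := zpow_pos (norm_pos_iff.2 ht0) n
      have htn' : ‖t ^ n‖ = ‖t‖ ^ n := norm_zpow _ _
      have htz : t ^ n ≠ 0 := zpow_ne_zero _ ht0
      have hy : (t ^ n)⁻¹ • (v - nv x) ∈ Metric.closedBall (0 : D → k) ‖t‖ := by
        rw [mem_closedBall_zero_iff, norm_smul, norm_inv, htn', inv_mul_le_iff₀ htn]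
        refine (e3.trans hw).trans (hn2.le.trans (le_of_eq ?_))
        rw [zpow_add_one₀ (norm_pos_iff.2 ht0).ne']
      obtain ⟨a, ha, h2⟩ := Set.mem_iUnion₂.1 (hA hy)
      rw [Metric.mem_ball, dist_eq_norm] at h2
      have h3 : ‖v - (nv x + t ^ n • a)‖ ≤ rd j * c := by
        have e : v - (nv x + t ^ n • a) = t ^ n • ((t ^ n)⁻¹ • (v - nv x) - a) := by
          rw [smul_sub, smul_smul, mul_inv_cancel₀ htz, one_smul]
          abel
        rw [e, norm_smul, htn']
        exact mul_le_mul hn1 h2.le (norm_nonneg _) (rd_pos j).le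
      have h4 : ‖nv x + t ^ n • a‖ = 1 := by
        rw [← e2]
        refine norm_eq_of_close ?_
        rw [e2]
        refine h3.trans_lt ?_
        nlinarith [rd_pos j]
      have hz0 : nv x + t ^ n • a ≠ 0 := by
        rw [← norm_pos_iff, h4]
        exact one_pos
      refine Finset.mem_union_left _ (Finset.mem_image.2 ⟨a, hAf.mem_toFinset.2 ha, ?_⟩)
      have e : pt (nv x + t ^ n • a) x = Projectivization.mk k _ hz0 := dif_pos hz0
      change bl dst (rd (j + s)) (pt (nv x + t ^ n • a) x) = _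
      rw [e]
      refine (um.bl_eq ?_).symm
      refine dst_le_of e1 rfl ?_
      have h5 := wg_le_sub v (nv x + t ^ n • a) 1
      rw [one_smul] at h5
      refine h5.trans ?_
      rw [h4, e2, mul_one, mul_one, mul_one]
      refine h3.trans ?_
      have h6 : rd (j + s) = rd j * rd s := pow_add _ _ _
      rw [h6, hc]
      have := rd_pos j
      have := rd_pos s
      nlinarith

end prop

end Vale.Agent.P092.H145.WL5
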