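import Vale.Agent.P092.H145.WL5

/-!
P092 (helper145), team P, row [P2-WL]: the families `f ∘ h` for the near-wall elements `h` of one
size class.
-/

set_option linter.all false

open Filter Topology
open scoped LinearAlgebra.Projectivization Matrix

namespace Vale.Agent.P092.H145.WL6

open Vale.Agent.P092.H145.WL3 Vale.Agent.P092.H145.WL4 Vale.Agent.P092.H145.WL5
open Vale.Agent.P092.H820 (pj pj_oq pj_surj pj_continuous csP csSL)
open Matrix (SpecialLinearGroup)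

section

variable {k : Type*} [NontriviallyNormedField k] [IsUltrametricDist k]
  {D : Type*} [Fintype D] [DecidableEq D] [Nonempty D]

/-- `f ∘ g` -/
noncomputable def cg (g : SpecialLinearGroup D k) (f : C(ℙ k (D → k), ℂ)) : C(ℙ k (D → k), ℂ) :=
  ⟨fun x => f (g • x), f.continuous.comp (continuous_const_smul g)⟩

theorem mulVec_ne (g : SpecialLinearGroup D k) {v : D → k} (hv : v ≠ 0) : g.1 *ᵥ v ≠ 0 := by
  intro h
  apply hv
  have e2 : (g⁻¹).1 * g.1 = 1 := congrArg Subtype.val (inv_mul_cancel g)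
  have e : v = (g⁻¹).1 *ᵥ (g.1 *ᵥ v) := by
    rw [Matrix.mulVec_mulVec, e2, Matrix.one_mulVec]
  rw [e, h, Matrix.mulVec_zero]

theorem smul_mk (g : SpecialLinearGroup D k) {v : D → k} (hv : v ≠ 0) :
    g • (Projectivization.mk k v hv) = Projectivization.mk k (g.1 *ᵥ v) (mulVec_ne g hv) := rfl

theorem smul_eq (g : SpecialLinearGroup D k) {v : D → k} {hv : v ≠ 0} {x : ℙ k (D → k)}
    (h : Projectivization.mk k v hv = x) :
    Projectivization.mk k (g.1 *ᵥ v) (mulVec_ne g hv) = g • x := by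
  rw [← h]
  rfl

theorem smul_nv (g : SpecialLinearGroup D k) (x : ℙ k (D → k)) :
    Projectivization.mk k (g.1 *ᵥ nv x) (mulVec_ne g (nv_ne x)) = g • x := smul_eq g (mk_nv x)

/-- if `g x` is represented by `v`, then `v = g b` with `b` a representative of `x` -/
theorem exists_lift (g : SpecialLinearGroup D k) {x : ℙ k (D → k)} {v : D → k} {hv : v ≠ 0}
    (h : Projectivization.mk k v hv = g • x) : ∃ c : k, g.1 *ᵥ (c • nv x) = v := by
  have h1 := (smul_nv g x).trans h.symm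
  obtain ⟨a, ha⟩ := (Projectivization.mk_eq_mk_iff' k _ _ (mulVec_ne g (nv_ne x)) hv).1 h1
  have ha0 : a ≠ 0 := by
    rintro rfl
    rw [zero_smul] at ha
    exact mulVec_ne g (nv_ne x) ha.symm
  refine ⟨a⁻¹, ?_⟩
  rw [Matrix.mulVec_smul, ← ha, smul_smul, inv_mul_cancel₀ ha0, one_smul]

/-- near-wall elements of one size class, with a small target set `B` opposite to the attracting
points -/
structure Cls {Γ : Type*} (J : Matrix D D k) (R δ κ : ℝ) (σ : ℕ)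
    (g : Γ → SpecialLinearGroup D k) (B : Set (ℙ k (D → k))) : Prop where
  ex : ∀ γ, ∃ (u y xu : D → k) (M : Matrix D D k) (n : ℝ), NWD J R n (g γ).1 u y xu M ∧
    (2 : ℝ) ^ σ ≤ n ∧ n ≤ 2 ^ (σ + 1) ∧ ∀ a ∈ B, δ ≤ ‖om J u (nv a)‖
  diam : ∀ a ∈ B, ∀ a' ∈ B, dst a a' ≤ κ

/-- the relevant points -/
def Rel {Γ : Type*} (J : Matrix D D k) (g : Γ → SpecialLinearGroup D k) (B : Set (ℙ k (D → k)))
    (γ : Γ) : Set (ℙ k (D → k)) := {w | ∃ β, g γ • β ∈ B ∧ om J (nv w) (nv β) = 0}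

theorem rd_mul_two_pow (σ : ℕ) : rd σ * 2 ^ σ = 1 := by
  unfold rd
  rw [← mul_pow]
  norm_num

theorem fam_of {Γ : Type*} {J J' : Matrix D D k} (hJ : Frm J J') {R δ κ ε : ℝ} {σ s Mc : ℕ}
    {g : Γ → SpecialLinearGroup D k} {B : Set (ℙ k (D → k))} (hcl : Cls J R δ κ σ g B)
    (hδ : 0 < δ) (hδ1 : δ ≤ 1) (hκ0 : 0 ≤ κ) (hκ1 : κ < 1) (hs : 1 ≤ s)
    (hsR : R ^ 2 * rd (s - 1) ≤ ε * δ) (hκR : 2 * R ^ 2 * κ ≤ ε * δ ^ 2) (hε : 0 < ε)
    (hR : 1 ≤ R)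
    (ud : ∀ S : Finset Γ, (∀ γ ∈ S, ∀ γ' ∈ S, ∀ x, ‖(g γ').1 *ᵥ x‖ ≤
      (2 ^ 2 * R ^ 2 * (R / δ) ^ 2) * ‖(g γ).1 *ᵥ x‖) → S.card ≤ Mc) :
    ∃ (η : Γ → ℙ k (D → k)) (Nr : Γ → Set (ℙ k (D → k))), (∀ (Z : ℝ) (f : C(ℙ k (D → k), ℂ)),
      IsLocallyConstant f → (∀ y, ‖f y‖ ≤ Z) → (∀ x y, dst x y ≤ ε → f x = f y) →
      Fam dst s (σ + 1) Z Mc η (fun _ => σ) (Rel J g B) Nr (fun γ => cg (g γ) f)) ∧
      (∀ (S : Finset Γ) (y : ℙ k (D → k)), (∀ γ ∈ S, g γ • y ∈ B) → (S.card : ℝ) ≤ Mc) := by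
  choose u y xu M n hN h2 h3 hB using hcl.ex
  have hy0 : ∀ γ, y γ ≠ 0 := fun γ => by
    rw [← norm_pos_iff, (hN γ).ny]
    exact (hN γ).n0
  have hC : 1 ≤ R / δ := by
    rw [le_div_iff₀ hδ]
    linarith
  have h2σ : (0 : ℝ) < 2 ^ σ := by positivity
  have hnn : ∀ γ γ', n γ' ≤ 2 * n γ := by
    intro γ γ'
    calc n γ' ≤ 2 ^ (σ + 1) := h3 γ'
      _ = 2 * 2 ^ σ := by ring
      _ ≤ 2 * n γ := by linarith [h2 γ]
  -- capacity
  have hcap : ∀ (S : Finset Γ) (v : D → k), ‖v‖ = 1 →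
      (∀ γ ∈ S, ‖(g γ).1 *ᵥ v‖ * n γ ≤ R / δ) → (S.card : ℝ) ≤ Mc := by
    intro S v hv hS
    exact_mod_cast ud S fun γ hγ γ' hγ' x =>
      (hN γ).cap (hN γ') hJ hv hC one_le_two (hnn γ γ') (hnn γ' γ) (hS γ hγ) (hS γ' hγ') x
  refine ⟨fun γ => Projectivization.mk k (y γ) (hy0 γ),
    fun γ => {w | ‖(g γ).1 *ᵥ nv w‖ ≤ (R / δ) / n γ}, fun Z f hlc hZ hf => ?_, ?_⟩
  swap
  · intro S a hS
    refine hcap S (nv a) (norm_nv a) fun γ hγ => ?_
    obtain ⟨c, hc, e⟩ := nv_smul (smul_nv (g γ) a)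
    have h4 : δ * ‖(g γ).1 *ᵥ nv a‖ ≤ ‖om J (u γ) ((g γ).1 *ᵥ nv a)‖ := by
      have h5 := hB γ _ (hS γ hγ)
      have e2 : ‖om J (u γ) ((g γ).1 *ᵥ nv a)‖ = ‖c‖ * ‖om J (u γ) (nv (g γ • a))‖ := by
        rw [e, om_smul_right, norm_mul]
      rw [e2, hc, mul_comm]
      exact mul_le_mul_of_nonneg_left h5 (norm_nonneg _)
    have h6 := (hN γ).bB hJ h4
    rw [norm_nv] at h6
    rw [le_div_iff₀ hδ]
    calc ‖(g γ).1 *ᵥ nv a‖ * n γ * δ = δ * (‖(g γ).1 *ᵥ nv a‖ * n γ) := by ring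
      _ ≤ 1 := h6
      _ ≤ R := hR
  -- lifts of the points of `B`
  have hlift : ∀ γ (β : ℙ k (D → k)) (v : D → k) (hv : v ≠ 0),
      Projectivization.mk k v hv = g γ • β → ‖v‖ = 1 → g γ • β ∈ B →
      ∃ b : D → k, (∃ c : k, b = c • nv β) ∧ (g γ).1 *ᵥ b = v ∧ δ ≤ ‖om J (u γ) v‖ := by
    intro γ β v hv e hv1 hβ
    obtain ⟨c, hc⟩ := exists_lift (g γ) e
    refine ⟨c • nv β, ⟨c, rfl⟩, hc, ?_⟩
    obtain ⟨c', hc', e'⟩ := nv_smul e
    rw [e', om_smul_right, norm_mul, hc', hv1, one_mul]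
    exact hB γ _ hβ
  refine ⟨fun γ => Nat.lt_succ_self σ, fun γ => ?_, fun γ y => hZ _, ?_, ?_, ?_, ?_⟩
  · exact hlc.comp_continuous (continuous_const_smul (g γ))
  · -- near points
    rintro γ w ⟨β, hβ, hwβ⟩ hw
    have hn := (hN γ).n0
    obtain ⟨b, ⟨c, hc⟩, hb, hop⟩ := hlift γ β (nv (g γ • β)) (nv_ne _) (mk_nv _) (norm_nv _) hβ
    have hwb : om J (nv w) b = 0 := by
      rw [hc, om_smul_right, hwβ, mul_zero]
    have hd : ‖wg (nv w) (y γ)‖ ≤ (1 / n γ) * n γ := by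
      rw [dst_mk (mk_nv w) (rfl : Projectivization.mk k (y γ) (hy0 γ) = _), norm_nv, (hN γ).ny]
      have e1 : 1 / n γ * n γ = 1 := by field_simp
      rw [e1, one_mul]
      calc dst w (Projectivization.mk k (y γ) (hy0 γ)) * n γ ≤ rd (σ + 1) * 2 ^ (σ + 1) :=
            mul_le_mul hw (h3 γ) hn.le (rd_pos _).le
        _ = 1 := rd_mul_two_pow _
    have h7 := (hN γ).relUp hJ hδ hδ1 (le_of_eq (norm_nv w)) hwb
      (by rw [hb, norm_nv]) (by rw [hb]; exact hop) hd (le_of_eq (by field_simp))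
    change ‖(g γ).1 *ᵥ nv w‖ ≤ (R / δ) / n γ
    refine h7.trans (le_of_eq ?_)
    field_simp
  · intro γ
    have h4 := clo_gen (k := k) (D := D) (fun v => (g γ).1 *ᵥ v)
      (Continuous.matrix_mulVec continuous_const continuous_id)
      (fun c v => by rw [Matrix.mulVec_smul, norm_smul])
      (ρ := (R / δ) / n γ) (div_pos (by linarith) (hN γ).n0)
    rw [IsLocallyConstant.iff_eventually_eq]
    intro x
    by_cases hx : ‖(g γ).1 *ᵥ nv x‖ ≤ (R / δ) / n γ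
    · filter_upwards [h4.isOpen.mem_nhds hx] with z hz
      rw [eq_iff_iff]
      exact ⟨fun _ => hx, fun _ => hz⟩
    · filter_upwards [h4.compl.isOpen.mem_nhds hx] with z hz
      rw [eq_iff_iff]
      exact ⟨fun h => absurd h hz, fun h => absurd h hx⟩
  · intro S a hS
    refine hcap S (nv a) (norm_nv a) fun γ hγ => ?_
    have h4 : ‖(g γ).1 *ᵥ nv a‖ ≤ (R / δ) / n γ := hS γ hγ
    rwa [le_div_iff₀ (hN γ).n0] at h4
  · -- isotropy
    rintro γ j hj w ⟨β, hβ, hwβ⟩ w' ⟨β', hβ', hwβ'⟩ hlo hup hup' hww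
    have hn := (hN γ).n0
    have hjs : rd (j + s) < 1 := by
      have h4 : rd (j + s) ≤ rd 1 := rd_le (by omega)
      have h5 : rd 1 = 1 / 2 := by unfold rd; norm_num
      rw [h5] at h4
      linarith
    obtain ⟨v, hv, e1, e2, e3⟩ := rep_near (x := w') (z := w) (hww.trans_lt hjs)
    obtain ⟨b, ⟨c, hc⟩, hb, hop⟩ := hlift γ β (nv (g γ • β)) (nv_ne _) (mk_nv _) (norm_nv _) hβ
    obtain ⟨v', hv', f1, f2, f3⟩ := rep_near (x := g γ • β) (z := g γ • β')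
      ((hcl.diam _ hβ' _ hβ).trans_lt hκ1)
    obtain ⟨b', ⟨c', hc'⟩, hb', hop'⟩ := hlift γ β' v' hv' f1 f2 hβ'
    have hvb : om J v b = 0 := by
      obtain ⟨a, -, ea⟩ := nv_smul e1
      rw [hc, om_smul_right, ea, om_smul_left, hwβ, mul_zero, mul_zero]
    have hwb' : om J (nv w') b' = 0 := by
      rw [hc', om_smul_right, hwβ', mul_zero]
    have hκ : ‖(g γ).1 *ᵥ b - (g γ).1 *ᵥ b'‖ ≤ κ := by
      rw [hb, hb', norm_sub_rev]
      exact f3.trans (hcl.diam _ hβ' _ hβ)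
    have hr : 1 ≤ rd j * n γ := by
      calc (1 : ℝ) = rd σ * 2 ^ σ := (rd_mul_two_pow σ).symm
        _ ≤ rd j * n γ := mul_le_mul (rd_le hj) (h2 γ) h2σ.le (rd_pos _).le
    have hd : ‖wg (nv w') (y γ)‖ ≤ rd j * n γ := by
      rw [dst_mk (mk_nv w') (rfl : Projectivization.mk k (y γ) (hy0 γ) = _), norm_nv, (hN γ).ny,
        one_mul]
      exact mul_le_mul_of_nonneg_right hup' hn.le
    have hl : rd (j + 1) * n γ ≤ ‖wg v (y γ)‖ := by
      rw [dst_mk e1 (rfl : Projectivization.mk k (y γ) (hy0 γ) = _), e2, (hN γ).ny, one_mul]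
      exact mul_le_mul_of_nonneg_right hlo.le hn.le
    have hjj : rd j = 2 * rd (j + 1) := by
      unfold rd
      rw [pow_succ]
      ring
    have hjs2 : rd (j + s) = rd (j + 1) * rd (s - 1) := by
      unfold rd
      rw [← pow_add]
      congr 1
      omega
    have h8 := (hN γ).isot hJ hδ hδ1 (le_of_eq e2) (le_of_eq (norm_nv w')) hvb hwb'
      (by rw [hb, norm_nv]) (by rw [hb', f2]) (by rw [hb]; exact hop) (by rw [hb']; exact hop')
      hκ (e3.trans hww) hd hr (rd_pos (j + 1)) hl (ε := ε)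
      (by
        rw [hjs2]
        calc R ^ 2 * (rd (j + 1) * rd (s - 1)) = rd (j + 1) * (R ^ 2 * rd (s - 1)) := by ring
          _ ≤ rd (j + 1) * (ε * δ) := mul_le_mul_of_nonneg_left hsR (rd_pos _).le
          _ = ε * rd (j + 1) * δ := by ring)
      (by
        rw [hjj]
        calc R ^ 2 * (2 * rd (j + 1)) * κ = rd (j + 1) * (2 * R ^ 2 * κ) := by ring
          _ ≤ rd (j + 1) * (ε * δ ^ 2) := mul_le_mul_of_nonneg_left hκR (rd_pos _).le
          _ = ε * rd (j + 1) * δ ^ 2 := by ring)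
    exact hf _ _ (dst_le_of (smul_eq (g γ) e1) (smul_nv (g γ) w') h8)

end

end Vale.Agent.P092.H145.WL6
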