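import Vale.Agent.P092.H145.WL2
import Vale.Agent.P092.H145.WL8
import Vale.Agent.P092.SN.Defs

/-!
P092 (helper145), team P, stage 2, row [P2-WL]: **the word lemma** over an ultrametric local field.
The letters `E j` are only completely positive (inequality of Bessel); they are moved by the
contracting elements and fixed by the root groups.
-/

set_option linter.all false

open scoped InnerProductSpace ENNReal LinearAlgebra.Projectivization Matrix
open Filter Topology ContinuousLinearMap MeasureTheory TopologicalSpace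

namespace Vale.Agent.P092.H145

open Vale.Agent.P092.SD (Ms UC)
open Vale.Agent.P092.RC (Cm TRN Pic GG YY)
open Vale.Agent.P092.SN (CY nm PH UD Att act)
open Vale.Agent.P092.H790.CT (PicL lam_norm)
open Vale.Agent.P092.H790.CTA (ORBG SIZEG csm)
open Vale.Agent.P092.H145.WL Vale.Agent.P092.H145.WL2 Vale.Agent.P092.H145.WL3
open Vale.Agent.P092.H145.WL4 Vale.Agent.P092.H145.WL5 Vale.Agent.P092.H145.WL6
open Vale.Agent.P092.H145.WL7 Vale.Agent.P092.H145.WL8

/-! ### Opposite sets -/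

section opp

variable {k : Type*} [NontriviallyNormedField k] [IsUltrametricDist k]
  {D : Type*} [Fintype D] [DecidableEq D] [Nonempty D] {J J' : Matrix D D k}

theorem om_close1 (hJ : Frm J J') {x x' y : ℙ k (D → k)}
    (h : dst x' x < ‖om J (nv x) (nv y)‖) : ‖om J (nv x') (nv y)‖ = ‖om J (nv x) (nv y)‖ := by
  have h1 : ‖om J (nv x) (nv y)‖ ≤ 1 := by
    refine (hJ.om_le _ _).trans ?_
    rw [norm_nv, norm_nv, mul_one]
  obtain ⟨v, hv, e1, e2, e3⟩ := rep_near (h.trans_le h1)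
  obtain ⟨c, hc, e4⟩ := nv_smul e1
  have h2 : ‖om J v (nv y)‖ = ‖om J (nv x) (nv y)‖ := by
    refine norm_eq_of_close ?_
    rw [← om_sub_left]
    refine lt_of_le_of_lt (hJ.om_le _ _) ?_
    rw [norm_nv, mul_one, norm_sub_rev]
    exact e3.trans_lt h
  rw [← h2, e4, om_smul_left, norm_mul, hc, e2, one_mul]

theorem om_close2 (hJ : Frm J J') {x y y' : ℙ k (D → k)}
    (h : dst y' y < ‖om J (nv x) (nv y)‖) : ‖om J (nv x) (nv y')‖ = ‖om J (nv x) (nv y)‖ := by
  have e : ∀ x y, ‖om J (nv x) (nv y)‖ = ‖om J (nv y) (nv x)‖ := fun x y => by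
    rw [hJ.neg, norm_neg]
  rw [e x y, e x y']
  exact om_close1 hJ (by rwa [e y x])

variable [ProperSpace k]

theorem opp_delta (hJ : Frm J J') {A B : Set (ℙ k (D → k))} (hA : IsClosed A) (hB : IsClosed B)
    (h : ∀ x ∈ A, ∀ y ∈ B, om J (nv x) (nv y) ≠ 0) :
    ∃ δ > 0, δ ≤ 1 ∧ ∀ x ∈ A, ∀ y ∈ B, δ ≤ ‖om J (nv x) (nv y)‖ := by
  classical
  have hc : IsCompact (A ×ˢ B) := (hA.isCompact).prod (hB.isCompact)
  let U : ℙ k (D → k) × ℙ k (D → k) → Set (ℙ k (D → k) × ℙ k (D → k)) := fun p =>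
    {x | dst x p.1 ≤ ‖om J (nv p.1) (nv p.2)‖ / 2} ×ˢ
      {y | dst y p.2 ≤ ‖om J (nv p.1) (nv p.2)‖ / 2}
  have hpos : ∀ p ∈ A ×ˢ B, 0 < ‖om J (nv p.1) (nv p.2)‖ := fun p hp =>
    norm_pos_iff.2 (h p.1 hp.1 p.2 hp.2)
  have hU : ∀ p ∈ A ×ˢ B, U p ∈ 𝓝 p := by
    intro p hp
    have h1 := half_pos (hpos p hp)
    have h2 : ∀ x : ℙ k (D → k), {z | dst z x ≤ ‖om J (nv p.1) (nv p.2)‖ / 2} ∈ 𝓝 x := fun x =>
      (um.clo x _ h1).isOpen.mem_nhds (by
        change dst x x ≤ _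
        rw [um.self]
        exact h1.le)
    exact prod_mem_nhds (h2 p.1) (h2 p.2)
  obtain ⟨t, ht, hcov⟩ := hc.elim_nhds_subcover U hU
  have h3 : ∃ r > 0, r ≤ 1 ∧ ∀ p ∈ t, r ≤ ‖om J (nv p.1) (nv p.2)‖ := by
    rcases t.eq_empty_or_nonempty with rfl | hne
    · exact ⟨1, one_pos, le_rfl, fun x hx => by simp at hx⟩
    · obtain ⟨p0, hp0, h4⟩ := t.exists_min_image (fun p => ‖om J (nv p.1) (nv p.2)‖) hne
      refine ⟨min 1 ‖om J (nv p0.1) (nv p0.2)‖, lt_min one_pos (hpos p0 (ht p0 hp0)),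
        min_le_left _ _, fun p hp => (min_le_right _ _).trans (h4 p hp)⟩
  obtain ⟨r, hr, hr1, h4⟩ := h3
  refine ⟨r, hr, hr1, fun x hx y hy => ?_⟩
  have h5 := hcov (Set.mk_mem_prod hx hy)
  simp only [Set.mem_iUnion] at h5
  obtain ⟨p, hp, h6⟩ := h5
  have h7 := hpos p (ht p hp)
  have h8 : dst x p.1 < ‖om J (nv p.1) (nv p.2)‖ :=
    lt_of_le_of_lt (show dst x p.1 ≤ _ from h6.1) (half_lt_self h7)
  have h9 := om_close1 hJ h8
  have h10 : dst y p.2 < ‖om J (nv x) (nv p.2)‖ := by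
    rw [h9]
    exact lt_of_le_of_lt (show dst y p.2 ≤ _ from h6.2) (half_lt_self h7)
  rw [om_close2 hJ h10, h9]
  exact h4 p hp

end opp

/-! ### The data -/

section data

variable {k : Type} [NontriviallyNormedField k] {N : ℕ}

/-- near-wall elements of type 1: all `2 × 2` minors are at most `R` times the norm -/
def NW1 (R : ℝ) (h : GG k N) : Prop :=
  ∀ i j i' j', ‖h.1 i j * h.1 i' j' - h.1 i j' * h.1 i' j‖ ≤ R * nm h

/-- near-wall elements of `Γ` attracted to `A` -/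
def NW1A {Γ : Type} (q : Γ → GG k N) (Z : ℝ → Set Γ) (R T : ℝ) (A : Set (YY k N)) : Set Γ :=
  {γ | γ ∈ Z R ∧ NW1 R (q γ) ∧ Att T A (q γ)}

/-- **The input of the word lemma.** The letters `E j` are indexed by `ι`; `g j` is adapted to the
letter `j`; `hh (g i) b N = (g i * b ^ N * (g i)⁻¹)⁻¹` moves the letter `j` to `tr i N j`. -/
structure WD [ProperSpace k] {G Γ K V : Type} [Group G] [TopologicalSpace G] [Group Γ]
    [NormedAddCommGroup K] [InnerProductSpace ℂ K] [CompleteSpace K] [NormedAddCommGroup V]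
    [MeasurableSpace V] (μ : Measure V) (b : G) (n : V → G) (π : G →* (K →L[ℂ] K))
    (lam : Γ →* (K →L[ℂ] K)) (W : Set (K →L[ℂ] K)) (Ω : K) (m : Set Γ → (K →L[ℂ] K))
    (q : Γ → GG k N) (Z : ℝ → Set Γ) (J J' : Matrix (Fin (N + 1)) (Fin (N + 1)) k) {ι : Type}
    (E : ι → (CY k N →ₗ[ℂ] (K →L[ℂ] K))) (g : ι → G) (tr : ι → ℕ → ι → ι) : Prop where
  frm : Frm J J'
  pic : PicL π lam W Ω
  ms : Ms lam W Ω m
  uc : UC π W Ω m
  orb : ∃ ρ : ℝ, 0 < ρ ∧ ρ < 1 ∧ ORBG μ b n ρ π lam W Ω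
  nc : Tendsto n (𝓝 0) (𝓝 1)
  ph : PH q
  iso : ∀ γ, (q γ).1ᵀ * J * (q γ).1 = J
  ud : ∀ R, UD q (Z R)
  size : SIZEG b π Ω m fun γ => nm (q γ)
  cm : ∀ j f, Cm W (E j f)
  str : ∀ j f, adjoint (E j f) = E j (star f)
  cov : ∀ γ j f, lam γ * E j f * lam γ⁻¹ = E j (act (q γ) f)
  bes : ∀ j, Bes fun f => E j f
  mov : ∀ i t j f, π (hh (g i) b t) * E j f * π (hh (g i) b t)⁻¹ = E (tr i t j) f
  fix : ∀ i j f s, Commute (E j f) (π (g i * n s * (g i)⁻¹))
  dom : ∀ i (u : CY k N) (A : Set (YY k N)), IsOpen A → tsupport u ⊆ A → ∀ ζ : K, ∀ ε > 0,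
    ∃ R : ℝ, ∀ T > 0, ∃ᶠ t : ℕ in atTop,
      ‖E i u ζ‖ ≤ ‖u‖ * ‖m (NW1A q Z R T A) (π (hh (g i) b t) ζ)‖ + ε

end data

section main

variable {k : Type} [NontriviallyNormedField k] [IsUltrametricDist k] [ProperSpace k] {N : ℕ}

theorem nm_smul' {g h : GG k N} {c : k} (e : g.1 = c • h.1) : nm g = nm h := by
  have hc : ‖c‖ = 1 := by
    have h1 := congrArg Matrix.det e
    rw [Matrix.det_smul, g.2, h.2, mul_one, Fintype.card_fin] at h1
    have h2 : ‖c‖ ^ (N + 1) = 1 := by rw [← norm_pow, ← h1, norm_one]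
    exact (pow_eq_one_iff_of_nonneg (norm_nonneg c) (Nat.succ_ne_zero N)).1 h2
  have key : (fun i j => g.1 i j : Fin (N + 1) → Fin (N + 1) → k) =
      c • (fun i j => h.1 i j : Fin (N + 1) → Fin (N + 1) → k) := by
    funext i j
    have := congrFun (congrFun e i) j
    simpa using this
  unfold nm
  rw [key, norm_smul, hc, one_mul]

theorem entry_le' (g : GG k N) (i j : Fin (N + 1)) : ‖g.1 i j‖ ≤ nm g :=
  (norm_le_pi_norm (fun j => g.1 i j) j).trans
    (norm_le_pi_norm (fun i j => g.1 i j : Fin (N + 1) → Fin (N + 1) → k) i)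

theorem nm_le' {g : GG k N} {C : ℝ} (hC : 0 ≤ C) (h : ∀ i j, ‖g.1 i j‖ ≤ C) : nm g ≤ C :=
  (pi_norm_le_iff_of_nonneg hC).2 fun i => (pi_norm_le_iff_of_nonneg hC).2 fun j => h i j

theorem nm_mul' (g h : GG k N) : nm (g * h) ≤ nm g * nm h := by
  have h0 : 0 ≤ nm g * nm h := mul_nonneg (norm_nonneg _) (norm_nonneg _)
  refine nm_le' h0 fun i j => ?_
  change ‖∑ l, g.1 i l * h.1 l j‖ ≤ _
  refine IsUltrametricDist.norm_sum_le_of_forall_le_of_nonneg h0 fun l _ => ?_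
  rw [norm_mul]
  exact mul_le_mul (entry_le' g _ _) (entry_le' h _ _) (norm_nonneg _) (norm_nonneg _)

theorem exists_pivot2 (g : GG k N) : ∃ i0 j0, ‖g.1 i0 j0‖ = nm g := by
  obtain ⟨i, hi⟩ := exists_pivot (k := k) (D := Fin (N + 1)) (fun i => (0 : k))
  obtain ⟨p, hp⟩ := Finite.exists_max fun p : Fin (N + 1) × Fin (N + 1) => ‖g.1 p.1 p.2‖
  exact ⟨p.1, p.2, le_antisymm (entry_le' g _ _) (nm_le' (norm_nonneg _) fun i j => hp (i, j))⟩

theorem nm_pos' (g : GG k N) : 0 < nm g := by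
  obtain ⟨i0, j0, h⟩ := exists_pivot2 g
  rw [← h]
  refine norm_pos_iff.2 fun h0 => ?_
  have h1 : g.1 = 0 := by
    ext a b
    have h2 := entry_le' g a b
    rw [← h, h0, norm_zero] at h2
    exact norm_le_zero_iff.1 h2
  have h4 := g.2
  rw [h1, Matrix.det_zero] at h4
  exact zero_ne_one h4

variable {G Γ K V : Type} [Group G] [TopologicalSpace G] [Group Γ]
  [NormedAddCommGroup K] [InnerProductSpace ℂ K] [CompleteSpace K] [NormedAddCommGroup V]
  [MeasurableSpace V] {μ : Measure V} {b : G} {n : V → G} {π : G →* (K →L[ℂ] K)}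
  {lam : Γ →* (K →L[ℂ] K)} {W : Set (K →L[ℂ] K)} {Ω : K} {m : Set Γ → (K →L[ℂ] K)}
  {q : Γ → GG k N} {Z : ℝ → Set Γ} {J J' : Matrix (Fin (N + 1)) (Fin (N + 1)) k} {ι : Type}
  {E : ι → (CY k N →ₗ[ℂ] (K →L[ℂ] K))} {g : ι → G} {tr : ι → ℕ → ι → ι}

theorem wl_append (L M : List (ι × CY k N)) : wl E (L ++ M) = wl E L * wl E M := by
  unfold wl
  rw [List.map_append, List.prod_append]

theorem wl_single (p : ι × CY k N) : wl E [p] = E p.1 p.2 := by
  unfold wl
  rw [List.map_singleton, List.prod_singleton]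

/-- stars -/
noncomputable def st (p : ι × CY k N) : ι × CY k N := (p.1, star p.2)

theorem act_cg (x : GG k N) (f : CY k N) : act x (cg x f) = f := by
  refine ContinuousMap.ext fun y => ?_
  change f (x • x⁻¹ • y) = f y
  rw [smul_inv_smul]

section wd

variable (h : WD μ b n π lam W Ω m q Z J J' E g tr)
include h

theorem WD.adj_wl (L : List (ι × CY k N)) :
    adjoint (wl E L) = wl E (L.reverse.map st) := by
  induction L with
  | nil =>
    change adjoint (1 : K →L[ℂ] K) = 1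
    exact star_one _
  | cons p L ih =>
    rw [wl_cons, List.reverse_cons, List.map_append, wl_append, ← ih, List.map_singleton,
      wl_single]
    change adjoint (E p.1 p.2 ∘L wl E L) = _
    rw [adjoint_comp, h.str]
    rfl

theorem WD.wl_lam (γ : Γ) (L : List (ι × CY k N)) :
    wl E L * lam γ = lam γ * wl E (tw (q γ) L) := by
  induction L with
  | nil =>
    change 1 * lam γ = lam γ * 1
    rw [one_mul, mul_one]
  | cons p L ih =>
    have e1 : tw (q γ) (p :: L) = (p.1, cg (q γ) p.2) :: tw (q γ) L := rfl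
    have e2 : lam γ⁻¹ * lam γ = 1 := by rw [← map_mul, inv_mul_cancel, map_one]
    have e3 : E p.1 p.2 * lam γ = lam γ * E p.1 (cg (q γ) p.2) := by
      have h1 := h.cov γ p.1 (cg (q γ) p.2)
      rw [act_cg] at h1
      rw [← h1, mul_assoc, e2, mul_one]
    rw [wl_cons, mul_assoc, ih, ← mul_assoc, e3, mul_assoc, e1, wl_cons]

theorem WD.bn_wl (i : ι) (t : ℕ) (L : List (ι × CY k N)) :
    Bn π (g i) b (wl E L) t = wl E (L.map fun p => (tr i t p.1, p.2)) := by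
  induction L with
  | nil =>
    change π (hh (g i) b t) * 1 * π (hh (g i) b t)⁻¹ = 1
    rw [mul_one, pi_mul_inv]
  | cons p L ih =>
    have e : ∀ A B : K →L[ℂ] K, Bn π (g i) b (A * B) t = Bn π (g i) b A t * Bn π (g i) b B t := by
      intro A B
      unfold Bn
      calc π (hh (g i) b t) * (A * B) * π (hh (g i) b t)⁻¹ =
          π (hh (g i) b t) * A * 1 * (B * π (hh (g i) b t)⁻¹) := by
            simp only [mul_assoc, one_mul]
        _ = _ := by rw [← pi_inv_mul π (hh (g i) b t)]; simp only [mul_assoc]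
    rw [wl_cons, e, ih, List.map_cons, wl_cons]
    congr 1
    exact h.mov i t p.1 p.2

theorem WD.cm_wl (L : List (ι × CY k N)) : Cm W (wl E L) := by
  induction L with
  | nil =>
    intro w _
    change 1 * w = w * 1
    rw [one_mul, mul_one]
  | cons p L ih =>
    intro w hw
    rw [wl_cons, mul_assoc, ih w hw, ← mul_assoc, h.cm _ _ w hw, mul_assoc]

theorem WD.fix_wl (i : ι) (s : V) (L : List (ι × CY k N)) :
    Commute (wl E L) (π (g i * n s * (g i)⁻¹)) := by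
  induction L with
  | nil => exact Commute.one_left _
  | cons p L ih =>
    rw [wl_cons]
    exact (h.fix i p.1 p.2 s).mul_left ih

theorem WD.nw (γ : Γ) {R δ T : ℝ} (hδ : 0 < δ) (hδ1 : δ ≤ 1) (hT : 1 / T < δ) (hT0 : 0 < T)
    {A : Set (YY k N)} {f : CY k N} (hAf : ∀ x ∈ A, ∀ y, f y ≠ 0 → δ ≤ ‖om J (nv x) (nv y)‖)
    (hγ : γ ∈ NW1A q Z R T A) :
    ∃ u y xu M, NWD J (max R 1) (nmm (q γ)) (q γ).1 u y xu M ∧
      ∀ a, f a ≠ 0 → δ ≤ ‖om J u (nv a)‖ := by
  obtain ⟨-, hnw, v, φ, hv, hvA, hvφ⟩ := hγ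
  obtain ⟨i0, j0, hp⟩ := exists_pivot2 (q γ)
  have hn := nm_pos' (q γ)
  have hne : (q γ).1 i0 j0 ≠ 0 := by
    rw [← norm_pos_iff, hp]
    exact hn
  obtain ⟨y, xu, M, h1⟩ := nwd_of h.frm (h.iso γ) (le_max_right R 1) i0 j0
    (fun i j => by
      rw [hp]
      exact entry_le' _ _ _)
    (fun i j i' j' => by
      rw [hp]
      exact (hnw i j i' j').trans (mul_le_mul_of_nonneg_right (le_max_left _ _) hn.le))
  rw [hp] at h1
  refine ⟨_, y, xu, M, h1, fun a ha => ?_⟩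
  obtain ⟨u, hu⟩ : ∃ u : Fin (N + 1) → k, u = ((q γ).1 i0 j0)⁻¹ • fun i => (q γ).1 i j0 := ⟨_, rfl⟩
  rw [← hu]
  have hu1 : ‖u‖ = 1 := by
    rw [hu]
    exact h1.nu
  obtain ⟨c, hc⟩ : ∃ c : k, c = φ j0 / (q γ).1 i0 j0 := ⟨_, rfl⟩
  have hclose : ‖u - c • v‖ ≤ 1 / T := by
    refine (pi_norm_le_iff_of_nonneg (by positivity)).2 fun i => ?_
    have e : (u - c • v) i = ((q γ).1 i j0 - v i * φ j0) / (q γ).1 i0 j0 := by
      rw [hu, hc]
      change ((q γ).1 i0 j0)⁻¹ * (q γ).1 i j0 - φ j0 / (q γ).1 i0 j0 * v i = _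
      field_simp
    rw [e, norm_div, hp, div_le_div_iff₀ hn hT0]
    have h2 := hvφ i j0
    rw [le_div_iff₀ hT0] at h2
    linarith
  have hcv1 : ‖c • v‖ = 1 := by
    rw [← hu1]
    refine norm_eq_of_close ?_
    rw [hu1]
    linarith
  have hcv0 : c • v ≠ 0 := by
    rw [← norm_pos_iff, hcv1]
    exact one_pos
  have hc0 : c ≠ 0 := fun h0 => hcv0 (by rw [h0, zero_smul])
  have hmk : Projectivization.mk k (c • v) hcv0 = Projectivization.mk k v hv := by
    rw [Projectivization.mk_eq_mk_iff']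
    exact ⟨c, rfl⟩
  obtain ⟨c', hc', e'⟩ := nv_smul hmk
  have h3 : ‖om J (c • v) (nv a)‖ = ‖om J (nv (Projectivization.mk k v hv)) (nv a)‖ := by
    rw [e', om_smul_left, norm_mul, hc', hcv1, one_mul]
  have h4 := hAf _ hvA a ha
  rw [← h3] at h4
  have h5 : ‖om J u (nv a)‖ = ‖om J (c • v) (nv a)‖ := by
    refine norm_eq_of_close ?_
    rw [← om_sub_left]
    refine lt_of_le_of_lt (h.frm.om_le _ _) ?_
    rw [norm_nv, mul_one, norm_sub_rev]
    linarith
  rw [h5]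
  exact h4

theorem WD.udx (R : ℝ) (C : ℝ) : ∃ Mc : ℕ, ∀ S : Finset Γ, (∀ γ ∈ S, γ ∈ Z R) →
    (∀ γ ∈ S, ∀ γ' ∈ S, ∀ x, ‖(q γ').1 *ᵥ x‖ ≤ C * ‖(q γ).1 *ᵥ x‖) → S.card ≤ Mc := by
  obtain ⟨Mc, hMc⟩ := h.ud R (max C 0)
  refine ⟨Mc, fun S hS hx => hMc S hS fun γ hγ γ' hγ' => nm_le' (le_max_right _ _) fun i j => ?_⟩
  have h1 := hx γ hγ γ' hγ' (((q γ)⁻¹).1 *ᵥ Pi.single j 1)
  have e1 : (q γ).1 * ((q γ)⁻¹).1 = 1 := congrArg Subtype.val (mul_inv_cancel (q γ))
  rw [Matrix.mulVec_mulVec, Matrix.mulVec_mulVec, e1, Matrix.one_mulVec] at h1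
  have h2 : ‖(Pi.single j (1 : k) : Fin (N + 1) → k)‖ ≤ 1 := by
    refine (pi_norm_le_iff_of_nonneg zero_le_one).2 fun i => ?_
    by_cases hij : i = j
    · rw [hij, Pi.single_eq_same, norm_one]
    · rw [Pi.single_eq_of_ne hij, norm_zero]
      exact zero_le_one
  have h3 : ((q γ').1 * ((q γ)⁻¹).1) *ᵥ Pi.single j 1 =
      fun i => ((q γ').1 * ((q γ)⁻¹).1) i j := by
    rw [Matrix.mulVec_single_one]
    rfl
  rw [h3] at h1
  have h4 : ‖(q γ' * (q γ)⁻¹).1 i j‖ ≤ C * ‖(Pi.single j (1 : k) : Fin (N + 1) → k)‖ :=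
    (norm_le_pi_norm (fun i => ((q γ').1 * ((q γ)⁻¹).1) i j) i).trans h1
  refine h4.trans ?_
  calc C * ‖(Pi.single j (1 : k) : Fin (N + 1) → k)‖
      ≤ max C 0 * ‖(Pi.single j (1 : k) : Fin (N + 1) → k)‖ :=
        mul_le_mul_of_nonneg_right (le_max_left _ _) (norm_nonneg _)
    _ ≤ max C 0 * 1 := mul_le_mul_of_nonneg_left h2 (le_max_right _ _)
    _ = max C 0 := mul_one _

end wd

variable [IsTopologicalGroup G] [ProperSpace V] [BorelSpace V] [IsFiniteMeasureOnCompacts μ]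
  [μ.IsOpenPosMeasure]

/-- the step of the induction -/
theorem WD.step (h : WD μ b n π lam W Ω m q Z J J' E g tr) {i j : ι} {L : List (ι × CY k N)}
    (hL : ∀ p ∈ L, IsLocallyConstant p.2) {u f : CY k N} (hu : IsLocallyConstant u)
    (hf : IsLocallyConstant f) (hO : Opp J u f) (hW : Wn J E L.length) :
    E i u * wl E L * E j f = 0 := by
  classical
  obtain ⟨ρ, hρ, hρ1, hORB⟩ := h.orb
  have eB : wl E L * E j f = wl E (L ++ [(j, f)]) := by
    rw [wl_append, wl_single]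
  rw [mul_assoc, eB]
  -- supports
  have clu : IsClopen {x | u x ≠ 0} := (hu.isClopen_fiber 0).compl
  have clf : IsClopen {x | f x ≠ 0} := (hf.isClopen_fiber 0).compl
  have tsu : tsupport u ⊆ {x | u x ≠ 0} := closure_minimal (fun x hx => hx) clu.isClosed
  obtain ⟨δ, hδ, hδ1, hδO⟩ := opp_delta h.frm clu.isClosed clf.isClosed
    (fun x hx y hy => hO x y hx hy)
  obtain ⟨η, hη, hpoly⟩ := of_poly (lam := lam) (Ω := Ω) (sz := fun γ => nm (q γ)) hρ hρ1
    (fun γ => nm_pos' (q γ)) (2 * L.length + 1)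
  refine WL2.mul_zero_of_dom (μ := μ) (n := n) h.pic h.ms h.uc hρ.le h.nc hORB
    (sz := fun γ => nm (q γ)) (fun γ => ⟨max 1 (nm (q γ)), le_max_left _ _, fun y => ?_⟩) h.size
    (g := g i) (fun t => ?_) (fun t s => ?_) (c := ‖u‖) fun ζ ε hε => ?_
  · obtain ⟨c, hc⟩ := h.ph γ y
    change nm (q (γ * y)) ≤ _
    rw [nm_smul' hc]
    refine (nm_mul' _ _).trans (mul_le_mul_of_nonneg_right (le_max_right _ _) (norm_nonneg _))
  · rw [h.bn_wl]
    exact h.cm_wl _
  · rw [h.bn_wl]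
    exact h.fix_wl i s _
  obtain ⟨R, hR⟩ := h.dom i u {x | u x ≠ 0} clu.isOpen tsu ζ ε hε
  have hT0 : 0 < 2 / δ := by positivity
  refine ⟨NW1A q Z R (2 / δ) {x | u x ≠ 0}, ⟨η, hη, ?_⟩, hR _ hT0⟩
  -- the list of functions
  obtain ⟨Fl, hFl⟩ : ∃ Fl : List (CY k N), Fl = (L.map Prod.snd).reverse.map star := ⟨_, rfl⟩
  have hlen : Fl.length = L.length := by
    rw [hFl, List.length_map, List.length_reverse, List.length_map]
  have hstar : ∀ {f : CY k N}, IsLocallyConstant f → IsLocallyConstant (star f : CY k N) :=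
    fun hf => hf.comp star
  obtain ⟨C, hC⟩ := big_count (R := max R 1) h.frm hδ hδ1 (le_max_right _ _) (q := q)
    (𝒢 := NW1A q Z R (2 / δ) {x | u x ≠ 0}) (f₀ := star f) (hstar hf)
    (fun γ hγ => h.nw γ hδ hδ1 (by
        rw [one_div_div]
        linarith) hT0 (fun x hx y hy => hδO x hx y (fun h0 => hy (by
          change star (f y) = 0
          rw [h0, star_zero]))) hγ)
    (fun C => by
      obtain ⟨Mc, hMc⟩ := h.udx R C
      exact ⟨Mc, fun S hS => hMc S fun γ hγ => (hS γ hγ).1⟩)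
    (E := E) h.bes Fl (fun f' hf' => by
      rw [hFl] at hf'
      obtain ⟨f'', h1, rfl⟩ := List.mem_map.1 hf'
      obtain ⟨p, h2, rfl⟩ := List.mem_map.1 (List.mem_reverse.1 h1)
      exact hstar (hL p h2)) (by rw [hlen]; exact hW)
  refine hpoly _ _ (C * ‖Ω‖ ^ 2) fun t T hT S hS => ?_
  obtain ⟨L', hL'⟩ : ∃ L' : List (ι × CY k N),
      L' = ((L.map fun p => (tr i t p.1, p.2)).reverse).map st := ⟨_, rfl⟩
  have hL'F : L'.map Prod.snd = Fl := by
    rw [hL', hFl, List.map_map, ← List.map_reverse, List.map_map, ← List.map_reverse,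
      List.map_map]
    rfl
  have e1 : ∀ γ, ‖adjoint (Bn π (g i) b (wl E (L ++ [(j, f)])) t) (lam γ Ω)‖ =
      ‖(E (tr i t j) (cg (q γ) (star f)) * wl E (tw (q γ) L')) Ω‖ := by
    intro γ
    rw [h.bn_wl, h.adj_wl, List.map_append, List.reverse_append, List.map_append]
    have e2 : List.map st (List.map (fun p : ι × CY k N => (tr i t p.1, p.2)) [(j, f)]).reverse ++
        List.map st (List.map (fun p : ι × CY k N => (tr i t p.1, p.2)) L).reverse =
        (tr i t j, star f) :: L' := by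
      rw [hL']
      rfl
    rw [e2]
    have e3 : wl E ((tr i t j, star f) :: L') (lam γ Ω) =
        lam γ (wl E (tw (q γ) ((tr i t j, star f) :: L')) Ω) :=
      congrArg (fun A : K →L[ℂ] K => A Ω) (h.wl_lam γ ((tr i t j, star f) :: L'))
    rw [e3, lam_norm h.pic]
    rfl
  have e4 := hC L' hL'F (tr i t j) T hT S hS Ω
  rw [hlen] at e4
  simp only [e1]
  refine e4.trans (le_of_eq ?_)
  ring

/-- **The word lemma for locally constant functions.** -/
theorem WD.wn (h : WD μ b n π lam W Ω m q Z J J' E g tr) (t : ℕ) : Wn J E t := by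
  induction t with
  | zero => exact fun i j L hL => absurd hL (Nat.not_lt_zero _)
  | succ t ih =>
    intro i j L hL hlc u f hu hf hO
    exact h.step hlc hu hf hO fun i' j' L' hL' => ih i' j' L' (by omega)

end main

end Vale.Agent.P092.H145
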